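import Vale.Agent.P287.H69.OddEven
import Vale.Agent.P287.H925.RankIso

/-!
Cubic fourfolds containing a plane and a scroll of lines of even degree over a plane curve of odd
degree: the theorem in terms of the matrix of the quadric surface fibration.
-/

open MvPolynomial

namespace Vale.Agent.P287.H69

open Vale.Agent.P287 Vale.Agent.P287.H631

/-- The polynomials vanishing on the scroll. -/
def scrollIdealM {κ : Type} [Field κ] (φ : R3 →+* κ) (W : Submodule κ (Fin 4 → κ)) :
    Set (MvPolynomial (Fin 6) ℂ) :=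
  {p | ∀ w ∈ W, eval₂ (φ.comp C)
    ![w 3 * φ (X 0), w 3 * φ (X 1), w 3 * φ (X 2), w 0, w 1, w 2] p = 0}

theorem odd_scroll_theorem (M : Matrix (Fin 4) (Fin 4) R3) (hM : M.IsSymm)
    (hdeg : ∀ i j, (M i j).IsHomogeneous (1 + H925.wt i + H925.wt j))
    (hs : SmoothForm (H925.cubicOf M))
    (hC : ∀ z : Fin 3 → ℂ, (∀ i, aeval z (pderiv i M.det) = 0) → z = 0)
    {κ : Type} [Field κ] (φ : R3 →+* κ) (g : R3) (hg : Irreducible g)
    (hφ : ∀ p, φ p = 0 ↔ g ∣ p) {m : ℕ} (hm : 2 ≤ m) (hgm : g.IsHomogeneous (2 * m + 1))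
    (W : Submodule κ (Fin 4 → κ)) (hW : Module.finrank κ W = 2)
    (hiso : ∀ w ∈ W, w ⬝ᵥ ((M.map φ).mulVec w) = 0)
    (f : Fin 3 → Fin 4 → R3) (hf : ∀ j, H925.ScrollForm φ W m (f j))
    (hLI : LinearIndependent RatK (fun j i => (aeval tvec (f j i) : RatK)))
    {s : ℕ} (hev : Even s) (hsd : HasDegree (scrollIdealM φ W) s) :
    Nonempty (FractionRing (MvPolynomial (Fin 5) ℂ ⧸ Ideal.span {chart (H925.cubicOf M)}) ≃ₐ[ℂ]
      FractionRing (MvPolynomial (Fin 4) ℂ)) := by
  classical
  let _ : Algebra ℂ κ := (φ.comp C).toAlgebra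
  set τ : Fin 3 → κ := fun i => φ (X i) with hτd
  let φa : R3 →ₐ[ℂ] κ := { φ with commutes' := fun z => rfl }
  have hφa : ∀ p : R3, aeval τ p = φ p := by
    intro p
    have h1 : (aeval τ : R3 →ₐ[ℂ] κ) = φa := by
      apply MvPolynomial.algHom_ext
      intro i
      rw [aeval_X]
      rfl
    rw [h1]
    rfl
  -- the cubic form
  obtain ⟨B, hB⟩ := exists_cubic (H925.cubicOf M) (H925.cubicOf_homogeneous M hdeg) (by
    intro y
    have h1 := aeval_wvec_cubicOf' M hdeg (0 : Fin 3 → ℂ) ![1, y 0, y 1, y 2]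
    have h2 : (wvec (0 : Fin 3 → ℂ) ![1, y 0, y 1, y 2] : Fin 6 → ℂ) =
        ![0, 0, 0, y 0, y 1, y 2] := by
      funext i
      fin_cases i <;> simp [wvec]
    rw [h2] at h1
    rw [h1]
    have h3 : ∀ i j, aeval (0 : Fin 3 → ℂ) (M i j) = 0 := by
      intro i j
      have h4 := aeval_smul_of_homog (hdeg i j) (0 : ℂ) (0 : Fin 3 → ℂ)
      rw [zero_smul] at h4
      rw [h4, zero_pow (by omega), zero_mul]
    simp [h3])
  -- the plane in the coordinates `v₀, …, v₃`
  let ep : (Fin 4 → κ) ≃ₗ[κ] (Fin 4 → κ) := LinearEquiv.funCongrLeft κ κ H925.perm4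
  have hep : ∀ v i, ep v i = v (H925.perm4 i) := fun v i => rfl
  set W' : Submodule κ (Fin 4 → κ) := W.comap ep.toLinearMap with hW'
  have hmem : ∀ v, v ∈ W' ↔ ep v ∈ W := fun v => Iff.rfl
  have hW2 : Module.finrank κ W' = 2 := by
    have h1 : W' = W.map ep.symm.toLinearMap := by
      ext v
      rw [hmem, Submodule.mem_map]
      constructor
      · intro h
        exact ⟨ep v, h, ep.symm_apply_apply v⟩
      · rintro ⟨w, hw, rfl⟩
        change ep (ep.symm w) ∈ W
        rwa [ep.apply_symm_apply]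
    rw [h1]
    exact (LinearEquiv.finrank_map_eq ep.symm W).trans hW
  -- the quadratic form
  have hnet : ∀ v : Fin 4 → κ, net B τ (wvec τ v) =
      ∑ i, ∑ j, φ (M i j) * (ep v i * ep v j) := by
    intro v
    rw [← qf_QR]
    have h1 : ∀ (T : Matrix (Fin 4) (Fin 4) R3) (v : Fin 4 → κ),
        qf (T.map (aeval τ : R3 →ₐ[ℂ] κ)) v = ∑ i, ∑ j, φ (T i j) * (v i * v j) := by
      intro T v
      simp only [qf, Matrix.map_apply, hφa, Algebra.algebraMap_self, RingHom.id_apply]
    -- both sides come from the same polynomials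
    let P := MvPolynomial (Fin 4) R3
    have hpoly : (∑ i, ∑ j, C (QR B i j) * (X i * X j) : P) =
        ∑ i, ∑ j, C (Q4 M i j) * (X i * X j) := by
      apply MvPolynomial.funext
      intro x
      simp only [map_sum, map_mul, eval_C, eval_X]
      have h2 := qf_QR_eq M hdeg hB x
      simpa only [qf, Algebra.algebraMap_self, RingHom.id_apply] using h2
    have h3 := congrArg (eval₂Hom φ v) hpoly
    simp only [map_sum, map_mul, eval₂Hom_C, eval₂Hom_X'] at h3
    rw [h1, h3, ← Equiv.sum_comp H925.perm4]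
    refine Finset.sum_congr rfl fun i _ => ?_
    rw [← Equiv.sum_comp H925.perm4]
    refine Finset.sum_congr rfl fun j _ => ?_
    simp only [Q4, Matrix.submatrix_apply, Equiv.symm_apply_apply, hep]
  -- the forms
  set a : Fin 3 → Fin 3 → R3 := fun j i => f j (Fin.castSucc i) with ha
  set b : Fin 3 → R3 := fun j => f j 3 with hb
  have hNm : ∀ j k, f j k = Nm a b j (H925.perm4 k) := by
    intro j k
    fin_cases k <;> rfl
  have hres := odd_even B (hB ▸ hs) (Q4 M) (Q4_symm M hM) (qf_QR_eq M hdeg hB)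
    (by rw [Q4_det]; exact hC) hm hg.prime hgm τ (fun p => by rw [hφa]; exact hφ p) W' hW2
    (fun w hw => by
      rw [hnet]
      have h1 := hiso (ep w) hw
      rw [← h1]
      simp only [dotProduct, Matrix.mulVec, Matrix.map_apply, Finset.mul_sum]
      refine Finset.sum_congr rfl fun i _ => Finset.sum_congr rfl fun j _ => ?_
      ring)
    (a := a) (b := b)
    (fun j i => by
      have h1 := (hf j).hom (Fin.castSucc i)
      have h2 : H925.wt (Fin.castSucc i) = 0 := by fin_cases i <;> rfl
      rw [h2, add_zero] at h1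
      exact h1)
    (fun j => (hf j).hom 3)
    (fun w hw j => by
      have h1 := (hf j).van (ep w) hw
      rw [Fin.sum_univ_four] at h1
      have e0 : ep w 0 = w 1 := rfl
      have e1 : ep w 1 = w 2 := rfl
      have e2 : ep w 2 = w 3 := rfl
      have e3 : ep w 3 = w 0 := rfl
      rw [e0, e1, e2, e3] at h1
      rw [hφa, Fin.sum_univ_three, hφa, hφa, hφa, ← h1]
      change φ (f j 3) * w 0 + (φ (f j 0) * w 1 + φ (f j 1) * w 2 + φ (f j 2) * w 3) = _
      ring)
    (by
      rw [Fintype.linearIndependent_iff] at hLI ⊢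
      intro c hc
      apply hLI c
      funext k
      have h1 := congrFun hc (H925.perm4 k)
      rw [Finset.sum_apply] at h1 ⊢
      refine Eq.trans (Finset.sum_congr rfl fun j _ => ?_) h1
      simp only [Pi.smul_apply, smul_eq_mul, Matrix.map_apply]
      rw [hNm])
    hev (s := s) (by
      have h1 : scrollIdeal τ W' = scrollIdealM φ W := by
        have hev : ∀ (p : MvPolynomial (Fin 6) ℂ) (v : Fin 4 → κ), aeval (wvec τ v) p =
            eval₂ (φ.comp C) ![ep v 3 * φ (X 0), ep v 3 * φ (X 1), ep v 3 * φ (X 2), ep v 0,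
              ep v 1, ep v 2] p := by
          intro p v
          rfl
        ext p
        constructor
        · intro h w hw
          have h2 := h (ep.symm w) (by
            change ep (ep.symm w) ∈ W
            rwa [ep.apply_symm_apply])
          rw [hev, ep.apply_symm_apply] at h2
          exact h2
        · intro h v hv
          rw [hev]
          exact h (ep v) hv
      rw [h1]
      exact hsd)
  rw [hB]
  exact hres

end Vale.Agent.P287.H69
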