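import Vale.Agent.P287.H589.OddPt
import Vale.Agent.P287.H631.Const

/-!
From a point over a field of odd degree to a rational point of the second fibration.
-/

open MvPolynomial

namespace Vale.Agent.P287.H69

open Vale.Agent.P287 Vale.Agent.P287.H631

/-- Block [P] of the odd theta theorem: over an extension `E` of odd degree of `ℂ(s₀, s₁)` there is a
point `P` of the curve `g = 0` such that `f (P) A (x, x; P)` and `c₀ (P) ^ 2 A (x, x; P)` are squares;
the polynomials `c₀`, `f`, `g` have no common zero. -/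
theorem point_of_residue (A : Matrix (Fin 3) (Fin 3) R3) (hA2 : ∀ i j, (A i j).IsHomogeneous 2)
    {g f c₀ : R3} {n d e : ℕ} (hgp : Prime g) (hg : g.IsHomogeneous n) (hf : f.IsHomogeneous (2 * d))
    (hc : c₀.IsHomogeneous e) (hgc : ¬ g ∣ c₀)
    (hH : ∀ z : Fin 3 → ℂ, z ≠ 0 → ¬ (aeval z c₀ = 0 ∧ aeval z f = 0 ∧ aeval z g = 0))
    {E : Type} [Field E] [Algebra ℂ E] [Algebra RatK E] [IsScalarTower ℂ RatK E]
    (hodd : Odd (Module.finrank RatK E)) (P : Fin 3 → E) (hP : P ≠ 0) (hgP : aeval P g = 0)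
    (s t : E)
    (hs : s ^ 2 = aeval P f * ∑ i, ∑ j, algebraMap RatK E (tvec i * tvec j) * aeval P (A i j))
    (ht : t ^ 2 = aeval P c₀ ^ 2 *
      ∑ i, ∑ j, algebraMap RatK E (tvec i * tvec j) * aeval P (A i j)) :
    ∃ (s' : RatK) (t' : Fin 3 → RatK), (t' ≠ 0 ∨ s' ≠ 0) ∧
      s' ^ 2 = ∑ i, ∑ j, aeval t' (A i j) * (tvec i * tvec j) := by
  classical
  have hchar : CharZero RatK := charZero_of_injective_algebraMap (algebraMap ℂ RatK).injective
  -- it is enough to find a point over `E`
  have key : ∀ P : Fin 3 → E, P ≠ 0 → ∀ σ : E,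
      σ ^ 2 = ∑ i, ∑ j, algebraMap RatK E (tvec i * tvec j) * aeval P (A i j) →
      ∃ (s' : RatK) (t' : Fin 3 → RatK), (t' ≠ 0 ∨ s' ≠ 0) ∧
      s' ^ 2 = ∑ i, ∑ j, aeval t' (A i j) * (tvec i * tvec j) := by
    intro P hP σ hσ
    obtain ⟨Q, hQ⟩ := H589.exists_matrix A hA2 tvec
    have h0 : (Fin.cons σ P : Fin 4 → E) ≠ 0 := by
      intro h
      apply hP
      funext i
      have := congrFun h i.succ
      rwa [Fin.cons_succ] at this
    obtain ⟨w, hw0, hw⟩ := H589.springer_isotropic hodd Q _ h0 (by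
      rw [hQ E, hσ]
      exact sub_self _)
    have hw' : (Fin.cons (w 0) (fun i => w i.succ) : Fin 4 → RatK) = w := Fin.cons_self_tail w
    refine ⟨w 0, fun i => w i.succ, ?_, ?_⟩
    · by_contra hcon
      push Not at hcon
      apply hw0
      rw [← hw', hcon.2, hcon.1]
      funext i
      refine Fin.cases ?_ (fun j => ?_) i <;> simp
    · rw [← hw', hQ RatK, sub_eq_zero] at hw
      rw [hw]
      simp only [H589.axt, Algebra.algebraMap_self, RingHom.id_apply]
      refine Finset.sum_congr rfl fun i _ => Finset.sum_congr rfl fun j _ => ?_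
      rw [mul_comm]
  by_cases hc0 : aeval P c₀ = 0
  · -- a constant point
    obtain ⟨z, r, hzr⟩ := exists_const hgp hg hc hgc P hgP hc0
    have hr : r ≠ 0 := by
      rintro rfl
      apply hP
      rw [hzr, zero_smul]
    have hz : z ≠ 0 := by
      rintro rfl
      apply hP
      rw [hzr]
      funext i
      simp
    have hval : ∀ {p : R3} {k : ℕ}, p.IsHomogeneous k →
        aeval P p = r ^ k * algebraMap ℂ E (aeval z p) := by
      intro p k hp
      have h1 := aeval_smul_of_homog hp r (fun i => algebraMap ℂ E (z i))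
      rw [← hzr] at h1
      rw [h1]
      congr 1
      exact (MvPolynomial.comp_aeval_apply (R := ℂ) z (Algebra.ofId ℂ E) p).symm
    have hzero : ∀ {p : R3} {k : ℕ}, p.IsHomogeneous k → aeval P p = 0 → aeval z p = 0 := by
      intro p k hp h
      rw [hval hp] at h
      exact (map_eq_zero _).mp ((mul_eq_zero.mp h).resolve_left (pow_ne_zero _ hr))
    have hfz : aeval z f ≠ 0 := fun h => hH z hz ⟨hzero hc hc0, h, hzero hg hgP⟩
    -- replace the point by the constant point
    obtain ⟨γ, hγ⟩ := IsAlgClosed.exists_pow_nat_eq (aeval z f : ℂ) two_pos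
    have hγ0 : γ ≠ 0 := by
      rintro rfl
      apply hfz
      rw [← hγ]
      ring
    set γE : E := algebraMap ℂ E γ with hγE
    have hγE0 : γE ≠ 0 := by
      rw [hγE]
      exact (map_ne_zero _).mpr hγ0
    set Pz : Fin 3 → E := fun i => algebraMap ℂ E (z i) with hPz
    have hPz0 : Pz ≠ 0 := by
      intro h
      apply hz
      funext i
      have := congrFun h i
      exact (map_eq_zero _).mp this
    have hfP : aeval P f = r ^ (2 * d) * γE ^ 2 := by
      rw [hval hf, ← hγ, map_pow]
    have hAP : ∀ i j, aeval P (A i j) = r ^ 2 * aeval Pz (A i j) := by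
      intro i j
      have h1 := aeval_smul_of_homog (hA2 i j) r Pz
      rw [← h1, hzr]
    refine key Pz hPz0 (s / (r ^ (d + 1) * γE)) ?_
    rw [div_pow, hs, hfP]
    simp only [hAP]
    have h2 : ∑ i, ∑ j, algebraMap RatK E (tvec i * tvec j) * (r ^ 2 * aeval Pz (A i j)) =
        r ^ 2 * ∑ i, ∑ j, algebraMap RatK E (tvec i * tvec j) * aeval Pz (A i j) := by
      simp only [Finset.mul_sum]
      refine Finset.sum_congr rfl fun i _ => Finset.sum_congr rfl fun j _ => ?_
      ring
    rw [h2, div_eq_iff (pow_ne_zero _ (mul_ne_zero (pow_ne_zero _ hr) hγE0))]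
    ring
  · refine key P hP (t / aeval P c₀) ?_
    rw [div_pow, ht]
    field_simp

end Vale.Agent.P287.H69
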