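import Vale.Agent.P287.H69.VerraNd
import Vale.Agent.P287.H631.RatTr
import Vale.Agent.P287.H631.Second
import Vale.Agent.P287.H631.Scale

/-!
A cubic fourfold containing a plane is rational as soon as its quadric surface fibration is similar,
over the function field of the plane, to the first fibration of a double cover of the product of two
planes branched along a divisor of bidegree `(2, 2)`, and the second fibration has a rational point.
-/

open MvPolynomial

namespace Vale.Agent.P287.H69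

open Vale.Agent.P287 Vale.Agent.P287.H631

section

variable {K E : Type} [Field K] [Infinite K] [Field E] [Algebra K E]

/-- Transport of the similarity to extension fields. -/
lemma transport_sim {A : Matrix (Fin 3) (Fin 3) K} {q : Matrix (Fin 4) (Fin 4) K} {l : K}
    {T : Matrix (Fin 4) (Fin 4) K}
    (h : ∀ v : Fin 4 → K, (act T v) 0 ^ 2 - ∑ i, ∑ j, A i j *
      ((act T v) (Fin.succ i) * (act T v) (Fin.succ j)) = l * qf q v) (w : Fin 4 → E) :
    (act T w) 0 ^ 2 - ∑ i, ∑ j, algebraMap K E (A i j) *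
      ((act T w) (Fin.succ i) * (act T w) (Fin.succ j)) = algebraMap K E l * qf q w := by
  let P := MvPolynomial (Fin 4) K
  set D : P := (act T (X : Fin 4 → P)) 0 ^ 2 - ∑ i, ∑ j, algebraMap K P (A i j) *
      ((act T (X : Fin 4 → P)) (Fin.succ i) * (act T (X : Fin 4 → P)) (Fin.succ j)) -
      algebraMap K P l * qf q (X : Fin 4 → P) with hD
  have key : ∀ {B : Type} [CommRing B] [Algebra K B] (u : Fin 4 → B),
      aeval u D = (act T u) 0 ^ 2 - ∑ i, ∑ j, algebraMap K B (A i j) *
      ((act T u) (Fin.succ i) * (act T u) (Fin.succ j)) - algebraMap K B l * qf q u := by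
    intro B _ _ u
    have h1 := map_act (aeval u : P →ₐ[K] B) T (X : Fin 4 → P)
    have hX : (fun i => (aeval u : P →ₐ[K] B) ((X : Fin 4 → P) i)) = u := by
      funext i
      simp
    rw [hX] at h1
    have h2 : ∀ i, (aeval u : P →ₐ[K] B) (act T (X : Fin 4 → P) i) = act T u i :=
      fun i => congrFun h1 i
    have h3 := map_qf (aeval u : P →ₐ[K] B) q (X : Fin 4 → P)
    rw [hX] at h3
    have hc : ∀ c : K, (aeval u : P →ₐ[K] B) (algebraMap K P c) = algebraMap K B c :=
      fun c => (aeval u : P →ₐ[K] B).commutes c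
    rw [hD]
    simp only [map_sub, map_pow, map_sum, map_mul, h2, h3, hc]
  have h0 := aeval_eq_zero_of_forall D (fun u => by
    rw [key]
    simpa [sub_eq_zero] using h u) w
  rw [key] at h0
  exact sub_eq_zero.mp h0

end

/-- **Verra fourfolds.** -/
theorem fourGenerated_of_verra {E : Type} [Field E] [Algebra ℂ E] [Algebra RatK E]
    [IsScalarTower ℂ RatK E] {q : Matrix (Fin 4) (Fin 4) RatK} {η : Fin 4 → E}
    (H : QuadricPoint RatK E tvec q η) (htr : (4 : Cardinal) ≤ Algebra.trdeg ℂ E)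
    (Θ : Fin 3 → Fin 3 → Matrix (Fin 3) (Fin 3) ℂ) (l : RatK)
    (T : Matrix (Fin 4) (Fin 4) RatK) (hT : T.det ≠ 0)
    (hsim : ∀ v : Fin 4 → RatK, (act T v) 0 ^ 2 - ∑ i, ∑ j, qf (Θ i j) tvec *
      ((act T v) (Fin.succ i) * (act T v) (Fin.succ j)) = l * qf q v)
    (v u : Fin 4 → RatK) (hv : qf (Q2 Θ tvec) v = 0) (hu : pf (Q2 Θ tvec) v u ≠ 0) :
    FourGenerated E := by
  classical
  have hinf : Infinite RatK := by
    have : CharZero RatK := charZero_of_injective_algebraMap (algebraMap ℂ RatK).injective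
    infer_instance
  set ζ : Fin 4 → E := act T η with hζ
  have key : ζ 0 ^ 2 - ∑ i, ∑ j, algebraMap RatK E (qf (Θ i j) tvec) *
      (ζ (Fin.succ i) * ζ (Fin.succ j)) = 0 := by
    have h1 := transport_sim (A := Matrix.of fun i j => qf (Θ i j) tvec) hsim η
    rw [H.hq, mul_zero] at h1
    exact h1
  have hζ1 : ζ 1 ≠ 0 := by
    intro h0
    have h1 := H.LI (fun j => T 1 j) h0
    apply hT
    refine Matrix.det_eq_zero_of_row_eq_zero 1 fun j => congrFun h1 j
  -- the inverse matrix
  have hTu : IsUnit T.det := isUnit_iff_ne_zero.mpr hT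
  have hinv : act T⁻¹ ζ = η := by
    rw [hζ, ← act_mul, Matrix.nonsing_inv_mul _ hTu, act_one]
  set t' : Fin 3 → E := fun i => algebraMap RatK E (tvec i) with ht'
  set x' : Fin 3 → E := fun i => ζ (Fin.succ i) / ζ 1 with hx'
  set s' : E := ζ 0 / ζ 1 with hs'
  have ht0 : t' 0 = 1 := by
    change algebraMap RatK E 1 = 1
    exact map_one _
  have hx0 : x' 0 = 1 := div_self hζ1
  have hgen : ∀ F : IntermediateField ℂ E, (∀ i, t' i ∈ F) → (∀ i, x' i ∈ F) → s' ∈ F →
      F = ⊤ := by
    intro F hF1 hF2 hF3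
    have hK := H.hK F hF1
    refine H.eq_top F hK (ζ 1)⁻¹ (inv_ne_zero hζ1) fun i => ?_
    have h1 : (ζ 1)⁻¹ * η i = ∑ k, algebraMap RatK E (T⁻¹ i k) * ((ζ 1)⁻¹ * ζ k) := by
      rw [← hinv]
      simp only [act, Finset.mul_sum]
      refine Finset.sum_congr rfl fun k _ => ?_
      ring
    rw [h1]
    refine F.sum_mem fun k _ => F.mul_mem (hK _) ?_
    rw [inv_mul_eq_div]
    refine Fin.cases ?_ (fun k => ?_) k
    · exact hF3
    · exact hF2 k
  refine fourGenerated_of_second htr t' x' s' ht0 hx0 hgen Θ ?_ v u hv hu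
  have h2 : ζ 0 ^ 2 = ∑ i, ∑ j, algebraMap RatK E (qf (Θ i j) tvec) *
      (ζ (Fin.succ i) * ζ (Fin.succ j)) := sub_eq_zero.mp key
  rw [hs', div_pow, h2, Finset.sum_div]
  refine Finset.sum_congr rfl fun i _ => ?_
  rw [Finset.sum_div]
  refine Finset.sum_congr rfl fun j _ => ?_
  have h3 : qf (Θ i j) t' = algebraMap RatK E (qf (Θ i j) tvec) := qf_algebraMap _ _
  rw [h3]
  simp only [x']
  field_simp

/-- **Rationality from a Verra fourfold**: the theorem in terms of the matrix of the fibration. -/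
theorem rational_of_verra (M : Matrix (Fin 4) (Fin 4) R3)
    (hdeg : ∀ i j, (M i j).IsHomogeneous (1 + H925.wt i + H925.wt j))
    (hs : SmoothForm (H925.cubicOf M))
    (A : Matrix (Fin 3) (Fin 3) R3) (hA : ∀ i j, A i j = A j i)
    (hA2 : ∀ i j, (A i j).IsHomogeneous 2)
    (hAd : ∀ z : Fin 3 → ℂ, (∀ i, aeval z (pderiv i A.det) = 0) → z = 0)
    (l : RatK) (T : Matrix (Fin 4) (Fin 4) RatK) (hT : T.det ≠ 0)
    (hsim : ∀ v : Fin 4 → RatK, (T.mulVec v) 0 ^ 2 - ∑ i, ∑ j, aeval tvec (A i j) *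
      ((T.mulVec v) (Fin.succ i) * (T.mulVec v) (Fin.succ j)) =
        l * (v ⬝ᵥ (M.map (aeval tvec : R3 →ₐ[ℂ] RatK)).mulVec v))
    (t : Fin 3 → RatK) (s : RatK) (hts : t ≠ 0 ∨ s ≠ 0)
    (hpt : s ^ 2 = ∑ i, ∑ j, aeval t (A i j) * (tvec i * tvec j)) :
    Nonempty (FractionRing (MvPolynomial (Fin 5) ℂ ⧸ Ideal.span {chart (H925.cubicOf M)}) ≃ₐ[ℂ]
      FractionRing (MvPolynomial (Fin 4) ℂ)) := by
  classical
  have hchar : CharZero RatK := charZero_of_injective_algebraMap (algebraMap ℂ RatK).injective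
  -- the cubic form
  obtain ⟨B, hB⟩ := exists_cubic (H925.cubicOf M) (H925.cubicOf_homogeneous M hdeg) (by
    intro y
    have h1 := aeval_wvec_cubicOf' M hdeg (0 : Fin 3 → ℂ) ![1, y 0, y 1, y 2]
    have h2 : (wvec (0 : Fin 3 → ℂ) ![1, y 0, y 1, y 2] : Fin 6 → ℂ) =
        ![0, 0, 0, y 0, y 1, y 2] := by
      funext i
      fin_cases i <;> simp [wvec]
    rw [h2] at h1
    rw [h1]
    have h3 : ∀ i j, aeval (0 : Fin 3 → ℂ) (M i j) = 0 := by
      intro i j
      have h4 := aeval_smul_of_homog (hdeg i j) (0 : ℂ) (0 : Fin 3 → ℂ)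
      rw [zero_smul] at h4
      rw [h4, zero_pow (by omega), zero_mul]
    simp [h3])
  have hsB : SmoothForm (cubic B) := hB ▸ hs
  have nd := nondegenerate_of_smooth B hsB
  have hp := prime_of_smooth B hsB
  -- the matrices of the form of bidegree `(2, 2)`
  have hex : ∀ p : R3, ∃ α : Matrix (Fin 3) (Fin 3) ℂ, p.IsHomogeneous 2 →
      p = qf α (X : Fin 3 → R3) := by
    intro p
    by_cases h : p.IsHomogeneous 2
    · obtain ⟨α, _, hα⟩ := exists_sym_of_homog p h
      exact ⟨α, fun _ => hα⟩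
    · exact ⟨0, fun h' => absurd h' h⟩
  choose Φ hΦ using hex
  set Θ : Fin 3 → Fin 3 → Matrix (Fin 3) (Fin 3) ℂ := fun i j => Φ (A i j) with hΘ
  have hΘs : ∀ i j, Θ i j = Θ j i := fun i j => by
    simp only [Θ]
    rw [hA]
  have hAΘ : A = Matrix.of fun i j => qf (Θ i j) (X : Fin 3 → R3) := by
    ext1 i j
    exact hΦ _ (hA2 i j)
  have hAt : ∀ i j (t : Fin 3 → RatK), aeval t (A i j) = qf (Θ i j) t := by
    intro i j t
    rw [hΦ _ (hA2 i j)]
    exact aeval_qfX (Φ (A i j)) t
  -- the point of the second fibration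
  set v : Fin 4 → RatK := tv t s with hvd
  have hv0 : v ≠ 0 := by
    intro h
    rcases hts with h1 | h1
    · apply h1
      funext i
      fin_cases i
      · exact congrFun h 0
      · exact congrFun h 1
      · exact congrFun h 2
    · exact h1 (congrFun h 3)
  have hv : qf (Q2 Θ tvec) v = 0 := by
    rw [hvd, qf_Q2, hpt]
    simp only [hAt]
    exact sub_self _
  obtain ⟨u, hu⟩ := second_nondeg Θ hΘs (by rw [← hAΘ]; exact hAd) v hv0
  rw [hB]
  refine rational_of_fourGenerated' B hp nd fun E _ _ _ _ η H htr => ?_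
  -- the matrix in the order `v₀, …, v₃`
  set T4 : Matrix (Fin 4) (Fin 4) RatK := T.submatrix id H925.perm4.symm with hT4
  have hT4det : T4.det ≠ 0 := by
    have h1 : T4.det = T.det ∨ T4.det = -T.det := by
      rw [hT4, Matrix.det_permute']
      rcases Int.units_eq_one_or (Equiv.Perm.sign H925.perm4.symm) with h | h <;> rw [h]
      · left; simp
      · right; simp
    rcases h1 with h1 | h1 <;> rw [h1]
    · exact hT
    · exact neg_ne_zero.mpr hT
  have hact : ∀ v : Fin 4 → RatK, act T4 v = T.mulVec (v ∘ H925.perm4) := by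
    intro v
    funext i
    simp only [act, hT4, Matrix.submatrix_apply, id, Algebra.algebraMap_self, RingHom.id_apply,
      Matrix.mulVec, dotProduct, Function.comp_apply]
    rw [← Equiv.sum_comp H925.perm4]
    simp
  have hqM : ∀ v : Fin 4 → RatK, qf (qmat B) v = (v ∘ H925.perm4) ⬝ᵥ
      (M.map (aeval tvec : R3 →ₐ[ℂ] RatK)).mulVec (v ∘ H925.perm4) := by
    have h1 : ∀ v : Fin 4 → RatK, v 0 ≠ 0 → qf (qmat B) v = (v ∘ H925.perm4) ⬝ᵥ
        (M.map (aeval tvec : R3 →ₐ[ℂ] RatK)).mulVec (v ∘ H925.perm4) := by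
      intro v hv
      have h2 := H925.aeval_wvec_cubicOf M hdeg v
      rw [hB, aeval_cubic_wvec] at h2
      have h3 := mul_left_cancel₀ hv h2
      rw [qf_qmat, ← h3]
      simp
    -- both sides are quadratic forms
    have h4 : ∀ v : Fin 4 → RatK, (v ∘ H925.perm4) ⬝ᵥ
        (M.map (aeval tvec : R3 →ₐ[ℂ] RatK)).mulVec (v ∘ H925.perm4) =
        qf ((M.map (aeval tvec : R3 →ₐ[ℂ] RatK)).submatrix H925.perm4.symm H925.perm4.symm) v := by
      intro v
      symm
      simp only [dotProduct, Matrix.mulVec, qf, Matrix.submatrix_apply, Algebra.algebraMap_self,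
        RingHom.id_apply, Function.comp_apply, Finset.mul_sum]
      rw [← Equiv.sum_comp H925.perm4]
      refine Finset.sum_congr rfl fun i _ => ?_
      rw [← Equiv.sum_comp H925.perm4]
      refine Finset.sum_congr rfl fun j _ => ?_
      simp only [Equiv.symm_apply_apply]
      ring
    intro v
    by_cases hv : v 0 = 0
    · set w : Fin 4 → RatK := Pi.single 0 1 with hw
      have hw0 : w 0 = 1 := by rw [hw, Pi.single_eq_same]
      have e1 := h1 (v + w) (by rw [Pi.add_apply, hv, hw0, zero_add]; exact one_ne_zero)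
      have e2 := h1 (v + (-1 : RatK) • w) (by
        rw [Pi.add_apply, Pi.smul_apply, hv, hw0, zero_add, smul_eq_mul, mul_one]
        exact neg_ne_zero.mpr one_ne_zero)
      have e3 := h1 w (by rw [hw0]; exact one_ne_zero)
      rw [h4] at e1 e2 e3 ⊢
      rw [qf_add, qf_add] at e1 e2
      rw [qf_smul, qf_smul, pf_smul_right, pf_smul_right] at e2
      have h5 : (2 : RatK) * qf (qmat B) v = 2 * qf
          ((M.map (aeval tvec : R3 →ₐ[ℂ] RatK)).submatrix H925.perm4.symm H925.perm4.symm) v := by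
        linear_combination e1 + e2 - 2 * e3
      exact mul_left_cancel₀ two_ne_zero h5
    · exact h1 v hv
  refine fourGenerated_of_verra H htr Θ l T4 hT4det (fun v => ?_) v u hv hu
  have h1 := hsim (v ∘ H925.perm4)
  rw [hact, hqM, ← h1]
  simp only [hAt]

/-- **Rationality from a Verra fourfold**, with the similarity given by a linear equivalence. -/
theorem rational_of_verra_equiv (M : Matrix (Fin 4) (Fin 4) R3)
    (hdeg : ∀ i j, (M i j).IsHomogeneous (1 + H925.wt i + H925.wt j))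
    (hs : SmoothForm (H925.cubicOf M))
    (A : Matrix (Fin 3) (Fin 3) R3) (hA : ∀ i j, A i j = A j i)
    (hA2 : ∀ i j, (A i j).IsHomogeneous 2)
    (hAd : ∀ z : Fin 3 → ℂ, (∀ i, aeval z (pderiv i A.det) = 0) → z = 0)
    (l : RatK) (φ : (Fin 4 → RatK) ≃ₗ[RatK] (RatK × (Fin 3 → RatK)))
    (hφ : ∀ v : Fin 4 → RatK, (φ v).1 ^ 2 - ∑ i, ∑ j, aeval tvec (A i j) *
      ((φ v).2 i * (φ v).2 j) = l * (v ⬝ᵥ (M.map (aeval tvec : R3 →ₐ[ℂ] RatK)).mulVec v))
    (t : Fin 3 → RatK) (s : RatK) (hts : t ≠ 0 ∨ s ≠ 0)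
    (hpt : s ^ 2 = ∑ i, ∑ j, aeval t (A i j) * (tvec i * tvec j)) :
    Nonempty (FractionRing (MvPolynomial (Fin 5) ℂ ⧸ Ideal.span {chart (H925.cubicOf M)}) ≃ₐ[ℂ]
      FractionRing (MvPolynomial (Fin 4) ℂ)) := by
  classical
  let L : (Fin 4 → RatK) →ₗ[RatK] (Fin 4 → RatK) :=
    { toFun := fun v => Fin.cons (φ v).1 (φ v).2
      map_add' := fun v w => by
        funext i
        refine Fin.cases ?_ (fun i => ?_) i
        · simp
        · simp
      map_smul' := fun c v => by
        funext i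
        refine Fin.cases ?_ (fun i => ?_) i
        · simp
        · simp }
  have hL : ∀ v, (LinearMap.toMatrix' L).mulVec v = L v := by
    intro v
    rw [← Matrix.toLin'_apply, Matrix.toLin'_toMatrix']
  refine rational_of_verra M hdeg hs A hA hA2 hAd l (LinearMap.toMatrix' L) ?_ (fun v => ?_) t s
    hts hpt
  · intro h0
    obtain ⟨v, hv, hv0⟩ := Matrix.exists_mulVec_eq_zero_iff.mpr h0
    rw [hL] at hv0
    apply hv
    apply φ.injective
    rw [map_zero]
    have e0 := congrFun hv0 0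
    refine Prod.ext e0 ?_
    funext i
    exact congrFun hv0 i.succ
  · rw [hL]
    exact hφ v

end Vale.Agent.P287.H69
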