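import Vale.Agent.P287.Mv.Spec

/-!
The genus of the curve `D' ~ D + j h`.
-/

namespace Vale.Agent.P287.H69

open Module Vale.Agent.P287 Vale.Agent.P287.Theta MvPolynomial

section

variable {f g g' c s a b : R3}

lemma move_dvd_one (hg : Prime g) (hgc : ¬ g ∣ c) (hsq : g ∣ c ^ 2 * f - s ^ 2)
    (hab : g ∣ c * a - s * b) {A B : R3} (h : g ∣ c * A + s * B) :
    g ∣ A * a + B * b * f ∧ g ∣ A * b + B * a := by
  have hc2 : ∀ z : R3, g ∣ c * z → g ∣ z := fun z hz => (hg.dvd_or_dvd hz).resolve_left hgc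
  constructor
  · apply hc2
    apply hc2
    have e : c * (c * (A * a + B * b * f)) = (c * A + s * B) * (c * a) -
        (c * a - s * b) * (s * B) + (c ^ 2 * f - s ^ 2) * (B * b) := by
      ring
    rw [e]
    exact dvd_add (dvd_sub (h.mul_right _) (hab.mul_right _)) (hsq.mul_right _)
  · apply hc2
    have e : c * (A * b + B * a) = (c * A + s * B) * b + (c * a - s * b) * B := by ring
    rw [e]
    exact dvd_add (h.mul_right _) (hab.mul_right _)

lemma move_dvd_two (hg' : Prime g') (hb : ¬ g' ∣ b) (hn : a ^ 2 - b ^ 2 * f = g * g')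
    {A B : R3} (h : g' ∣ b * A + -a * B) : g' ∣ A * a - B * b * f ∧ g' ∣ B * a - A * b := by
  constructor
  · refine (hg'.dvd_or_dvd ?_).resolve_left hb
    have e : b * (A * a - B * b * f) = (b * A + -a * B) * a + (a ^ 2 - b ^ 2 * f) * B := by ring
    rw [e, hn]
    exact dvd_add (h.mul_right _) ((dvd_mul_left _ _).mul_right _)
  · have e : B * a - A * b = -(b * A + -a * B) := by ring
    rw [e, dvd_neg]
    exact h

/-- Multiplication by `a + b w`. -/
noncomputable def mulE (f a b : R3) : R3 × R3 →ₗ[ℂ] R3 × R3 where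
  toFun v := (v.1 * a + v.2 * b * f, v.1 * b + v.2 * a)
  map_add' v w := by
    ext1
    · simp only [Prod.fst_add, Prod.snd_add]
      ring
    · simp only [Prod.fst_add, Prod.snd_add]
      ring
  map_smul' r v := by
    ext1
    · simp only [Prod.smul_fst, Prod.smul_snd, RingHom.id_apply, smul_eq_C_mul]
      ring
    · simp only [Prod.smul_fst, Prod.smul_snd, RingHom.id_apply, smul_eq_C_mul]
      ring

lemma mulE_inj (h : a ^ 2 - b ^ 2 * f ≠ 0) : Function.Injective (mulE f a b) := by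
  rw [injective_iff_map_eq_zero]
  rintro ⟨A, B⟩ hv
  have h1 : A * a + B * b * f = 0 := congrArg Prod.fst hv
  have h2 : A * b + B * a = 0 := congrArg Prod.snd hv
  have h3 : A * (a ^ 2 - b ^ 2 * f) = 0 := by linear_combination a * h1 - b * f * h2
  have h4 : B * (a ^ 2 - b ^ 2 * f) = 0 := by linear_combination a * h2 - b * h1
  exact Prod.ext ((mul_eq_zero.mp h3).resolve_right h) ((mul_eq_zero.mp h4).resolve_right h)

lemma finrank_le_of_mulE {V W : Submodule ℂ (R3 × R3)} [Module.Finite ℂ W] (hg : g ≠ 0)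
    (h : a ^ 2 - b ^ 2 * f ≠ 0)
    (h1 : ∀ v ∈ V, ∃ w ∈ W, g * w.1 = v.1 * a + v.2 * b * f ∧ g * w.2 = v.1 * b + v.2 * a) :
    finrank ℂ V ≤ finrank ℂ W := by
  have hle : V.map (mulE f a b) ≤ W.map (mulE f g 0) := by
    rintro _ ⟨v, hv, rfl⟩
    obtain ⟨w, hw, e1, e2⟩ := h1 v hv
    refine ⟨w, hw, Prod.ext ?_ ?_⟩
    · change w.1 * g + w.2 * 0 * f = v.1 * a + v.2 * b * f
      rw [← e1]
      ring
    · change w.1 * 0 + w.2 * g = v.1 * b + v.2 * a
      rw [← e2]
      ring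
  have e1 := (Submodule.equivMapOfInjective _ (mulE_inj h) V).finrank_eq
  have hg2 : g ^ 2 - 0 ^ 2 * f ≠ 0 := by
    rw [zero_pow two_ne_zero, zero_mul, sub_zero]
    exact pow_ne_zero 2 hg
  have e2 := (Submodule.equivMapOfInjective _ (mulE_inj (f := f) hg2) W).finrank_eq
  rw [e1, e2]
  exact Submodule.finrank_mono hle

lemma hom_of_mul {u w : R3} {m k : ℕ} (hu : u.IsHomogeneous m) (hu0 : u ≠ 0)
    (h : (u * w).IsHomogeneous (m + k)) : w.IsHomogeneous k := by
  by_cases hw : u * w = 0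
  · rw [(mul_eq_zero.mp hw).resolve_left hu0]
    exact isHomogeneous_zero _ _ _
  · obtain ⟨e, he, hqe⟩ := degree_le_of_mul hu h hw
    have h4 : e = k := by omega
    rwa [h4] at hqe

/-- Multiplication by `(a + b w) / g`. -/
theorem finrank_move {n n' j d t : ℕ} (hg : Prime g) (hg' : Prime g') (hgh : g.IsHomogeneous n)
    (hgh' : g'.IsHomogeneous n') (hf : f.IsHomogeneous 6) (hgc : ¬ g ∣ c) (hgb : ¬ g ∣ b)
    (hb' : ¬ g' ∣ b) (hsq : g ∣ c ^ 2 * f - s ^ 2) (hab : g ∣ c * a - s * b)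
    (ha : a.IsHomogeneous (d + 3)) (hb : b.IsHomogeneous d) (hd : d + 3 = n + j)
    (hn' : n' = n + 2 * j) (hn : a ^ 2 - b ^ 2 * f = g * g') :
    finrank ℂ (Rel g c s t) = finrank ℂ (Rel g' b (-a) (t + j)) := by
  have h1 : ∀ v ∈ Rel g c s t, ∃ w ∈ Rel g' b (-a) (t + j),
      g * w.1 = v.1 * a + v.2 * b * f ∧ g * w.2 = v.1 * b + v.2 * a := by
    rintro ⟨A, B⟩ ⟨hA, hB, hAB⟩
    obtain ⟨⟨A', hA'⟩, ⟨B', hB'⟩⟩ := move_dvd_one hg hgc hsq hab hAB
    refine ⟨(A', B'), ⟨?_, ?_, ?_⟩, hA'.symm, hB'.symm⟩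
    · refine hom_of_mul hgh hg.ne_zero ?_
      rw [← hA']
      have h2 := hA.mul ha
      have h3 := (hB.mul hb).mul hf
      rw [show t + 3 + (d + 3) = n + (t + j + 3) by omega] at h2
      rw [show t + d + 6 = n + (t + j + 3) by omega] at h3
      exact h2.add h3
    · refine hom_of_mul hgh hg.ne_zero ?_
      rw [← hB']
      have h2 := hA.mul hb
      have h3 := hB.mul ha
      rw [show t + 3 + d = n + (t + j) by omega] at h2
      rw [show t + (d + 3) = n + (t + j) by omega] at h3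
      exact h2.add h3
    · refine ⟨-B, ?_⟩
      apply mul_left_cancel₀ hg.ne_zero
      change g * (b * A' + -a * B') = _
      change A * a + B * b * f = g * A' at hA'
      change A * b + B * a = g * B' at hB'
      linear_combination (-b) * hA' + a * hB' + (-B) * hn
  have h2 : ∀ v ∈ Rel g' b (-a) (t + j), ∃ w ∈ Rel g c s t,
      g' * w.1 = v.1 * a - v.2 * b * f ∧ g' * w.2 = v.2 * a - v.1 * b := by
    rintro ⟨A, B⟩ ⟨hA, hB, hAB⟩
    obtain ⟨⟨A', hA'⟩, ⟨B', hB'⟩⟩ := move_dvd_two hg' hb' hn hAB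
    refine ⟨(A', B'), ⟨?_, ?_, ?_⟩, hA'.symm, hB'.symm⟩
    · refine hom_of_mul hgh' hg'.ne_zero ?_
      rw [← hA']
      have h2 := hA.mul ha
      have h3 := (hB.mul hb).mul hf
      rw [show t + j + 3 + (d + 3) = n' + (t + 3) by omega] at h2
      rw [show t + j + d + 6 = n' + (t + 3) by omega] at h3
      exact h2.sub h3
    · refine hom_of_mul hgh' hg'.ne_zero ?_
      rw [← hB']
      have h2 := hA.mul hb
      have h3 := hB.mul ha
      rw [show t + j + 3 + d = n' + t by omega] at h2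
      rw [show t + j + (d + 3) = n' + t by omega] at h3
      exact h3.sub h2
    · refine (hg.dvd_or_dvd ?_).resolve_left hgb
      change A * a - B * b * f = g' * A' at hA'
      change B * a - A * b = g' * B' at hB'
      have e1 : b * A' + a * B' = g * B := by
        apply mul_left_cancel₀ hg'.ne_zero
        linear_combination (-b) * hA' + (-a) * hB' + B * hn
      have e : b * (c * A' + s * B') = c * (b * A' + a * B') - (c * a - s * b) * B' := by ring
      change g ∣ b * (c * A' + s * B')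
      rw [e, e1]
      exact dvd_sub ((dvd_mul_right _ _).mul_left _) (hab.mul_right _)
  have hN : a ^ 2 - b ^ 2 * f ≠ 0 := hn ▸ mul_ne_zero hg.ne_zero hg'.ne_zero
  have hN' : a ^ 2 - (-b) ^ 2 * f ≠ 0 := by rwa [neg_sq]
  refine le_antisymm (finrank_le_of_mulE hg.ne_zero hN h1)
    (finrank_le_of_mulE hg'.ne_zero hN' fun v hv => ?_)
  obtain ⟨w, hw, e1, e2⟩ := h2 v hv
  refine ⟨w, hw, ?_, ?_⟩
  · rw [e1]
    ring
  · rw [e2]
    ring

theorem hasGenus_move {n n' j d p : ℕ} (hg : Prime g) (hg' : Prime g') (hgh : g.IsHomogeneous n)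
    (hgh' : g'.IsHomogeneous n') (hf : f.IsHomogeneous 6) (hgc : ¬ g ∣ c) (hgb : ¬ g ∣ b)
    (hb' : ¬ g' ∣ b) (hsq : g ∣ c ^ 2 * f - s ^ 2) (hab : g ∣ c * a - s * b)
    (ha : a.IsHomogeneous (d + 3)) (hb : b.IsHomogeneous d) (hd : d + 3 = n + j)
    (hn' : n' = n + 2 * j) (hn : a ^ 2 - b ^ 2 * f = g * g') (hp : HasGenus g c s n p) :
    HasGenus g' b (-a) n' (p + j * (n + j)) := by
  obtain ⟨t₀, ht₀⟩ := hp
  refine ⟨t₀ + j, fun T hT => ?_⟩
  obtain ⟨t, rfl⟩ : ∃ t, T = t + j := ⟨T - j, by omega⟩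
  have h := ht₀ t (by omega)
  rw [← finrank_move hg hg' hgh hgh' hf hgc hgb hb' hsq hab ha hb hd hn' hn]
  rw [H684.finrank_homog, H684.finrank_homog] at h ⊢
  subst hn'
  have e1 := two_mul_choose (t + 4)
  have e2 := two_mul_choose (t + 1)
  have e3 := two_mul_choose (t + j + 4)
  have e4 := two_mul_choose (t + j + 1)
  rw [show t + 4 + 1 = t + 3 + 2 by omega] at e1
  rw [show t + 1 + 1 = t + 2 by omega] at e2
  rw [show t + j + 4 + 1 = t + j + 3 + 2 by omega] at e3
  rw [show t + j + 1 + 1 = t + j + 2 by omega] at e4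
  nlinarith

end

theorem stmt4 : Mv.Stmt4 := by
  intro f g c s a b g' n e j p hf hg hgi hgf hc hgc hs hsq hj ha hb hab hga hn hg' hgi' hb' hp
  have hgb : ¬ g ∣ b := by
    intro h
    apply hga
    refine (hgi.prime.dvd_or_dvd (a := c) ?_).resolve_left hgc
    have e : c * a = (c * a - s * b) + s * b := by ring
    rw [e]
    exact dvd_add hab (h.mul_left _)
  have ha' : a.IsHomogeneous (n + j - 3 + 3) := by
    rwa [show n + j - 3 + 3 = n + j by omega]
  have h := hasGenus_move hgi.prime hgi'.prime hg hg' hf hgc hgb hb' hsq hab ha' hb (by omega) rfl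
    hn hp
  rwa [add_comm n j] at h

end Vale.Agent.P287.H69
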