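import Vale.Agent.P287.H69.MumfordTwo
import Vale.Agent.P287.H270.OddFrame
import Vale.Agent.P287.H621.D1
import Vale.Agent.P287.H597.OddBlocks

/-!
The arithmetic genus of one half of the split curve, in forms, and the codimension of the
conductor in the chart.
-/

namespace Vale.Agent.P287.H69

open Polynomial Matrix Module Vale.Agent.P287 Vale.Agent.P287.Theta Vale.Agent.P287.Odd
  Vale.Agent.P287.H946 Vale.Agent.P287.H621

section codim

variable {k : Type} [Field k] {n : ℕ} {g : k[X][X]} {I : Ideal k[X][X]}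

lemma mem_PT_iff {d : ℕ} {P : k[X][X]} : P ∈ H684.PT k d ↔ Wd d P :=
  H684.mem_PT.trans Wd_iff.symm

lemma En_le_PT (n d : ℕ) : (En n d : Submodule k k[X][X]) ≤ H684.PT k d := fun _ h =>
  mem_PT_iff.mpr h.1

theorem finrank_inf_PT (hg : g.Monic) (hgn : g.natDegree = n) (hgW : Wd n g) (hgI : g ∈ I)
    [hfin : Module.Finite k (k[X][X] ⧸ I)] : ∃ d₀, ∀ d ≥ d₀,
      finrank k (I.restrictScalars k ⊓ H684.PT k d : Submodule k k[X][X]) +
        finrank k (k[X][X] ⧸ I) = (d + 2).choose 2 := by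
  obtain ⟨s, hs⟩ := hfin.fg_top
  obtain ⟨d₀, hd₀⟩ := exists_range hg hgn hgW hgI s
  refine ⟨d₀, fun d hd => ?_⟩
  have h1 : LinearMap.range ((mkJ I).domRestrict (En n d)) = ⊤ := by
    rw [eq_top_iff, ← hs, Submodule.span_le]
    exact hd₀ d hd
  rw [LinearMap.range_domRestrict] at h1
  have h2 := finrank_map_add (mkJ I) (H684.PT k d : Submodule k k[X][X])
  have h4 : (H684.PT k d).map (mkJ I) = ⊤ := by
    rw [eq_top_iff, ← h1]
    exact Submodule.map_mono (En_le_PT n d)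
  rw [h4, finrank_top] at h2
  have h3 : LinearMap.ker (mkJ I) = I.restrictScalars k := by
    ext p
    exact mkJ_eq_zero
  rw [h3, inf_comm, H684.finrank_PT] at h2
  omega

lemma En_eq_PT {n d : ℕ} (h : d < n) : (En n d : Submodule k k[X][X]) = H684.PT k d := by
  refine le_antisymm (En_le_PT n d) fun P hP => ?_
  have hP' := mem_PT_iff.mp hP
  refine ⟨hP', fun j hj => ?_⟩
  ext i
  rw [coeff_zero]
  exact hP' i j (by omega)

/-- A regular multiple of `√f` is of the expected degree. -/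
lemma cond_reduce {c₀ s₀ b : k[X][X]} (hg : g.Monic) (hgn : g.natDegree = n) (hgW : Wd n g)
    {e₀ : ℕ} (hc : InfUnit n g e₀ c₀) (hsW : Wd (e₀ + 3) s₀) {d : ℕ} (hb : Wd d b)
    (h : b ∈ cond g c₀ s₀) : ∃ a, Wd (d + 3) a ∧ g ∣ c₀ * a - s₀ * b := by
  obtain ⟨a, ha⟩ := h
  have hmod : a %ₘ g = a - g * (a /ₘ g) := by
    linear_combination modByMonic_add_div a g
  have hdv : g ∣ c₀ * (a %ₘ g) - s₀ * b := by
    have h1 : c₀ * (a %ₘ g) - s₀ * b = (c₀ * a - s₀ * b) - g * (c₀ * (a /ₘ g)) := by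
      rw [hmod]
      ring
    rw [h1]
    exact dvd_sub ha (dvd_mul_right _ _)
  refine ⟨a %ₘ g, ?_, hdv⟩
  refine hc.2 (d + 3) _ (fun j hj => coeff_mod hg hgn hj) ?_
  have h1 : (c₀ * (a %ₘ g)) %ₘ g = (s₀ * b) %ₘ g := by
    have h2 := (modByMonic_eq_zero_iff_dvd hg).mpr hdv
    rw [sub_modByMonic] at h2
    exact sub_eq_zero.mp h2
  rw [h1]
  exact Wd_mod hg hgn hgW (Wd_mul_le hsW hb (by omega))

end codim

/-- The relations `a + √f b = 0` with `√f = s / c`: pairs of forms of degrees `t + 3` and `t`. -/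
def Rel (g c s : R3) (t : ℕ) : Submodule ℂ (R3 × R3) where
  carrier := {v | v.1.IsHomogeneous (t + 3) ∧ v.2.IsHomogeneous t ∧ g ∣ c * v.1 + s * v.2}
  add_mem' := by
    rintro v w ⟨h1, h2, h3⟩ ⟨h4, h5, h6⟩
    refine ⟨h1.add h4, h2.add h5, ?_⟩
    have h : c * (v + w).1 + s * (v + w).2 = (c * v.1 + s * v.2) + (c * w.1 + s * w.2) := by
      rw [Prod.fst_add, Prod.snd_add]
      ring
    rw [h]
    exact dvd_add h3 h6
  zero_mem' := ⟨MvPolynomial.isHomogeneous_zero _ _ _, MvPolynomial.isHomogeneous_zero _ _ _,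
    by simp⟩
  smul_mem' := by
    rintro r v ⟨h1, h2, h3⟩
    refine ⟨(MvPolynomial.homogeneousSubmodule (Fin 3) ℂ _).smul_mem r h1,
      (MvPolynomial.homogeneousSubmodule (Fin 3) ℂ _).smul_mem r h2, ?_⟩
    have h : c * (r • v).1 + s * (r • v).2 = MvPolynomial.C r * (c * v.1 + s * v.2) := by
      rw [Prod.smul_fst, Prod.smul_snd, MvPolynomial.smul_eq_C_mul, MvPolynomial.smul_eq_C_mul]
      ring
    rw [h]
    exact h3.mul_left _

lemma mem_Rel {g c s : R3} {t : ℕ} {v : R3 × R3} : v ∈ Rel g c s t ↔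
    v.1.IsHomogeneous (t + 3) ∧ v.2.IsHomogeneous t ∧ g ∣ c * v.1 + s * v.2 := Iff.rfl

instance finite_homog (d : ℕ) :
    Module.Finite ℂ (MvPolynomial.homogeneousSubmodule (Fin 3) ℂ d) :=
  Module.finite_of_finrank_pos (by
    rw [H684.finrank_homog]
    exact Nat.choose_pos (by omega))

instance finite_Rel (g c s : R3) (t : ℕ) : Module.Finite ℂ (Rel g c s t) :=
  Submodule.finiteDimensional_of_le (S₂ := (MvPolynomial.homogeneousSubmodule (Fin 3) ℂ
    (t + 3)).prod (MvPolynomial.homogeneousSubmodule (Fin 3) ℂ t)) fun v hv => ⟨hv.1, hv.2.1⟩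

/-- The multiples of `g` of degree `k`. -/
lemma finrank_mult_n {g : P3} {n : ℕ} (hg : g.IsHomogeneous n) (hg0 : g ≠ 0) (l : ℕ)
    {W : Submodule ℂ P3} (hW : ∀ c, c ∈ W ↔ c.IsHomogeneous (n + l) ∧ g ∣ c) :
    finrank ℂ W = (l + 2).choose 2 := by
  rw [← H684.finrank_homog (F := ℂ) l]
  refine LinearEquiv.finrank_eq (LinearEquiv.symm (LinearEquiv.ofBijective
    (LinearMap.codRestrict W ((LinearMap.mulLeft ℂ g).comp
      (MvPolynomial.homogeneousSubmodule (Fin 3) ℂ l).subtype) ?_) ⟨?_, ?_⟩))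
  · rintro ⟨c, hc⟩
    rw [hW]
    exact ⟨hg.mul hc, dvd_mul_right _ _⟩
  · rintro ⟨a, ha⟩ ⟨b, hb⟩ hab
    have h2 : g * a = g * b := congrArg Subtype.val hab
    exact Subtype.ext (mul_left_cancel₀ hg0 h2)
  · rintro ⟨c, hc⟩
    obtain ⟨h3, q, hq⟩ := (hW c).1 hc
    by_cases hc0 : c = 0
    · refine ⟨0, ?_⟩
      rw [map_zero]
      exact Subtype.ext hc0.symm
    obtain ⟨e, he, hqe⟩ := degree_le_of_mul hg (hq ▸ h3) (hq ▸ hc0)
    have h4 : e = l := by omega
    subst h4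
    exact ⟨⟨q, hqe⟩, Subtype.ext hq.symm⟩

end Vale.Agent.P287.H69
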