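import Vale.Agent.P287.Mv.Spec0
import Vale.Agent.P287.H69.GenusA

/-!
Coprime forms in three variables have finitely many common zeros.
-/

namespace Vale.Agent.P287.H69

open Module Vale.Agent.P287 Vale.Agent.P287.Theta MvPolynomial

/-- the lines spanned by two vectors agree -/
def Prp (z z' : Fin 3 → ℂ) : Prop := ∃ r : ℂ, r ≠ 0 ∧ z = r • z'

lemma exists_lin_form {z z' : Fin 3 → ℂ} (hz : z ≠ 0) (hz' : z' ≠ 0) (h : ¬ Prp z z') :
    ∃ l : R3, l.IsHomogeneous 1 ∧ eval z l ≠ 0 ∧ eval z' l = 0 := by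
  by_contra hcon
  push Not at hcon
  obtain ⟨i, hi⟩ : ∃ i, z' i ≠ 0 := Function.ne_iff.mp hz'
  have h1 : ∀ j, z j * z' i = z i * z' j := by
    intro j
    by_contra hne
    refine hcon (X j * C (z' i) - X i * C (z' j)) ?_ ?_ ?_
    · exact ((isHomogeneous_X ℂ j).mul (isHomogeneous_C _ _)).sub
        ((isHomogeneous_X ℂ i).mul (isHomogeneous_C _ _))
    · simp only [map_sub, map_mul, eval_X, eval_C]
      exact sub_ne_zero.mpr hne
    · simp only [map_sub, map_mul, eval_X, eval_C]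
      ring
  apply h
  refine ⟨z i / z' i, ?_, ?_⟩
  · intro h0
    have hzi : z i = 0 := by
      rcases div_eq_zero_iff.mp h0 with h2 | h2
      · exact h2
      · exact absurd h2 hi
    apply hz
    funext j
    have h3 := h1 j
    rw [hzi, zero_mul] at h3
    exact (mul_eq_zero.mp h3).resolve_right hi
  · funext j
    rw [Pi.smul_apply, smul_eq_mul, div_mul_eq_mul_div, eq_div_iff hi]
    exact h1 j

/-- a form of degree `d` which separates one point from the others -/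
lemma exists_sep (S : Finset (Fin 3 → ℂ)) (hS : ∀ z ∈ S, z ≠ 0)
    (hS2 : ∀ z ∈ S, ∀ z' ∈ S, z ≠ z' → ¬ Prp z z') {d : ℕ} (hd : S.card ≤ d) (z : Fin 3 → ℂ)
    (hz : z ∈ S) : ∃ q : R3, q.IsHomogeneous d ∧ eval z q ≠ 0 ∧ ∀ z' ∈ S, z' ≠ z →
      eval z' q = 0 := by
  have h1 : ∀ z' : Fin 3 → ℂ, ∃ l : R3, l.IsHomogeneous 1 ∧ (z' ∈ S.erase z →
      eval z l ≠ 0 ∧ eval z' l = 0) := by
    intro z'
    by_cases hz' : z' ∈ S.erase z
    · rw [Finset.mem_erase] at hz'
      obtain ⟨l, hl, h2, h3⟩ := exists_lin_form (hS z hz) (hS z' hz'.2)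
        (hS2 z hz z' hz'.2 (Ne.symm hz'.1))
      exact ⟨l, hl, fun _ => ⟨h2, h3⟩⟩
    · exact ⟨0, isHomogeneous_zero _ _ _, fun h => absurd h hz'⟩
  choose l hl hl2 using h1
  obtain ⟨i, hi⟩ : ∃ i, z i ≠ 0 := Function.ne_iff.mp (hS z hz)
  refine ⟨(∏ z' ∈ S.erase z, l z') * X i ^ (d - (S.card - 1)), ?_, ?_, ?_⟩
  · have h2 : (∏ z' ∈ S.erase z, l z').IsHomogeneous (∑ _z' ∈ S.erase z, 1) :=
      IsHomogeneous.prod _ _ _ fun z' _ => hl z'
    have h3 := (isHomogeneous_X ℂ i).pow (d - (S.card - 1)) (R := ℂ)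
    have h4 := h2.mul h3
    rw [Finset.sum_const, Finset.card_erase_of_mem hz, smul_eq_mul, mul_one, one_mul,
      show S.card - 1 + (d - (S.card - 1)) = d by omega] at h4
    exact h4
  · rw [map_mul, map_prod, map_pow, eval_X]
    exact mul_ne_zero (Finset.prod_ne_zero_iff.mpr fun z' hz' => (hl2 z' hz').1)
      (pow_ne_zero _ hi)
  · intro z' hz' hne
    have h2 : z' ∈ S.erase z := Finset.mem_erase.mpr ⟨hne, hz'⟩
    rw [map_mul, map_prod]
    rw [Finset.prod_eq_zero h2 (hl2 z' h2).2, zero_mul]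

lemma two_mul_choose' (a : ℕ) : 2 * (a + 2).choose 2 = (a + 2) * (a + 1) := by
  have h1 := Nat.choose_two_right (a + 2)
  have h2 : 2 ∣ (a + 2) * (a + 2 - 1) := (Nat.even_mul_pred_self (a + 2)).two_dvd
  rw [h1, Nat.mul_div_cancel' h2]
  rfl

/-- the multiples of `g` of degree `d` -/
def Mult (g : R3) (d : ℕ) : Submodule ℂ R3 where
  carrier := {c | c.IsHomogeneous d ∧ g ∣ c}
  add_mem' := fun h h' => ⟨h.1.add h'.1, dvd_add h.2 h'.2⟩
  zero_mem' := ⟨isHomogeneous_zero _ _ _, dvd_zero _⟩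
  smul_mem' := fun r x h => ⟨(homogeneousSubmodule (Fin 3) ℂ _).smul_mem r h.1, by
    rw [smul_eq_C_mul]
    exact h.2.mul_left _⟩

theorem card_le {f b : R3} {m k : ℕ} (hf : f.IsHomogeneous m) (hb : b.IsHomogeneous k)
    (hfi : Irreducible f) (hfb : ¬ f ∣ b) (S : Finset (Fin 3 → ℂ)) (hS : ∀ z ∈ S, z ≠ 0)
    (hS2 : ∀ z ∈ S, ∀ z' ∈ S, z ≠ z' → ¬ Prp z z') (hSf : ∀ z ∈ S, eval z f = 0)
    (hSb : ∀ z ∈ S, eval z b = 0) : S.card ≤ m * k := by
  classical
  have hb0 : b ≠ 0 := fun h => hfb (h ▸ dvd_zero f)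
  obtain ⟨N, hN⟩ : ∃ N, N = S.card := ⟨_, rfl⟩
  obtain ⟨d, hd⟩ : ∃ d, d = N + m + k := ⟨_, rfl⟩
  have h1 : finrank ℂ (Mult f d) = (N + k + 2).choose 2 := by
    refine finrank_mult_n hf hfi.ne_zero (N + k) fun c => ?_
    rw [show m + (N + k) = d by omega]
    exact Iff.rfl
  have h2 : finrank ℂ (Mult b d) = (N + m + 2).choose 2 := by
    refine finrank_mult_n hb hb0 (N + m) fun c => ?_
    rw [show k + (N + m) = d by omega]
    exact Iff.rfl
  have h3 : finrank ℂ (Mult f d ⊓ Mult b d : Submodule ℂ R3) = (N + 2).choose 2 := by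
    refine finrank_mult_n (hf.mul hb) (mul_ne_zero hfi.ne_zero hb0) N fun c => ?_
    rw [show m + k + N = d by omega]
    constructor
    · rintro ⟨⟨hc, hfc⟩, -, v, rfl⟩
      obtain ⟨v', rfl⟩ := (hfi.prime.dvd_or_dvd hfc).resolve_left hfb
      exact ⟨hc, v', by ring⟩
    · rintro ⟨hc, v, rfl⟩
      exact ⟨⟨hc, b * v, by ring⟩, hc, f * v, by ring⟩
  have hfin : ∀ g : R3, Module.Finite ℂ (Mult g d) := fun g =>
    Submodule.finiteDimensional_of_le (S₂ := homogeneousSubmodule (Fin 3) ℂ d) fun c hc => hc.1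
  have := hfin f
  have := hfin b
  have h4 := Submodule.finrank_sup_add_finrank_inf_eq (Mult f d) (Mult b d)
  let ev : homogeneousSubmodule (Fin 3) ℂ d →ₗ[ℂ] (S → ℂ) :=
    { toFun := fun q z => eval z.1 q.1
      map_add' := fun q q' => by
        funext z
        exact map_add _ _ _
      map_smul' := fun r q => by
        funext z
        change eval z.1 (r • q.1) = r * eval z.1 q.1
        rw [smul_eq_C_mul, map_mul, eval_C] }
  have hsurj : LinearMap.range ev = ⊤ := by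
    rw [eq_top_iff, ← (Pi.basisFun ℂ S).span_eq, Submodule.span_le]
    rintro _ ⟨z, rfl⟩
    obtain ⟨q, hq, hqz, hq'⟩ := exists_sep S hS hS2 (d := d) (by omega) z.1 z.2
    refine ⟨(eval z.1 q)⁻¹ • ⟨q, hq⟩, ?_⟩
    funext w
    rw [Pi.basisFun_apply]
    by_cases hw : w = z
    · subst hw
      rw [Pi.single_eq_same, map_smul]
      change (eval w.1 q)⁻¹ * eval w.1 q = 1
      exact inv_mul_cancel₀ hqz
    · rw [Pi.single_eq_of_ne hw, map_smul]
      change (eval z.1 q)⁻¹ * eval w.1 q = 0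
      rw [hq' w.1 w.2 fun h => hw (Subtype.ext h), mul_zero]
  have h5 := LinearMap.finrank_range_add_finrank_ker ev
  rw [hsurj, finrank_top, finrank_fintype_fun_eq_card, Fintype.card_coe, H684.finrank_homog,
    ← hN] at h5
  have h6 : finrank ℂ (Mult f d ⊔ Mult b d : Submodule ℂ R3) ≤ finrank ℂ (LinearMap.ker ev) := by
    have h7 := (Submodule.equivMapOfInjective _
      (Submodule.injective_subtype (homogeneousSubmodule (Fin 3) ℂ d))
      (LinearMap.ker ev)).finrank_eq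
    rw [h7]
    have : Module.Finite ℂ ((LinearMap.ker ev).map
        (homogeneousSubmodule (Fin 3) ℂ d).subtype) := inferInstance
    apply Submodule.finrank_mono
    rw [sup_le_iff]
    constructor
    · rintro c ⟨hc, v, hv⟩
      refine ⟨⟨c, hc⟩, ?_, rfl⟩
      rw [SetLike.mem_coe, LinearMap.mem_ker]
      funext z
      change eval z.1 c = 0
      rw [hv, map_mul, hSf z.1 z.2, zero_mul]
    · rintro c ⟨hc, v, hv⟩
      refine ⟨⟨c, hc⟩, ?_, rfl⟩
      rw [SetLike.mem_coe, LinearMap.mem_ker]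
      funext z
      change eval z.1 c = 0
      rw [hv, map_mul, hSb z.1 z.2, zero_mul]
  rw [h1, h2, h3] at h4
  have e1 := two_mul_choose' (N + k)
  have e2 := two_mul_choose' (N + m)
  have e3 := two_mul_choose' N
  have e4 := two_mul_choose' d
  obtain ⟨K, hK⟩ : ∃ K, K = finrank ℂ (LinearMap.ker ev) := ⟨_, rfl⟩
  rw [← hK] at h5 h6
  rw [hd] at e4 h5
  rw [← hN]
  nlinarith

theorem stmtZ : Mv.StmtZ := by
  classical
  intro f b m k hf hb hfi hfb
  let P : ℕ → Prop := fun n => ∃ S : Finset (Fin 3 → ℂ), S.card = n ∧ (∀ z ∈ S, z ≠ 0) ∧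
    (∀ z ∈ S, ∀ z' ∈ S, z ≠ z' → ¬ Prp z z') ∧ (∀ z ∈ S, eval z f = 0) ∧
    ∀ z ∈ S, eval z b = 0
  have hP0 : P 0 := ⟨∅, rfl, by simp, by simp, by simp, by simp⟩
  have hPle : ∀ n, P n → n ≤ m * k := by
    rintro n ⟨S, rfl, h1, h2, h3, h4⟩
    exact card_le hf hb hfi hfb S h1 h2 h3 h4
  obtain ⟨n, hn, hmax⟩ : ∃ n, P n ∧ ¬ P (n + 1) := by
    by_contra hcon
    push Not at hcon
    have h1 : ∀ n, P n := by
      intro n
      induction n with
      | zero => exact hP0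
      | succ n ih => exact hcon n ih
    have h2 := hPle _ (h1 (m * k + 1))
    omega
  obtain ⟨S, hc, h1, h2, h3, h4⟩ := hn
  refine ⟨S, h1, fun z hz hzf hzb => ?_⟩
  by_contra hcon
  push Not at hcon
  have hzf' : eval z f = 0 := by rwa [← MvPolynomial.coe_aeval_eq_eval]
  have hzb' : eval z b = 0 := by rwa [← MvPolynomial.coe_aeval_eq_eval]
  have hzS : z ∉ S := fun h => hcon z h 1 one_ne_zero (one_smul ℂ z).symm
  apply hmax
  refine ⟨insert z S, by rw [Finset.card_insert_of_notMem hzS, hc], ?_, ?_, ?_, ?_⟩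
  · intro w hw
    rcases Finset.mem_insert.mp hw with rfl | hw
    · exact hz
    · exact h1 w hw
  · intro w hw w' hw' hne
    rcases Finset.mem_insert.mp hw with h5 | hw1
    · rcases Finset.mem_insert.mp hw' with h6 | hw2
      · exact absurd (h5.trans h6.symm) hne
      · rintro ⟨r, hr, h7⟩
        exact hcon w' hw2 r hr (h5 ▸ h7)
    · rcases Finset.mem_insert.mp hw' with h6 | hw2
      · rintro ⟨r, hr, h7⟩
        refine hcon w hw1 r⁻¹ (inv_ne_zero hr) ?_
        rw [h7, smul_smul, inv_mul_cancel₀ hr, one_smul, h6]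
      · exact h2 w hw1 w' hw2 hne
  · intro w hw
    rcases Finset.mem_insert.mp hw with rfl | hw
    · exact hzf'
    · exact h3 w hw
  · intro w hw
    rcases Finset.mem_insert.mp hw with rfl | hw
    · exact hzb'
    · exact h4 w hw

end Vale.Agent.P287.H69
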