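import Vale.Agent.P287.FunctionField

/-!
Specialisation of a finite set of elements of an extension of `ℂ(s₀, s₁)` to an algebraic extension.
-/

namespace Vale.Agent.P287.H69

open Vale.Agent.P287

/-- A finite set of elements of an extension of `ℂ(s₀, s₁)` specialises to an algebraic extension;
the specialisation of a given nonzero element is nonzero. -/
theorem exists_alg {k : Type} [Field k] [Algebra ℂ k] [Algebra RatK k] [IsScalarTower ℂ RatK k]
    {n : ℕ} (z : Fin n → k) (i0 : Fin n) (hz : z i0 ≠ 0) :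
    ∃ (A E : Type) (_ : CommRing A) (_ : Field E) (_ : Algebra ℂ A) (_ : Algebra RatK A)
      (_ : Algebra ℂ E) (_ : Algebra RatK E) (_ : IsScalarTower ℂ RatK A)
      (_ : IsScalarTower ℂ RatK E) (φ : A →ₐ[RatK] k) (ψ : A →ₐ[RatK] E) (zA : Fin n → A),
      Function.Injective φ ∧ (∀ i, φ (zA i) = z i) ∧ ψ (zA i0) ≠ 0 ∧ Algebra.IsAlgebraic RatK E := by
  classical
  set s : Set k := insert (z i0)⁻¹ (Set.range z) with hs
  have hsf : s.Finite := (Set.finite_range z).insert _
  set A : Subalgebra RatK k := Algebra.adjoin RatK s with hA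
  have hfg : A.FG := ⟨hsf.toFinset, by rw [Set.Finite.coe_toFinset]⟩
  have hft : Algebra.FiniteType RatK A := Subalgebra.fg_iff_finiteType _ |>.mp hfg
  have hzs : ∀ i, z i ∈ A := fun i => Algebra.subset_adjoin (Set.mem_insert_of_mem _ ⟨i, rfl⟩)
  have hinv : (z i0)⁻¹ ∈ A := Algebra.subset_adjoin (Set.mem_insert _ _)
  obtain ⟨m, hm⟩ := Ideal.exists_maximal A
  let _ : Field (A ⧸ m) := Ideal.Quotient.field m
  have hE : Algebra.FiniteType RatK (A ⧸ m) :=
    Algebra.FiniteType.of_surjective (Ideal.Quotient.mkₐ RatK m) (Ideal.Quotient.mkₐ_surjective _ _)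
  have hfin : Module.Finite RatK (A ⧸ m) := finite_of_finite_type_of_isJacobsonRing RatK (A ⧸ m)
  refine ⟨A, A ⧸ m, inferInstance, inferInstance, inferInstance, inferInstance, inferInstance,
    inferInstance, inferInstance, inferInstance, A.val, Ideal.Quotient.mkₐ RatK m,
    fun i => ⟨z i, hzs i⟩, Subtype.val_injective, fun i => rfl, ?_,
    Algebra.IsAlgebraic.of_finite RatK (A ⧸ m)⟩
  intro h0
  have h1 : (⟨z i0, hzs i0⟩ : A) * ⟨(z i0)⁻¹, hinv⟩ = 1 := by
    apply Subtype.ext
    exact mul_inv_cancel₀ hz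
  have h2 := congrArg (Ideal.Quotient.mkₐ RatK m) h1
  rw [map_mul, h0, zero_mul, map_one] at h2
  exact zero_ne_one h2

end Vale.Agent.P287.H69
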