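import Vale.Agent.P287.H631.OddMain
import Vale.Agent.P287.H69.Transfer

/-!
The second quadric surface has no singular point over the curve `g = 0`.
-/

open MvPolynomial

namespace Vale.Agent.P287.H69

open Vale.Agent.P287 Vale.Agent.P287.H631

/-- The data of the two quadric surface fibrations. -/
structure Setup (B : Fin 3 → Matrix (Fin 6) (Fin 6) ℂ) (a : Fin 3 → Fin 3 → R3) (b : Fin 3 → R3)
    (m : ℕ) (g : R3) (e : Fin 4 → R3) (γ : ℂ) (Θ : Fin 3 → Fin 3 → Matrix (Fin 3) (Fin 3) ℂ) :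
    Prop where
  ha : ∀ j i, (a j i).IsHomogeneous m
  hb : ∀ j, (b j).IsHomogeneous (m + 1)
  hgp : Prime g
  hg : g.IsHomogeneous (2 * m + 1)
  he : ∀ k, mnr (Nm a b) k = g * e k
  hk : ∃ k, (aeval tvec : R3 →ₐ[ℂ] RatK) (mnr (Nm a b) k) ≠ 0
  hγ : γ ≠ 0
  hqe : qf (QR B) e = C γ * g
  hΘ : ∀ i j, Θ i j = Θ j i
  hid : ∀ v : Fin 4 → R3, pf (QR B) e v ^ 2 - 4 * C γ * g * qf (QR B) v =
      qf (Matrix.of fun i j => qf (Θ i j) (X : Fin 3 → R3)) (act (Nm a b) v)
  nd : ∀ v : Fin 4 → RatK, (∀ w, pf (qmat B) v w = 0) → v = 0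

variable {B : Fin 3 → Matrix (Fin 6) (Fin 6) ℂ} {a : Fin 3 → Fin 3 → R3} {b : Fin 3 → R3}
  {m : ℕ} {g : R3} {e : Fin 4 → R3} {γ : ℂ} {Θ : Fin 3 → Fin 3 → Matrix (Fin 3) (Fin 3) ℂ}

lemma qf_homog (Q : Matrix (Fin 3) (Fin 3) ℂ) : (qf Q (X : Fin 3 → R3)).IsHomogeneous 2 := by
  refine IsHomogeneous.sum _ _ _ fun i _ => IsHomogeneous.sum _ _ _ fun j _ => ?_
  have h1 := (isHomogeneous_C (Fin 3) (Q i j)).mul ((isHomogeneous_X ℂ i).mul (isHomogeneous_X ℂ j))
  rw [zero_add] at h1
  exact h1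

lemma aeval_qfX {A : Type} [CommRing A] [Algebra ℂ A] (Q : Matrix (Fin 3) (Fin 3) ℂ)
    (t : Fin 3 → A) : aeval t (qf Q (X : Fin 3 → R3)) = qf Q t := by
  have := map_qf (aeval t : R3 →ₐ[ℂ] A) Q (X : Fin 3 → R3)
  simp only [aeval_X] at this
  exact this

lemma Setup.g_ne (S : Setup B a b m g e γ Θ) : (aeval tvec : R3 →ₐ[ℂ] RatK) g ≠ 0 := by
  obtain ⟨k, hk⟩ := S.hk
  intro h0
  apply hk
  rw [S.he, map_mul, h0, zero_mul]

/-- A constant zero of `g`. -/
lemma Setup.const_zero (S : Setup B a b m g e γ Θ) {E : Type} [Field E] [Algebra ℂ E]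
    (d : Fin 3 → ℂ) (r : E) (hr : r ≠ 0) (t : Fin 3 → E)
    (ht : t = r • fun i => algebraMap ℂ E (d i)) (hgt : aeval t g = 0) : aeval d g = 0 := by
  have h4 := aeval_smul_of_homog S.hg r (fun i => algebraMap ℂ E (d i))
  rw [← ht, hgt] at h4
  have h5 := (mul_eq_zero.mp h4.symm).resolve_left (pow_ne_zero _ hr)
  have h6 := MvPolynomial.comp_aeval_apply (R := ℂ) d (Algebra.ofId ℂ E) g
  have h7 : algebraMap ℂ E (aeval d g) = 0 := h6.trans h5
  exact (map_eq_zero _).mp h7

section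

variable {E : Type} [Field E] [Algebra ℂ E] [Algebra RatK E] [IsScalarTower ℂ RatK E]

/-- The vanishing of the derivatives with respect to `t` implies the vanishing of the derivatives
with respect to `x`. -/
theorem crit_der [Algebra.IsAlgebraic RatK E] (hΘ : ∀ i j, Θ i j = Θ j i) (t : Fin 3 → E)
    (h3 : ∀ τ : Fin 3 → E, ∑ i, ∑ j, pf (Θ i j) t τ *
        (algebraMap RatK E (tvec i) * algebraMap RatK E (tvec j)) = 0) :
    ∀ i, ∑ j, qf (Θ i j) t * algebraMap RatK E (tvec j) = 0 := by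
  classical
  set x : Fin 3 → E := fun i => algebraMap RatK E (tvec i) with hx
  have h20 : (2 : E) ≠ 0 := by
    have : CharZero E := charZero_of_injective_algebraMap (algebraMap ℂ E).injective
    exact two_ne_zero
  have hsum : ∑ i, ∑ j, qf (Θ i j) t * (x i * x j) = 0 := by
    have h1 := h3 t
    simp only [pf_self] at h1
    have h2 : ∑ i, ∑ j, 2 * qf (Θ i j) t * (x i * x j) =
        2 * ∑ i, ∑ j, qf (Θ i j) t * (x i * x j) := by
      simp only [Finset.mul_sum, mul_assoc]
    exact (mul_eq_zero.mp (h2.symm.trans h1)).resolve_left h20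
  -- the derivatives with respect to `x`
  have hder : ∀ D : Derivation ℂ E E, ∑ i, D (x i) * ∑ j, qf (Θ i j) t * x j = 0 := by
    intro D
    have h1 := congrArg D hsum
    rw [map_sum, map_zero] at h1
    have h2 : ∀ i j, D (qf (Θ i j) t * (x i * x j)) = pf (Θ i j) t (fun a => D (t a)) *
        (x i * x j) + (D (x i) * (qf (Θ i j) t * x j) + D (x j) * (qf (Θ i j) t * x i)) := by
      intro i j
      rw [Derivation.leibniz, Derivation.leibniz, derivation_qf]
      simp only [smul_eq_mul]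
      ring
    have h3' : ∑ i, ∑ j, pf (Θ i j) t (fun a => D (t a)) * (x i * x j) = 0 :=
      h3 (fun a => D (t a))
    simp only [map_sum, h2, Finset.sum_add_distrib, h3', zero_add] at h1
    have h4 : ∑ i, ∑ j, D (x j) * (qf (Θ i j) t * x i) = ∑ i, ∑ j, D (x i) * (qf (Θ i j) t * x j) := by
      rw [Finset.sum_comm]
      refine Finset.sum_congr rfl fun i _ => Finset.sum_congr rfl fun j _ => ?_
      rw [hΘ]
    rw [h4, ← two_mul] at h1
    have h5 := (mul_eq_zero.mp h1).resolve_left h20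
    simp only [Finset.mul_sum]
    exact h5
  have hk : ∀ k : Fin 2, ∑ j, qf (Θ k.succ j) t * x j = 0 := by
    intro k
    obtain ⟨D, hD⟩ := exists_der (E := E) k
    have h1 := hder D
    rw [Fin.sum_univ_three] at h1
    have e0 : D (x 0) = 0 := by
      have : x 0 = 1 := by
        change algebraMap RatK E 1 = 1
        exact map_one _
      rw [this, Derivation.map_one_eq_zero]
    have e1 : D (x 1) = (Pi.single k 1 : Fin 2 → E) 0 := hD 0
    have e2 : D (x 2) = (Pi.single k 1 : Fin 2 → E) 1 := hD 1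
    rw [e0, e1, e2] at h1
    fin_cases k
    · simpa using h1
    · simpa using h1
  intro i
  refine Fin.cases ?_ hk i
  have h5 : ∑ i, x i * ∑ j, qf (Θ i j) t * x j = 0 := by
    rw [← hsum]
    simp only [Finset.mul_sum]
    refine Finset.sum_congr rfl fun i _ => Finset.sum_congr rfl fun j _ => ?_
    ring
  rw [Fin.sum_univ_succ] at h5
  have h6 : ∑ i : Fin 2, x i.succ * ∑ j, qf (Θ i.succ j) t * x j = 0 :=
    Finset.sum_eq_zero fun i _ => by rw [hk, mul_zero]
  rw [h6, add_zero] at h5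
  have h7 : x 0 = 1 := by
    change algebraMap RatK E 1 = 1
    exact map_one _
  rwa [h7, one_mul] at h5

/-- There is no singular point over the curve, in an algebraic extension. -/
theorem Setup.crit_alg (S : Setup B a b m g e γ Θ) (hm : 2 ≤ m) [Algebra.IsAlgebraic RatK E]
    (t : Fin 3 → E) (v : Fin 4 → E) (c : E) (hc : c ≠ 0) (hgt : aeval t g = 0)
    (hf : act ((Nm a b).map (aeval t : R3 →ₐ[ℂ] E)) v = c • fun i => algebraMap RatK E (tvec i))
    (h3 : ∀ τ : Fin 3 → E, ∑ i, ∑ j, pf (Θ i j) t τ *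
        (algebraMap RatK E (tvec i) * algebraMap RatK E (tvec j)) = 0) : False := by
  classical
  have h1 := crit_der S.hΘ t h3
  have hg0 := S.hgp.ne_zero
  have hnc : ¬ ∃ (d : Fin 3 → ℂ) (r : E), t = r • fun i => algebraMap ℂ E (d i) := by
    rintro ⟨d, r, hdr⟩
    by_cases hr : r = 0
    · refine not_const S.ha S.hb S.he 0 ?_ t 0 ?_ v c hc hf
      · have h4 := aeval_smul_of_homog S.hg (A := ℂ) (0 : ℂ) (0 : Fin 3 → ℂ)
        rw [zero_smul] at h4
        rw [h4]
        simp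
      · rw [hdr, hr, zero_smul, zero_smul]
    · exact not_const S.ha S.hb S.he d (S.const_zero d r hr t hdr hgt) t r hdr v c hc hf
  set A : Matrix (Fin 3) (Fin 3) R3 := Matrix.of fun i j => qf (Θ i j) (X : Fin 3 → R3) with hA
  have hAh : ∀ i j, (A i j).IsHomogeneous 2 := fun i j => qf_homog (Θ i j)
  have hAs : ∀ i j, A i j = A j i := fun i j => by
    simp only [A, Matrix.of_apply]
    rw [S.hΘ]
  have hmin : ∀ i j c d, A i c * A j d = A i d * A j c := by
    intro i j c d
    by_contra hcon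
    apply hnc
    have hhom : (A i c * A j d - A i d * A j c).IsHomogeneous 4 :=
      ((hAh i c).mul (hAh j d)).sub ((hAh i d).mul (hAh j c))
    refine exists_const S.hgp S.hg hhom (not_dvd_of_lt S.hg hg0 hhom (sub_ne_zero.mpr hcon)
      (by omega)) t hgt ?_
    have h4 : ∀ i j, aeval t (A i j) = qf (Θ i j) t := fun i j => aeval_qfX (Θ i j) t
    rw [map_sub, map_mul, map_mul, h4, h4, h4, h4, sub_eq_zero]
    exact rank_le_one S.hgp S.hg (by omega) Θ t hnc hgt h1 i j c d
  have hrg : (aeval tvec : R3 →ₐ[ℂ] RatK) (4 * C γ * g) ≠ 0 := by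
    rw [map_mul, map_mul, map_ofNat]
    refine mul_ne_zero (mul_ne_zero (OfNat.ofNat_ne_zero 4) ?_) S.g_ne
    rw [aeval_C]
    simpa using S.hγ
  exact rank_one_false B (Nm a b) A hAs e _ S.hid hrg hmin S.nd

/-- There is no singular point over the curve. -/
theorem Setup.crit_any (S : Setup B a b m g e γ Θ) (hm : 2 ≤ m) {k : Type} [Field k] [Algebra ℂ k]
    [Algebra RatK k] [IsScalarTower ℂ RatK k]
    (t : Fin 3 → k) (v : Fin 4 → k) (c : k) (hc : c ≠ 0) (hgt : aeval t g = 0)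
    (hf : act ((Nm a b).map (aeval t : R3 →ₐ[ℂ] k)) v = c • fun i => algebraMap RatK k (tvec i))
    (h3 : ∀ τ : Fin 3 → k, ∑ i, ∑ j, pf (Θ i j) t τ *
        (algebraMap RatK k (tvec i) * algebraMap RatK k (tvec j)) = 0) : False := by
  classical
  obtain ⟨A, E, i1, i2, i3, i4, i5, i6, i7, i8, φ, ψ, zA, hφ, hz, h0, i9⟩ :=
    exists_alg (![t 0, t 1, t 2, v 0, v 1, v 2, v 3, c] : Fin 8 → k) 7 hc
  set tA : Fin 3 → A := ![zA 0, zA 1, zA 2] with htA
  set vA : Fin 4 → A := ![zA 3, zA 4, zA 5, zA 6] with hvA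
  set φℂ : A →ₐ[ℂ] k := φ.restrictScalars ℂ with hφℂ
  set ψℂ : A →ₐ[ℂ] E := ψ.restrictScalars ℂ with hψℂ
  have ht : (fun i => φ (tA i)) = t := by
    funext i
    fin_cases i
    · exact hz 0
    · exact hz 1
    · exact hz 2
  have hv : (fun i => φ (vA i)) = v := by
    funext i
    fin_cases i
    · exact hz 3
    · exact hz 4
    · exact hz 5
    · exact hz 6
  have hcA : φ (zA 7) = c := hz 7
  have hφp : ∀ p : R3, φ (aeval tA p) = aeval t p := by
    intro p
    have h1 := MvPolynomial.comp_aeval_apply (R := ℂ) tA φℂ p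
    have h2 : (fun i => φℂ (tA i)) = t := ht
    rw [h2] at h1
    exact h1
  have hψp : ∀ p : R3, ψ (aeval tA p) = aeval (fun i => ψ (tA i)) p := by
    intro p
    exact MvPolynomial.comp_aeval_apply (R := ℂ) tA ψℂ p
  -- the relations in `A`
  have hgA : aeval tA g = 0 := by
    apply hφ
    rw [hφp, hgt, map_zero]
  have hfA : ∀ j, ∑ k, aeval tA (Nm a b j k) * vA k = zA 7 * algebraMap RatK A (tvec j) := by
    intro j
    apply hφ
    rw [map_sum, map_mul, hcA, φ.commutes]
    have h1 := congrFun hf j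
    change ∑ k, aeval t (Nm a b j k) * v k = c * algebraMap RatK k (tvec j) at h1
    rw [← h1]
    refine Finset.sum_congr rfl fun k _ => ?_
    rw [map_mul, hφp]
    congr 1
    exact congrFun hv k
  have hΘA : ∀ j', ∑ i, ∑ j, pf (Θ i j) tA (Pi.single j' 1 : Fin 3 → A) *
      (algebraMap RatK A (tvec i) * algebraMap RatK A (tvec j)) = 0 := by
    intro j'
    apply hφ
    rw [map_sum, map_zero, ← h3 (Pi.single j' 1)]
    refine Finset.sum_congr rfl fun i _ => ?_
    rw [map_sum]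
    refine Finset.sum_congr rfl fun j _ => ?_
    rw [map_mul, map_mul, φ.commutes, φ.commutes]
    congr 1
    have h4 := map_pf φℂ (Θ i j) tA (Pi.single j' 1 : Fin 3 → A)
    have h5 : (fun i => φℂ ((Pi.single j' 1 : Fin 3 → A) i)) = (Pi.single j' 1 : Fin 3 → k) := by
      funext i
      by_cases h : i = j'
      · subst h
        simp
      · simp [Pi.single_eq_of_ne h]
    have h6 : (fun i => φℂ (tA i)) = t := ht
    rw [h5, h6] at h4
    exact h4
  refine S.crit_alg hm (E := E) (fun i => ψ (tA i)) (fun i => ψ (vA i)) (ψ (zA 7)) h0 ?_ ?_ ?_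
  · rw [← hψp, hgA, map_zero]
  · funext j
    change ∑ k, aeval (fun i => ψ (tA i)) (Nm a b j k) * ψ (vA k) =
      ψ (zA 7) * algebraMap RatK E (tvec j)
    rw [← ψ.commutes, ← map_mul, ← hfA, map_sum]
    refine Finset.sum_congr rfl fun k _ => ?_
    rw [map_mul, hψp]
  · intro τ
    have h7 : ∀ i j, pf (Θ i j) (fun i => ψ (tA i)) τ =
        ∑ j', τ j' * pf (Θ i j) (fun i => ψ (tA i)) (Pi.single j' 1 : Fin 3 → E) := by
      intro i j
      rw [pf_eq_sum]
      refine Finset.sum_congr rfl fun j' _ => ?_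
      rw [mul_comm]
    simp only [h7, Finset.sum_mul]
    rw [Finset.sum_congr rfl fun i _ => Finset.sum_comm, Finset.sum_comm]
    refine Finset.sum_eq_zero fun j' _ => ?_
    have h8 := congrArg ψ (hΘA j')
    rw [map_sum, map_zero] at h8
    have h9 : ∑ i, ∑ j, pf (Θ i j) (fun i => ψ (tA i)) (Pi.single j' 1 : Fin 3 → E) *
        (algebraMap RatK E (tvec i) * algebraMap RatK E (tvec j)) = 0 := by
      rw [← h8]
      refine Finset.sum_congr rfl fun i _ => ?_
      rw [map_sum]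
      refine Finset.sum_congr rfl fun j _ => ?_
      rw [map_mul, map_mul, ψ.commutes, ψ.commutes]
      congr 1
      have h4 := map_pf ψℂ (Θ i j) tA (Pi.single j' 1 : Fin 3 → A)
      have h5 : (fun i => ψℂ ((Pi.single j' 1 : Fin 3 → A) i)) = (Pi.single j' 1 : Fin 3 → E) := by
        funext i
        by_cases h : i = j'
        · subst h
          simp
        · simp [Pi.single_eq_of_ne h]
      rw [h5] at h4
      exact h4.symm
    have h10 : ∀ i j, τ j' * pf (Θ i j) (fun i => ψ (tA i)) (Pi.single j' 1 : Fin 3 → E) *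
        (algebraMap RatK E (tvec i) * algebraMap RatK E (tvec j)) =
        τ j' * (pf (Θ i j) (fun i => ψ (tA i)) (Pi.single j' 1 : Fin 3 → E) *
        (algebraMap RatK E (tvec i) * algebraMap RatK E (tvec j))) := fun i j => by ring
    simp only [h10, ← Finset.mul_sum]
    rw [h9, mul_zero]

end

end Vale.Agent.P287.H69
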