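import Mathlib

/-!
A prime ideal of odd degree and odd multiplicity in an element whose norm to `F[X]` has odd degree.
-/

open Polynomial Module

namespace Vale.Agent.P287.H69

lemma exists_odd_of_sum {α : Type*} [DecidableEq α] (s : Multiset α) (f : α → ℕ)
    (h : Odd (s.map f).sum) : ∃ a ∈ s, Odd (s.count a) ∧ Odd (f a) := by
  classical
  by_contra hcon
  push Not at hcon
  rw [Finset.sum_multiset_map_count] at h
  have h1 : Even (∑ a ∈ s.toFinset, s.count a • f a) := by
    apply Finset.even_sum
    intro a ha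
    rw [Multiset.mem_toFinset] at ha
    by_contra hodd
    rw [Nat.not_even_iff_odd, smul_eq_mul, Nat.odd_mul] at hodd
    exact hcon a ha hodd.1 hodd.2
  exact (Nat.not_even_iff_odd.mpr h) h1

section

variable {F : Type} [Field F]

/-- The degree of a generator of an ideal of `F[X]`. -/
noncomputable def dg (I : Ideal F[X]) : ℕ := (Submodule.IsPrincipal.generator I).natDegree

lemma dg_span (p : F[X]) : dg (Ideal.span {p}) = p.natDegree := by
  have h1 : Associated (Submodule.IsPrincipal.generator (Ideal.span {p})) p := by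
    rw [← Ideal.span_singleton_eq_span_singleton]
    exact Ideal.span_singleton_generator _
  exact Polynomial.natDegree_eq_of_degree_eq (Polynomial.degree_eq_degree_of_associated h1)

lemma dg_mul {I J : Ideal F[X]} (hI : I ≠ ⊥) (hJ : J ≠ ⊥) : dg (I * J) = dg I + dg J := by
  have hI' := Ideal.span_singleton_generator I
  have hJ' := Ideal.span_singleton_generator J
  have h0 : Submodule.IsPrincipal.generator I ≠ 0 := by
    intro h; apply hI; rw [← hI', h]; simp
  have h1 : Submodule.IsPrincipal.generator J ≠ 0 := by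
    intro h; apply hJ; rw [← hJ', h]; simp
  conv_lhs => rw [← hI', ← hJ', Ideal.span_singleton_mul_span_singleton]
  rw [dg_span, natDegree_mul h0 h1]
  rfl

lemma dg_one : dg (1 : Ideal F[X]) = 0 := by
  rw [Ideal.one_eq_top, ← Ideal.span_singleton_one, dg_span]
  simp

lemma dg_pow {I : Ideal F[X]} (hI : I ≠ ⊥) (n : ℕ) : dg (I ^ n) = n * dg I := by
  induction n with
  | zero => rw [pow_zero, dg_one, zero_mul]
  | succ n ih =>
    have h : I ^ n ≠ ⊥ := pow_ne_zero n hI
    rw [pow_succ, dg_mul h hI, ih]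
    ring

lemma finrank_quot (p : Ideal F[X]) (hp : p ≠ ⊥) : finrank F (F[X] ⧸ p) = dg p := by
  have hp' := Ideal.span_singleton_generator p
  have h0 : Submodule.IsPrincipal.generator p ≠ 0 := by
    intro h; apply hp; rw [← hp', h]; simp
  conv_lhs => rw [← hp']
  exact finrank_quotient_span_eq_natDegree

variable [CharZero F] {B : Type} [CommRing B]
    [IsDedekindDomain B] [Algebra F[X] B] [Module.Finite F[X] B] [Module.IsTorsionFree F[X] B]
    [Algebra F B] [IsScalarTower F F[X] B]

lemma finrank_prime (P : Ideal B) [hP : P.IsMaximal] (hP0 : P ≠ ⊥) :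
    dg (Ideal.relNorm F[X] P) = finrank F (B ⧸ P) := by
  have h0 : P.under F[X] ≠ ⊥ := by
    intro h
    exact hP0 (Ideal.eq_bot_of_comap_eq_bot h)
  have hm : (P.under F[X]).IsMaximal := Ideal.isMaximal_comap_of_isIntegral_of_isMaximal P
  have : CharZero (FractionRing F[X]) :=
    charZero_of_injective_algebraMap (algebraMap F (FractionRing F[X])).injective
  rw [Ideal.relNorm_eq_pow_of_isMaximal P (P.under F[X]), dg_pow h0, ← finrank_quot _ h0,
    Ideal.inertiaDeg_eq_of_isMaximal (P.under F[X]) P, mul_comm]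
  let _ : Field (F[X] ⧸ P.under F[X]) := Ideal.Quotient.field _
  have : IsScalarTower F (F[X] ⧸ P.under F[X]) (B ⧸ P) := by
    apply IsScalarTower.of_algebraMap_eq
    intro c
    change Ideal.Quotient.mk P (algebraMap F B c) = _
    rw [IsScalarTower.algebraMap_apply F F[X] B]
    rfl
  exact finrank_mul_finrank F (F[X] ⧸ P.under F[X]) (B ⧸ P)

open UniqueFactorizationMonoid in
theorem exists_odd_prime (b : B) (hodd : Odd (Algebra.intNorm F[X] B b).natDegree) :
    ∃ P : Ideal B, P.IsMaximal ∧ P ≠ ⊥ ∧
      Odd (Multiset.count P (normalizedFactors (Ideal.span {b}))) ∧ Odd (finrank F (B ⧸ P)) := by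
  classical
  have hn0 : Algebra.intNorm F[X] B b ≠ 0 := by
    intro h
    rw [h, natDegree_zero] at hodd
    exact (Nat.not_odd_zero) hodd
  have hI : Ideal.span {b} ≠ ⊥ := by
    intro h
    have h1 : Ideal.relNorm F[X] (Ideal.span {b}) = ⊥ := by rw [h, Ideal.relNorm_bot]
    rw [Ideal.relNorm_singleton, Ideal.span_singleton_eq_bot] at h1
    exact hn0 h1
  set s := normalizedFactors (Ideal.span {b}) with hs
  have hs0 : ∀ P ∈ s, P ≠ ⊥ := fun P hP => ne_zero_of_mem_normalizedFactors hP
  have hsm : ∀ P ∈ s, P.IsMaximal := by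
    intro P hP
    have h1 := hs0 P hP
    rw [Ideal.mem_normalizedFactors_iff hI] at hP
    exact Ring.DimensionLEOne.maximalOfPrime h1 hP.1
  have h1 : ∀ t : Multiset (Ideal B), (∀ P ∈ t, P ≠ ⊥) → Ideal.relNorm F[X] t.prod ≠ ⊥ ∧
      dg (Ideal.relNorm F[X] t.prod) = (t.map fun P => dg (Ideal.relNorm F[X] P)).sum := by
    intro t
    induction t using Multiset.induction_on with
    | empty =>
      intro _
      simp only [Multiset.prod_zero, map_one, Multiset.map_zero, Multiset.sum_zero, dg_one,
        and_true]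
      rw [Ideal.one_eq_top]
      exact top_ne_bot
    | cons P t ih =>
      intro h
      obtain ⟨h2, h3⟩ := ih fun Q hQ => h Q (Multiset.mem_cons_of_mem hQ)
      have h4 : Ideal.relNorm F[X] P ≠ ⊥ := by
        rw [Ne, Ideal.relNorm_eq_bot_iff]
        exact h P (Multiset.mem_cons_self P t)
      refine ⟨?_, ?_⟩
      · rw [Multiset.prod_cons, map_mul]
        exact mul_ne_zero h4 h2
      · rw [Multiset.prod_cons, map_mul, dg_mul h4 h2, h3, Multiset.map_cons, Multiset.sum_cons]
  have h2 := (h1 s hs0).2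
  rw [hs, Ideal.prod_normalizedFactors_eq_self hI, Ideal.relNorm_singleton, dg_span] at h2
  rw [h2] at hodd
  obtain ⟨P, hP, hc, hd⟩ := exists_odd_of_sum _ _ hodd
  have hPm := hsm P hP
  refine ⟨P, hPm, hs0 P hP, hc, ?_⟩
  rw [← finrank_prime P (hs0 P hP)]
  exact hd

end

end Vale.Agent.P287.H69
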