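import Vale.Agent.P287.H69.NormRes
import Vale.Agent.P287.H69.OddIdeal

/-!
A place of odd degree of a plane curve, at which a given polynomial has odd order.
-/

open Polynomial Module

namespace Vale.Agent.P287.H69

/-- There is a discrete valuation ring with residue field of odd degree over `F`, containing a point
of the curve `D = 0`, such that `g` has odd order at the point. -/
def HasOddPlace (F : Type) [Field F] (D g : F[X][X]) : Prop :=
  ∃ (O : Type) (_ : CommRing O) (_ : IsDomain O) (_ : IsDiscreteValuationRing O) (_ : Algebra F O)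
    (x y : O), aevalAeval x y D = 0 ∧ Odd (finrank F (IsLocalRing.ResidueField O)) ∧
    ∃ (p u : O) (j : ℕ), Irreducible p ∧ IsUnit u ∧ Odd j ∧ aevalAeval x y g = u * p ^ j

section

variable {F : Type} [Field F]

lemma aevalAeval_eq {A : Type} [CommRing A] [Algebra F[X] A] [Algebra F A] [IsScalarTower F F[X] A]
    (y : A) (g : F[X][X]) : aevalAeval (algebraMap F[X] A X) y g = aeval y g := by
  induction g using Polynomial.induction_on' with
  | add p q hp hq => rw [map_add, map_add, hp, hq]
  | monomial n a =>
    rw [← C_mul_X_pow_eq_monomial, map_mul, map_pow, aevalAeval_C, map_mul, map_pow, aeval_C,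
      aeval_X, aevalAeval_Y, Polynomial.aeval_algebraMap_apply, aeval_X_left_apply]

lemma map_aevalAeval {A A' : Type} [CommRing A] [CommRing A'] [Algebra F A] [Algebra F A']
    [Algebra A A'] [IsScalarTower F A A'] (x y : A) (g : F[X][X]) :
    algebraMap A A' (aevalAeval x y g) = aevalAeval (algebraMap A A' x) (algebraMap A A' y) g := by
  induction g using Polynomial.induction_on' with
  | add p q hp hq => simp only [map_add, hp, hq]
  | monomial n a =>
    rw [← C_mul_X_pow_eq_monomial, map_mul, map_mul, map_mul, map_pow, map_pow, map_pow,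
      aevalAeval_C, aevalAeval_C, aevalAeval_Y, aevalAeval_Y, Polynomial.aeval_algebraMap_apply]

lemma isPrimitive_of_isUnit {D : F[X][X]} (hu : IsUnit D.leadingCoeff) : D.IsPrimitive := by
  intro r hr
  obtain ⟨q, rfl⟩ := hr
  rw [leadingCoeff_mul, leadingCoeff_C] at hu
  exact isUnit_of_mul_isUnit_left hu

/-- The order of an element at a prime of a Dedekind domain. -/
theorem order_at {B : Type} [CommRing B] [IsDedekindDomain B] (b : B) (hb : b ≠ 0) (P : Ideal B)
    [hP : P.IsPrime] [IsDiscreteValuationRing (Localization.AtPrime P)] :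
    ∃ (p u : Localization.AtPrime P), Irreducible p ∧ IsUnit u ∧
      algebraMap B (Localization.AtPrime P) b =
        u * p ^ (Multiset.count P (UniqueFactorizationMonoid.normalizedFactors
          (Ideal.span {b}))) := by
  classical
  set O := Localization.AtPrime P
  set s := UniqueFactorizationMonoid.normalizedFactors (Ideal.span {b}) with hs
  have hI : Ideal.span {b} ≠ ⊥ := by rwa [Ne, Ideal.span_singleton_eq_bot]
  have hprod : s.prod = Ideal.span {b} := Ideal.prod_normalizedFactors_eq_self hI
  set J := (s.filter (fun Q => Q ≠ P)).prod with hJ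
  have h1 : Ideal.span {b} = P ^ (s.count P) * J := by
    rw [← hprod, ← Multiset.filter_add_not (fun Q => Q = P) s, Multiset.prod_add]
    congr 1
    rw [Multiset.filter_eq', Multiset.prod_replicate, Multiset.count_add, Multiset.count_replicate,
      if_pos rfl]
    congr 1
    rw [Multiset.count_filter_of_neg (by simp), add_zero]
  have h2 : ¬ J ≤ P := by
    intro h
    rw [hJ, Ideal.IsPrime.multiset_prod_le hP] at h
    obtain ⟨Q, hQ, hQP⟩ := h
    rw [Multiset.mem_filter] at hQ
    have hQ0 : Q ≠ ⊥ := UniqueFactorizationMonoid.ne_zero_of_mem_normalizedFactors hQ.1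
    have hQm : Q.IsMaximal := by
      have h3 := hQ.1
      rw [hs, Ideal.mem_normalizedFactors_iff hI] at h3
      exact Ring.DimensionLEOne.maximalOfPrime hQ0 h3.1
    exact hQ.2 (hQm.eq_of_le hP.ne_top hQP)
  obtain ⟨d, hdJ, hdP⟩ := SetLike.not_le_iff_exists.mp h2
  have h3 : J.map (algebraMap B O) = ⊤ := by
    apply Ideal.eq_top_of_isUnit_mem _ (Ideal.mem_map_of_mem _ hdJ)
    exact IsLocalization.map_units O (⟨d, hdP⟩ : P.primeCompl)
  obtain ⟨p, hp⟩ := IsDiscreteValuationRing.exists_irreducible O
  have h4 : Ideal.span {algebraMap B O b} = Ideal.span {p ^ s.count P} := by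
    have h5 := congrArg (Ideal.map (algebraMap B O)) h1
    rw [Ideal.map_span, Set.image_singleton, Ideal.map_mul, h3, Ideal.mul_top, Ideal.map_pow,
      Localization.AtPrime.map_eq_maximalIdeal, hp.maximalIdeal_eq, Ideal.span_singleton_pow] at h5
    exact h5
  rw [Ideal.span_singleton_eq_span_singleton] at h4
  obtain ⟨u, hu⟩ := h4.symm
  exact ⟨p, u, hp, u.isUnit, by rw [← hu, mul_comm]⟩

theorem place_of_prime {B : Type} [CommRing B] [IsDedekindDomain B] [Algebra F B] (x y : B)
    (D g : F[X][X]) (hDE : aevalAeval x y D = 0) (P : Ideal B) [hPm : P.IsMaximal] (hP0 : P ≠ ⊥)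
    (hb0 : aevalAeval x y g ≠ 0)
    (hc : Odd (Multiset.count P (UniqueFactorizationMonoid.normalizedFactors
      (Ideal.span {aevalAeval x y g}))))
    (hd : Odd (finrank F (B ⧸ P))) : HasOddPlace F D g := by
  have hdvr : IsDiscreteValuationRing (Localization.AtPrime P) :=
    IsLocalization.AtPrime.isDiscreteValuationRing_of_dedekind_domain B hP0 _
  obtain ⟨p, u, hp, hu', hbp⟩ := order_at _ hb0 P
  refine ⟨Localization.AtPrime P, inferInstance, inferInstance, hdvr, inferInstance,
    algebraMap _ _ x, algebraMap _ _ y, ?_, ?_, p, u, _, hp, hu', hc, ?_⟩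
  · rw [← map_aevalAeval, hDE, map_zero]
  · have h1 : finrank F (B ⧸ P) = finrank F (IsLocalRing.ResidueField (Localization.AtPrime P)) := by
      let e := IsLocalization.AtPrime.equivQuotMaximalIdeal P (Localization.AtPrime P)
      have he : ∀ c : F, e (algebraMap F (B ⧸ P) c) =
          algebraMap F (Localization.AtPrime P ⧸ IsLocalRing.maximalIdeal _) c := by
        intro c
        have h2 : algebraMap F (B ⧸ P) c = Ideal.Quotient.mk P (algebraMap F B c) := rfl
        rw [h2, IsLocalization.AtPrime.equivQuotMaximalIdeal_apply_mk,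
          ← IsScalarTower.algebraMap_apply F B (Localization.AtPrime P)]
        rfl
      exact (AlgEquiv.ofRingEquiv (f := e) he).toLinearEquiv.finrank_eq
    rwa [← h1]
  · rw [← map_aevalAeval]
    exact hbp

variable [CharZero F]

theorem odd_place_irred (D g : F[X][X]) (hD : Irreducible D) (hu : IsUnit D.leadingCoeff)
    (hres : Odd (resultant D g).natDegree) : HasOddPlace F D g := by
  classical
  set K := FractionRing F[X]
  have hK : CharZero K := charZero_of_injective_algebraMap (algebraMap F K).injective
  have hinj : Function.Injective (algebraMap F[X] K) := IsFractionRing.injective F[X] K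
  set f : K[X] := D.map (algebraMap F[X] K) with hf
  have hirr : Irreducible f :=
    ((isPrimitive_of_isUnit hu).irreducible_iff_irreducible_map_fraction_map (K := K)).mp hD
  have hfact : Fact (Irreducible f) := ⟨hirr⟩
  set E := AdjoinRoot f
  have hfin : FiniteDimensional K E := (AdjoinRoot.powerBasis hirr.ne_zero).finite
  set B := integralClosure F[X] E
  have hB1 : IsDedekindDomain B := integralClosure.isDedekindDomain F[X] K E
  have hB2 : IsFractionRing B E := integralClosure.isFractionRing_of_finite_extension K E
  have hB3 : Module.Finite F[X] B := IsIntegralClosure.finite F[X] K E B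
  have hB4 : Module.IsTorsionFree F[X] B := by
    rw [Module.isTorsionFree_iff_algebraMap_injective]
    have h1 : Function.Injective (algebraMap F[X] E) := by
      rw [IsScalarTower.algebraMap_eq F[X] K E]
      exact (algebraMap K E).injective.comp hinj
    intro a b hab
    apply h1
    have h3 := congrArg (algebraMap B E) hab
    exact h3
  set y0 : E := AdjoinRoot.root f
  have hD0 : aeval y0 D = 0 := by
    have h1 : aeval y0 f = 0 := AdjoinRoot.aeval_eq f ▸ AdjoinRoot.mk_self
    have h2 : aeval y0 (D.map (algebraMap F[X] K)) = 0 := h1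
    rwa [aeval_map_algebraMap] at h2
  have hy0 : IsIntegral F[X] y0 := by
    have h1 := isIntegral_leadingCoeff_smul D y0 hD0
    obtain ⟨u, hu'⟩ := hu
    have h2 : y0 = (↑u⁻¹ : F[X]) • (D.leadingCoeff • y0) := by
      rw [← hu', smul_smul, Units.inv_mul, one_smul]
    rw [h2]
    exact h1.smul _
  set y : B := ⟨y0, hy0⟩
  set x : B := algebraMap F[X] B X
  set b : B := aevalAeval x y g with hb
  have hev : ∀ q : F[X][X], algebraMap B E (aevalAeval x y q) = aeval y0 q := by
    intro q
    rw [aevalAeval_eq, ← Polynomial.aeval_algebraMap_apply]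
    rfl
  have hbE : algebraMap B E b = aeval y0 (g.map (algebraMap F[X] K)) := by
    rw [hb, hev, aeval_map_algebraMap]
  have hDE : aevalAeval x y D = 0 := by
    apply FaithfulSMul.algebraMap_injective B E
    rw [hev, hD0, map_zero]
  have hn : resultant D g = D.leadingCoeff ^ g.natDegree * Algebra.intNorm F[X] B b := by
    apply hinj
    rw [map_mul, map_pow, Algebra.algebraMap_intNorm (A := F[X]) (K := K) (L := E) (B := B) b, hbE]
    have h1 := resultant_eq_norm f (g.map (algebraMap F[X] K))
    have h2 : resultant f (g.map (algebraMap F[X] K)) = algebraMap F[X] K (resultant D g) := by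
      change resultant (D.map (algebraMap F[X] K)) (g.map (algebraMap F[X] K)) = _
      rw [natDegree_map_eq_of_injective hinj, natDegree_map_eq_of_injective hinj,
        resultant_map_map]
    have h3 : f.leadingCoeff = algebraMap F[X] K D.leadingCoeff :=
      leadingCoeff_map_of_injective hinj _
    rw [h2, h3, natDegree_map_eq_of_injective hinj] at h1
    exact h1
  have hodd : Odd (Algebra.intNorm F[X] B b).natDegree := by
    have h0 : Algebra.intNorm F[X] B b ≠ 0 := by
      intro h
      rw [hn, h, mul_zero, natDegree_zero] at hres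
      exact Nat.not_odd_zero hres
    rw [hn, natDegree_mul (pow_ne_zero _ hu.ne_zero) h0, natDegree_pow,
      natDegree_eq_zero_of_isUnit hu, mul_zero, zero_add] at hres
    exact hres
  obtain ⟨P, hPm, hP0, hc, hd⟩ := exists_odd_prime b hodd
  have hb0 : b ≠ 0 := by
    intro h
    rw [h, Algebra.intNorm_zero, natDegree_zero] at hodd
    exact Nat.not_odd_zero hodd
  exact place_of_prime x y D g hDE P hP0 hb0 hc hd

/-- A plane curve which meets `g = 0` with odd total multiplicity has an odd place. -/
theorem odd_place : ∀ (n : ℕ) (D g : F[X][X]), D.natDegree = n → IsUnit D.leadingCoeff →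
    Odd (resultant D g).natDegree → HasOddPlace F D g := by
  intro n
  induction n using Nat.strong_induction_on with
  | _ n ih =>
  intro D g hn hu hres
  have hD0 : D ≠ 0 := by
    rintro rfl
    simp at hu
  by_cases hirr : Irreducible D
  · exact odd_place_irred D g hirr hu hres
  have hnu : ¬ IsUnit D := by
    intro h
    obtain ⟨c, hc, rfl⟩ := Polynomial.isUnit_iff.mp h
    rw [natDegree_C, resultant_C_zero_left, natDegree_pow, natDegree_eq_zero_of_isUnit hc,
      mul_zero] at hres
    exact Nat.not_odd_zero hres
  rw [irreducible_iff] at hirr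
  push Not at hirr
  obtain ⟨D1, D2, h12, h1, h2⟩ := hirr hnu
  subst h12
  rw [leadingCoeff_mul] at hu
  have hu1 : IsUnit D1.leadingCoeff := isUnit_of_mul_isUnit_left hu
  have hu2 : IsUnit D2.leadingCoeff := isUnit_of_mul_isUnit_right hu
  have hD1 : D1 ≠ 0 := left_ne_zero_of_mul hD0
  have hD2 : D2 ≠ 0 := right_ne_zero_of_mul hD0
  have hpos : ∀ D : F[X][X], IsUnit D.leadingCoeff → ¬ IsUnit D → 0 < D.natDegree := by
    intro D hu hD
    rw [Nat.pos_iff_ne_zero]
    intro h
    apply hD
    rw [eq_C_of_natDegree_eq_zero h]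
    rw [leadingCoeff, h] at hu
    exact hu.map C
  have hp1 := hpos D1 hu1 h1
  have hp2 := hpos D2 hu2 h2
  rw [natDegree_mul hD1 hD2] at hn
  have hmul : resultant (D1 * D2) g = resultant D1 g * resultant D2 g := by
    rw [natDegree_mul hD1 hD2]
    exact resultant_mul_left D1 D2 g _ le_rfl
  rw [hmul] at hres
  have hr : resultant D1 g * resultant D2 g ≠ 0 := by
    intro h
    rw [h, natDegree_zero] at hres
    exact Nat.not_odd_zero hres
  rw [natDegree_mul (left_ne_zero_of_mul hr) (right_ne_zero_of_mul hr), Nat.odd_add] at hres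
  by_cases ho : Odd (resultant D1 g).natDegree
  · obtain ⟨O, i1, i2, i3, i4, x, y, h3, h4⟩ := ih D1.natDegree (by omega) D1 g rfl hu1 ho
    exact ⟨O, i1, i2, i3, i4, x, y, by rw [map_mul, h3, zero_mul], h4⟩
  · have ho2 : Odd (resultant D2 g).natDegree := by
      rw [← Nat.not_even_iff_odd]
      intro h
      exact ho (hres.mpr h)
    obtain ⟨O, i1, i2, i3, i4, x, y, h3, h4⟩ := ih D2.natDegree (by omega) D2 g rfl hu2 ho2
    exact ⟨O, i1, i2, i3, i4, x, y, by rw [map_mul, h3, mul_zero], h4⟩

end

end Vale.Agent.P287.H69
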