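import Vale.Agent.P287.H69.Params

/-!
Generic linear forms: independence and descent of zeros.
-/

open MvPolynomial

namespace Vale.Agent.P287.H69

open Vale.Agent.P287

lemma gl_eq (i : Fin 2) (a : Fin 6) : gl i a = algebraMap PR PF (X (i, a)) := rfl

/-- The value of the generic linear form at a vector over `ℂ(s₀, s₁)`. -/
noncomputable def lv (i : Fin 2) (z : Fin 6 → RatK) : PR := ∑ a, X (i, a) * C (z a)

lemma lv_map (i : Fin 2) (z : Fin 6 → RatK) :
    algebraMap PR PF (lv i z) = ∑ a, gl i a * algebraMap RatK PF (z a) := by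
  rw [lv, map_sum]
  refine Finset.sum_congr rfl fun a _ => ?_
  rw [map_mul, gl_eq, ← MvPolynomial.algebraMap_eq, ← IsScalarTower.algebraMap_apply RatK PR PF]

lemma lv_aeval {A : Type} [CommRing A] [Algebra RatK A] (i : Fin 2) (z : Fin 6 → RatK) (x : J → A) :
    aeval x (lv i z) = ∑ a, x (i, a) * algebraMap RatK A (z a) := by
  rw [lv, map_sum]
  refine Finset.sum_congr rfl fun a _ => ?_
  rw [map_mul, aeval_X, aeval_C]

/-- Two generic linear forms restrict to independent forms on a plane. -/
theorem det_ne (z1 z2 : Fin 6 → RatK) (a b : Fin 6) (h : z1 a * z2 b - z1 b * z2 a ≠ 0) :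
    algebraMap PR PF (lv 0 z1) * algebraMap PR PF (lv 1 z2) -
      algebraMap PR PF (lv 0 z2) * algebraMap PR PF (lv 1 z1) ≠ 0 := by
  rw [← map_mul, ← map_mul, ← map_sub]
  rw [Ne, map_eq_zero_iff _ (IsFractionRing.injective PR PF)]
  intro h0
  have hab : a ≠ b := by
    rintro rfl
    exact h (by ring)
  let x : J → RatK := fun ia => if ia.1 = 0 then
    (if ia.2 = a then z2 b else if ia.2 = b then -z2 a else 0) else
    (if ia.2 = a then -z1 b else if ia.2 = b then z1 a else 0)
  have h1 := congrArg (aeval x) h0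
  rw [map_sub, map_mul, map_mul, map_zero, lv_aeval, lv_aeval, lv_aeval, lv_aeval] at h1
  have key : ∀ (c d : RatK) (z : Fin 6 → RatK),
      ∑ j, (if j = a then c else if j = b then d else 0) * z j = c * z a + d * z b := by
    intro c d z
    have e1 : ∀ j, (if j = a then c else if j = b then d else 0) * z j =
        (if j = a then c * z a else 0) + (if j = b then d * z b else 0) := by
      intro j
      by_cases hja : j = a
      · subst hja
        simp [hab]
      · by_cases hjb : j = b
        · subst hjb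
          simp [hja]
        · simp [hja, hjb]
    simp only [e1, Finset.sum_add_distrib, Finset.sum_ite_eq', Finset.mem_univ, if_true]
  have k0 : ∀ z : Fin 6 → RatK, ∑ j, x (0, j) * algebraMap RatK RatK (z j) =
      z2 b * z a + (-z2 a) * z b := fun z => key (z2 b) (-z2 a) z
  have k1 : ∀ z : Fin 6 → RatK, ∑ j, x (1, j) * algebraMap RatK RatK (z j) =
      (-z1 b) * z a + z1 a * z b := fun z => key (-z1 b) (z1 a) z
  rw [k0, k0, k1, k1] at h1
  have h2 : (z1 a * z2 b - z1 b * z2 a) ^ 2 = 0 := by linear_combination h1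
  exact h (eq_zero_of_pow_eq_zero h2)

/-- A generic linear form does not vanish at a nonzero vector. -/
theorem lv_ne (i : Fin 2) (z : Fin 6 → RatK) (a : Fin 6) (h : z a ≠ 0) :
    algebraMap PR PF (lv i z) ≠ 0 := by
  classical
  rw [Ne, map_eq_zero_iff _ (IsFractionRing.injective PR PF)]
  intro h0
  have h1 := congrArg (aeval fun ia : J => if ia.2 = a then (1 : RatK) else 0) h0
  rw [map_zero, lv_aeval] at h1
  simp at h1
  exact h h1

/-- A zero outside of the radical descends from the field of generic coefficients. -/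
theorem descend {n : ℕ} (Q : Matrix (Fin n) (Fin n) RatK) (v u : Fin n → PF) (hv : qf Q v = 0)
    (hu : pf Q v u ≠ 0) : ∃ v' u' : Fin n → RatK, qf Q v' = 0 ∧ pf Q v' u' ≠ 0 := by
  classical
  obtain ⟨d, hd⟩ := IsLocalization.exist_integer_multiples_of_finset (nonZeroDivisors PR)
    (Finset.univ.image v ∪ Finset.univ.image u)
  have hd0 : algebraMap PR PF d ≠ 0 := by
    rw [Ne, map_eq_zero_iff _ (IsFractionRing.injective PR PF)]
    exact nonZeroDivisors.coe_ne_zero d
  have h1 : ∀ i, ∃ V : PR, algebraMap PR PF V = algebraMap PR PF d * v i := by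
    intro i
    obtain ⟨V, hV⟩ := hd (v i) (Finset.mem_union_left _ (Finset.mem_image_of_mem _ (Finset.mem_univ i)))
    exact ⟨V, by rw [hV, Algebra.smul_def]⟩
  have h2 : ∀ i, ∃ V : PR, algebraMap PR PF V = algebraMap PR PF d * u i := by
    intro i
    obtain ⟨V, hV⟩ := hd (u i) (Finset.mem_union_right _ (Finset.mem_image_of_mem _ (Finset.mem_univ i)))
    exact ⟨V, by rw [hV, Algebra.smul_def]⟩
  choose V hV using h1
  choose U hU using h2
  have hV' : (fun i => algebraMap PR PF (V i)) = algebraMap PR PF d • v := funext hV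
  have hU' : (fun i => algebraMap PR PF (U i)) = algebraMap PR PF d • u := funext hU
  have hinj := IsFractionRing.injective PR PF
  have hq0 : qf Q V = 0 := by
    apply hinj
    have h3 := map_qf (IsScalarTower.toAlgHom RatK PR PF) Q V
    have h4 : (fun i => (IsScalarTower.toAlgHom RatK PR PF) (V i)) = algebraMap PR PF d • v := hV'
    rw [h4, qf_smul, hv, mul_zero] at h3
    rw [map_zero]
    exact h3
  have hp0 : pf Q V U ≠ 0 := by
    intro h0
    have h3 := map_pf (IsScalarTower.toAlgHom RatK PR PF) Q V U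
    have h4 : (fun i => (IsScalarTower.toAlgHom RatK PR PF) (V i)) = algebraMap PR PF d • v := hV'
    have h5 : (fun i => (IsScalarTower.toAlgHom RatK PR PF) (U i)) = algebraMap PR PF d • u := hU'
    rw [h4, h5, h0, map_zero, pf_smul_left, pf_smul_right] at h3
    exact (mul_ne_zero hd0 (mul_ne_zero hd0 hu)) h3.symm
  obtain ⟨x, hx⟩ : ∃ x : J → RatK, aeval x (pf Q V U) ≠ 0 := by
    by_contra hcon
    push Not at hcon
    apply hp0
    apply MvPolynomial.funext
    intro x
    have := hcon x
    rw [map_zero]
    exact this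
  refine ⟨fun i => aeval x (V i), fun i => aeval x (U i), ?_, ?_⟩
  · have h3 := map_qf (aeval x : PR →ₐ[RatK] RatK) Q V
    rw [hq0, map_zero] at h3
    exact h3.symm
  · have h3 := map_pf (aeval x : PR →ₐ[RatK] RatK) Q V U
    rw [← h3]
    exact hx

end Vale.Agent.P287.H69
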