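import Vale.Agent.P287.H69.Line
import Vale.Agent.P287.H69.OddPlace
import Vale.Agent.P287.H69.ParamsA
import Vale.Agent.P287.H631.OnCurve

/-!
The curve of the points of the plane over which the kernel of the three linear forms meets the
generic line, and its points of odd degree.
-/

open MvPolynomial

namespace Vale.Agent.P287.H69

open Vale.Agent.P287 Vale.Agent.P287.H631

section

variable {A A' : Type} [CommRing A] [CommRing A']

/-- The restriction of a linear form to the `3`-space over `t`. -/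
def lrow (l : Fin 6 → A) (t : Fin 3 → A) : Fin 4 → A :=
  ![l 0 * t 0 + l 1 * t 1 + l 2 * t 2, l 3, l 4, l 5]

lemma lrow_dot (l : Fin 6 → A) (t : Fin 3 → A) (v : Fin 4 → A) :
    ∑ k, lrow l t k * v k = ∑ a, l a * wvec t v a := by
  simp [lrow, Fin.sum_univ_four, Fin.sum_univ_six, wvec]
  ring

/-- The matrix of four linear conditions. -/
def MM (N : Matrix (Fin 3) (Fin 4) A) (s : Fin 2 → A) (l : Fin 2 → Fin 6 → A) (t : Fin 3 → A) :
    Matrix (Fin 4) (Fin 4) A :=
  ![fun k => N 1 k - s 0 * N 0 k, fun k => N 2 k - s 1 * N 0 k, lrow (l 0) t, lrow (l 1) t]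

lemma MM_map (φ : A →+* A') (N : Matrix (Fin 3) (Fin 4) A) (s : Fin 2 → A) (l : Fin 2 → Fin 6 → A)
    (t : Fin 3 → A) : (MM N s l t).map φ =
      MM (N.map φ) (fun i => φ (s i)) (fun i a => φ (l i a)) (fun i => φ (t i)) := by
  ext i j
  fin_cases i
  · change φ (N 1 j - s 0 * N 0 j) = φ (N 1 j) - φ (s 0) * φ (N 0 j)
    rw [map_sub, map_mul]
  · change φ (N 2 j - s 1 * N 0 j) = φ (N 2 j) - φ (s 1) * φ (N 0 j)
    rw [map_sub, map_mul]
  · fin_cases j
    · change φ (l 0 0 * t 0 + l 0 1 * t 1 + l 0 2 * t 2) =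
        φ (l 0 0) * φ (t 0) + φ (l 0 1) * φ (t 1) + φ (l 0 2) * φ (t 2)
      simp only [map_add, map_mul]
    · rfl
    · rfl
    · rfl
  · fin_cases j
    · change φ (l 1 0 * t 0 + l 1 1 * t 1 + l 1 2 * t 2) =
        φ (l 1 0) * φ (t 0) + φ (l 1 1) * φ (t 1) + φ (l 1 2) * φ (t 2)
      simp only [map_add, map_mul]
    · rfl
    · rfl
    · rfl

end

/-- The determinant of a matrix of forms is a form. -/
lemma det_homog {σ F : Type} [Field F] {n : ℕ} (M : Matrix (Fin n) (Fin n) (MvPolynomial σ F))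
    (ρ κ : Fin n → ℕ) (h : ∀ i j, (M i j).IsHomogeneous (ρ i + κ j)) :
    M.det.IsHomogeneous (∑ i, ρ i + ∑ i, κ i) := by
  rw [Matrix.det_apply]
  refine IsHomogeneous.sum _ _ _ fun τ _ => ?_
  have h1 : (∏ i, M (τ i) i).IsHomogeneous (∑ i, (ρ (τ i) + κ i)) :=
    IsHomogeneous.prod _ _ _ fun i _ => h _ _
  rw [Finset.sum_add_distrib, Equiv.sum_comp τ ρ] at h1
  rcases Int.units_eq_one_or (Equiv.Perm.sign τ) with h2 | h2
  · rw [h2, one_smul]
    exact h1
  · rw [h2]
    rw [Units.neg_smul, one_smul]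
    exact h1.neg

/-- The coordinates of the generic point of the plane. -/
noncomputable def sgen : Fin 2 → RatK := fun i => algebraMap (MvPolynomial (Fin 2) ℂ) RatK (X i)

/-- The equation of the curve. -/
noncomputable def DD (N : Matrix (Fin 3) (Fin 4) R3) : MvPolynomial (Fin 3) PF :=
  (MM (N.map (MvPolynomial.map (algebraMap ℂ PF))) (fun i => C (algebraMap RatK PF (sgen i)))
    (fun i a => C (gl i a)) X).det

lemma aeval_DD {S : Type} [CommRing S] [Algebra ℂ S] [Algebra PF S] [IsScalarTower ℂ PF S]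
    (N : Matrix (Fin 3) (Fin 4) R3) (t : Fin 3 → S) :
    aeval t (DD N) = (MM (N.map (aeval t : R3 →ₐ[ℂ] S))
      (fun i => algebraMap PF S (algebraMap RatK PF (sgen i)))
      (fun i a => algebraMap PF S (gl i a)) t).det := by
  have h1 := RingHom.map_det ((aeval t : MvPolynomial (Fin 3) PF →ₐ[PF] S) :
    MvPolynomial (Fin 3) PF →+* S) (MM (N.map (MvPolynomial.map (algebraMap ℂ PF)))
      (fun i => C (algebraMap RatK PF (sgen i))) (fun i a => C (gl i a)) X)
  refine h1.trans ?_
  congr 1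
  rw [RingHom.mapMatrix_apply, MM_map]
  congr 1
  · ext i j
    simp only [Matrix.map_apply]
    exact aeval_map_algebraMap PF t (N i j)
  · funext i
    exact aeval_C _ _
  · funext i a
    exact aeval_C _ _
  · funext i
    exact aeval_X _ _

section

variable {a : Fin 3 → Fin 3 → R3} {b : Fin 3 → R3} {m : ℕ}

lemma DD_homog (ha : ∀ j i, (a j i).IsHomogeneous m) (hb : ∀ j, (b j).IsHomogeneous (m + 1)) :
    (DD (Nm a b)).IsHomogeneous (2 * m + 1) := by
  have h1 := det_homog (MM ((Nm a b).map (MvPolynomial.map (algebraMap ℂ PF)))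
    (fun i => C (algebraMap RatK PF (sgen i))) (fun i a => C (gl i a)) X)
    ![m, m, 0, 0] ![1, 0, 0, 0] (by
      have hN : ∀ j k, (((Nm a b).map (MvPolynomial.map (algebraMap ℂ PF))) j k).IsHomogeneous
          (m + (![1, 0, 0, 0] : Fin 4 → ℕ) k) := by
        intro j k
        refine Fin.cases ?_ (fun k => ?_) k
        · exact (hb j).map _
        · have h2 : (![1, 0, 0, 0] : Fin 4 → ℕ) k.succ = 0 := by fin_cases k <;> rfl
          rw [h2, add_zero]
          exact (ha j k).map _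
      have hC : ∀ (z : PF) (d : ℕ) (p : MvPolynomial (Fin 3) PF), p.IsHomogeneous d →
          (C z * p).IsHomogeneous d := by
        intro z d p hp
        have h3 := (isHomogeneous_C (Fin 3) z).mul hp
        rwa [zero_add] at h3
      have hX : ∀ (z : PF) (i : Fin 3), (C z * X i : MvPolynomial (Fin 3) PF).IsHomogeneous 1 :=
        fun z i => hC z 1 _ (isHomogeneous_X _ _)
      intro i j
      fin_cases i
      · exact (hN 1 j).sub (hC _ _ _ (hN 0 j))
      · exact (hN 2 j).sub (hC _ _ _ (hN 0 j))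
      · fin_cases j
        · exact ((hX _ _).add (hX _ _)).add (hX _ _)
        · exact isHomogeneous_C _ _
        · exact isHomogeneous_C _ _
        · exact isHomogeneous_C _ _
      · fin_cases j
        · exact ((hX _ _).add (hX _ _)).add (hX _ _)
        · exact isHomogeneous_C _ _
        · exact isHomogeneous_C _ _
        · exact isHomogeneous_C _ _)
  have h2 : ∑ i, (![m, m, 0, 0] : Fin 4 → ℕ) i + ∑ i, (![1, 0, 0, 0] : Fin 4 → ℕ) i =
      2 * m + 1 := by
    simp [Fin.sum_univ_four]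
    ring
  rw [h2] at h1
  exact h1

end

lemma mnr2_swap {A : Type} [CommRing A] (N : Matrix (Fin 3) (Fin 4) A) (i j : Fin 3) (c d : Fin 4) :
    mnr2 N j i c d = - mnr2 N i j c d := by
  simp only [mnr2]
  ring

lemma exists_compl : ∀ c d : Fin 4, c ≠ d → ∃ a b : Fin 4, ∀ k, k = a ∨ k = b ∨ k = c ∨ k = d := by
  decide

/-- A combination of the minors with generic coefficients. -/
lemma minor_ne (N : Matrix (Fin 3) (Fin 4) ℂ) (i j : Fin 3) (c d : Fin 4) (h : mnr2 N i j c d ≠ 0) :
    algebraMap ℂ RatK (mnr2 N 1 2 c d) - sgen 0 * algebraMap ℂ RatK (mnr2 N 0 2 c d) +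
      sgen 1 * algebraMap ℂ RatK (mnr2 N 0 1 c d) ≠ 0 := by
  intro h0
  have h1 := tvec_LI ![mnr2 N 1 2 c d, -mnr2 N 0 2 c d, mnr2 N 0 1 c d] (by
    rw [Fin.sum_univ_three]
    have e1 : (tvec 1 : RatK) = sgen 0 := rfl
    have e2 : (tvec 2 : RatK) = sgen 1 := rfl
    have e0 : (tvec 0 : RatK) = 1 := rfl
    simp only [Matrix.cons_val_zero, Matrix.cons_val_one, Matrix.cons_val, e0, e1, e2, map_neg]
    linear_combination h0)
  have m12 : mnr2 N 1 2 c d = 0 := congrFun h1 0
  have m02 : mnr2 N 0 2 c d = 0 := by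
    have := congrFun h1 1
    simpa using this
  have m01 : mnr2 N 0 1 c d = 0 := congrFun h1 2
  apply h
  have m10 : mnr2 N 1 0 c d = 0 := by rw [mnr2_swap, m01, neg_zero]
  have m20 : mnr2 N 2 0 c d = 0 := by rw [mnr2_swap, m02, neg_zero]
  have m21 : mnr2 N 2 1 c d = 0 := by rw [mnr2_swap, m12, neg_zero]
  have mii : ∀ i, mnr2 N i i c d = 0 := fun i => by simp only [mnr2]; ring
  fin_cases i <;> fin_cases j
  · exact mii 0
  · exact m01
  · exact m02
  · exact m10
  · exact mii 1
  · exact m12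
  · exact m20
  · exact m21
  · exact mii 2

/-- The curve does not contain the points where the three linear forms have rank at least two. -/
lemma DD_ne (N : Matrix (Fin 3) (Fin 4) R3) (p : Fin 3 → ℂ) (hp : p ≠ 0) (i j : Fin 3)
    (c d : Fin 4) (h : aeval p (mnr2 N i j c d) ≠ 0) :
    aeval (fun i => algebraMap ℂ PF (p i)) (DD N) ≠ 0 := by
  classical
  set φ : R3 →ₐ[ℂ] ℂ := aeval p with hφ
  set Nc : Matrix (Fin 3) (Fin 4) ℂ := N.map φ with hNc
  have hm : mnr2 Nc i j c d ≠ 0 := by
    have h1 : mnr2 Nc i j c d = φ (mnr2 N i j c d) := by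
      simp only [mnr2, hNc, Matrix.map_apply, map_sub, map_mul]
    rwa [h1]
  have hcd : c ≠ d := by
    rintro rfl
    apply hm
    simp only [mnr2]
    ring
  obtain ⟨a0, b0, hab⟩ := exists_compl c d hcd
  obtain ⟨η, hη⟩ : ∃ η : Fin 3 → ℂ, ∑ i, η i * p i = 1 := by
    obtain ⟨i, hi⟩ : ∃ i, p i ≠ 0 := by
      by_contra h
      push Not at h
      exact hp (funext h)
    refine ⟨Pi.single i (p i)⁻¹, ?_⟩
    rw [Finset.sum_eq_single i]
    · rw [Pi.single_eq_same, inv_mul_cancel₀ hi]
    · intro k _ hk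
      rw [Pi.single_eq_of_ne hk, zero_mul]
    · simp
  -- the determinant is a polynomial in the parameters
  have hcomp : ∀ q : R3, aeval (fun i => algebraMap ℂ PF (p i)) q = algebraMap ℂ PF (φ q) := by
    intro q
    have := MvPolynomial.comp_aeval_apply (R := ℂ) p (Algebra.ofId ℂ PF) q
    exact this.symm
  rw [aeval_DD]
  have e1 : MM (N.map (aeval (fun i => algebraMap ℂ PF (p i)) : R3 →ₐ[ℂ] PF))
      (fun i => algebraMap PF PF (algebraMap RatK PF (sgen i)))
      (fun i a => algebraMap PF PF (gl i a)) (fun i => algebraMap ℂ PF (p i)) =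
      (MM (Nc.map (algebraMap ℂ PR)) (fun i => C (sgen i)) (fun i a => X (i, a))
        (fun i => algebraMap ℂ PR (p i))).map (algebraMap PR PF) := by
    rw [MM_map]
    congr 1
    · ext i j
      simp only [Matrix.map_apply, hNc]
      rw [hcomp, ← IsScalarTower.algebraMap_apply ℂ PR PF]
  rw [e1]
  have e2 := RingHom.map_det (algebraMap PR PF) (MM (Nc.map (algebraMap ℂ PR)) (fun i => C (sgen i))
    (fun i a => X (i, a)) (fun i => algebraMap ℂ PR (p i)))
  rw [RingHom.mapMatrix_apply] at e2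
  rw [← e2, Ne, map_eq_zero_iff _ (IsFractionRing.injective PR PF)]
  intro h0
  -- specialisation of the parameters
  let l : Fin 2 → Fin 6 → RatK := fun i =>
    ![(Pi.single (if i = 0 then a0 else b0) 1 : Fin 4 → RatK) 0 * algebraMap ℂ RatK (η 0),
      (Pi.single (if i = 0 then a0 else b0) 1 : Fin 4 → RatK) 0 * algebraMap ℂ RatK (η 1),
      (Pi.single (if i = 0 then a0 else b0) 1 : Fin 4 → RatK) 0 * algebraMap ℂ RatK (η 2),
      (Pi.single (if i = 0 then a0 else b0) 1 : Fin 4 → RatK) 1,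
      (Pi.single (if i = 0 then a0 else b0) 1 : Fin 4 → RatK) 2,
      (Pi.single (if i = 0 then a0 else b0) 1 : Fin 4 → RatK) 3]
  set ev : PR →ₐ[RatK] RatK := aeval fun ia : J => l ia.1 ia.2 with hev
  have h1 := congrArg ev h0
  rw [map_zero] at h1
  have h2 := RingHom.map_det (ev : PR →+* RatK) (MM (Nc.map (algebraMap ℂ PR))
    (fun i => C (sgen i)) (fun i a => X (i, a)) (fun i => algebraMap ℂ PR (p i)))
  rw [RingHom.mapMatrix_apply, MM_map] at h2
  have h3 := h2.symm.trans h1
  obtain ⟨v, hv0, hv⟩ := Matrix.exists_mulVec_eq_zero_iff.mpr h3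
  have hlr : ∀ (r : Fin 2) (k : Fin 4), lrow (fun a => (ev : PR →+* RatK) (X (r, a)))
      (fun i => (ev : PR →+* RatK) (algebraMap ℂ PR (p i))) k =
      (Pi.single (if r = 0 then a0 else b0) 1 : Fin 4 → RatK) k := by
    intro r k
    have hX : ∀ a, (ev : PR →+* RatK) (X (r, a)) = l r a := fun a => aeval_X _ _
    have hC : ∀ z : ℂ, (ev : PR →+* RatK) (algebraMap ℂ PR z) = algebraMap ℂ RatK z := by
      intro z
      rw [IsScalarTower.algebraMap_apply ℂ RatK PR]
      exact ev.commutes _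
    have hsum : algebraMap ℂ RatK (η 0) * algebraMap ℂ RatK (p 0) +
        algebraMap ℂ RatK (η 1) * algebraMap ℂ RatK (p 1) +
        algebraMap ℂ RatK (η 2) * algebraMap ℂ RatK (p 2) = 1 := by
      rw [← map_mul, ← map_mul, ← map_mul, ← map_add, ← map_add, ← Fin.sum_univ_three
        (fun i => η i * p i), hη, map_one]
    simp only [hX, hC]
    fin_cases k
    · change l r 0 * algebraMap ℂ RatK (p 0) + l r 1 * algebraMap ℂ RatK (p 1) +
        l r 2 * algebraMap ℂ RatK (p 2) = (Pi.single (if r = 0 then a0 else b0) 1 : Fin 4 → RatK) 0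
      change (Pi.single (if r = 0 then a0 else b0) 1 : Fin 4 → RatK) 0 * algebraMap ℂ RatK (η 0) *
        algebraMap ℂ RatK (p 0) +
        (Pi.single (if r = 0 then a0 else b0) 1 : Fin 4 → RatK) 0 * algebraMap ℂ RatK (η 1) *
        algebraMap ℂ RatK (p 1) +
        (Pi.single (if r = 0 then a0 else b0) 1 : Fin 4 → RatK) 0 * algebraMap ℂ RatK (η 2) *
        algebraMap ℂ RatK (p 2) = (Pi.single (if r = 0 then a0 else b0) 1 : Fin 4 → RatK) 0
      linear_combination (Pi.single (if r = 0 then a0 else b0) 1 : Fin 4 → RatK) 0 * hsum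
    · rfl
    · rfl
    · rfl
  have hrow : ∀ r : Fin 2, v (if r = 0 then a0 else b0) = 0 := by
    intro r
    have h4 := congrFun hv (if r = 0 then 2 else 3)
    have h5 : ∑ k, lrow (fun a => (ev : PR →+* RatK) (X (r, a)))
        (fun i => (ev : PR →+* RatK) (algebraMap ℂ PR (p i))) k * v k = 0 := by
      fin_cases r
      · exact h4
      · exact h4
    simp only [hlr] at h5
    rw [Finset.sum_eq_single (if r = 0 then a0 else b0)] at h5
    · rwa [Pi.single_eq_same, one_mul] at h5
    · intro k _ hk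
      rw [Pi.single_eq_of_ne hk, zero_mul]
    · simp
  have hva : v a0 = 0 := hrow 0
  have hvb : v b0 = 0 := hrow 1
  have hother : ∀ k, k ≠ c ∧ k ≠ d → v k = 0 := by
    intro k hk
    rcases hab k with h | h | h | h
    · rw [h, hva]
    · rw [h, hvb]
    · exact absurd h hk.1
    · exact absurd h hk.2
  have hCC : ∀ z : ℂ, (ev : PR →+* RatK) (algebraMap ℂ PR z) = algebraMap ℂ RatK z := by
    intro z
    rw [IsScalarTower.algebraMap_apply ℂ RatK PR]
    exact ev.commutes _
  have hCs : ∀ i, (ev : PR →+* RatK) (C (sgen i)) = sgen i := fun i => aeval_C _ _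
  have r0 := congrFun hv 0
  have r1 := congrFun hv 1
  change ∑ k, ((ev : PR →+* RatK) (algebraMap ℂ PR (Nc 1 k)) - (ev : PR →+* RatK) (C (sgen 0)) *
    (ev : PR →+* RatK) (algebraMap ℂ PR (Nc 0 k))) * v k = 0 at r0
  change ∑ k, ((ev : PR →+* RatK) (algebraMap ℂ PR (Nc 2 k)) - (ev : PR →+* RatK) (C (sgen 1)) *
    (ev : PR →+* RatK) (algebraMap ℂ PR (Nc 0 k))) * v k = 0 at r1
  simp only [hCC, hCs] at r0 r1
  rw [Fintype.sum_eq_add c d hcd (fun k hk => by rw [hother k hk, mul_zero])] at r0 r1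
  have hne := minor_ne Nc i j c d hm
  have hexp : algebraMap ℂ RatK (mnr2 Nc 1 2 c d) - sgen 0 * algebraMap ℂ RatK (mnr2 Nc 0 2 c d) +
      sgen 1 * algebraMap ℂ RatK (mnr2 Nc 0 1 c d) =
      (algebraMap ℂ RatK (Nc 1 c) - sgen 0 * algebraMap ℂ RatK (Nc 0 c)) *
        (algebraMap ℂ RatK (Nc 2 d) - sgen 1 * algebraMap ℂ RatK (Nc 0 d)) -
      (algebraMap ℂ RatK (Nc 1 d) - sgen 0 * algebraMap ℂ RatK (Nc 0 d)) *
        (algebraMap ℂ RatK (Nc 2 c) - sgen 1 * algebraMap ℂ RatK (Nc 0 c)) := by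
    simp only [mnr2, map_sub, map_mul]
    ring
  rw [hexp] at hne
  have hvc : v c = 0 := by
    refine (mul_eq_zero.mp ?_).resolve_left hne
    linear_combination (algebraMap ℂ RatK (Nc 2 d) - sgen 1 * algebraMap ℂ RatK (Nc 0 d)) * r0 -
      (algebraMap ℂ RatK (Nc 1 d) - sgen 0 * algebraMap ℂ RatK (Nc 0 d)) * r1
  have hvd : v d = 0 := by
    refine (mul_eq_zero.mp ?_).resolve_left hne
    linear_combination (algebraMap ℂ RatK (Nc 1 c) - sgen 0 * algebraMap ℂ RatK (Nc 0 c)) * r1 -
      (algebraMap ℂ RatK (Nc 2 c) - sgen 1 * algebraMap ℂ RatK (Nc 0 c)) * r0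
  apply hv0
  funext k
  rcases hab k with h | h | h | h
  · rw [h, hva]; rfl
  · rw [h, hvb]; rfl
  · rw [h, hvc]; rfl
  · rw [h, hvd]; rfl

section

variable {a : Fin 3 → Fin 3 → R3} {b : Fin 3 → R3} {m : ℕ}

lemma linePoly_aevalAeval {F : Type} [Field F] (p0 p1 p2 : Fin 3 → F) (q : MvPolynomial (Fin 3) F)
    {S : Type} [CommRing S] [Algebra F S] (x y : S) :
    Polynomial.aevalAeval x y
      (linePoly p2 (fun i => (Polynomial.C (p0 i) + Polynomial.C (p1 i) * Polynomial.X :
        Polynomial F)) q) =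
      aeval (fun i => algebraMap F S (p0 i) + algebraMap F S (p1 i) * x +
        algebraMap F S (p2 i) * y) q := by
  rw [linePoly]
  induction q using MvPolynomial.induction_on with
  | C z =>
    rw [aeval_C, aeval_C, Polynomial.algebraMap_apply, Polynomial.algebraMap_apply]
    simp
  | add p q hp hq => rw [map_add, map_add, map_add, hp, hq]
  | mul_X p i hp =>
    rw [map_mul, map_mul, hp, aeval_X, map_mul, aeval_X]
    simp

lemma linePoly_mapF {F F' : Type} [Field F] [Field F'] (ι : F →+* F') (p2 s : Fin 3 → F)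
    (q : MvPolynomial (Fin 3) F) :
    linePoly (fun i => ι (p2 i)) (fun i => ι (s i)) (MvPolynomial.map ι q) =
      (linePoly p2 s q).map ι := by
  unfold linePoly
  induction q using MvPolynomial.induction_on with
  | C z =>
    rw [map_C, aeval_C, aeval_C, Polynomial.algebraMap_apply, Polynomial.algebraMap_apply,
      Polynomial.map_C]
    rfl
  | add p q hp hq => rw [map_add, map_add, map_add, Polynomial.map_add, hp, hq]
  | mul_X p i hp =>
    rw [map_mul, map_mul, hp, map_X, aeval_X, map_mul, aeval_X, Polynomial.map_mul]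
    simp

/-- The curve has a point of odd degree over the field of parameters, at which `g` has odd
order. -/
theorem exists_place (ha : ∀ j i, (a j i).IsHomogeneous m) (hb : ∀ j, (b j).IsHomogeneous (m + 1))
    {g : R3} (hgp : Prime g) (hg : g.IsHomogeneous (2 * m + 1)) {n' : ℕ} (i j : Fin 3)
    (c d : Fin 4) (hμ : (mnr2 (Nm a b) i j c d).IsHomogeneous n')
    (hnd : ¬ g ∣ mnr2 (Nm a b) i j c d) :
    ∃ (O : Type) (_ : CommRing O) (_ : IsDomain O) (_ : IsDiscreteValuationRing O)
      (_ : Algebra PF O) (η : Fin 3 → ℂ) (t : Fin 3 → O),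
      Odd (Module.finrank PF (IsLocalRing.ResidueField O)) ∧
      ∑ i, algebraMap PF O (algebraMap ℂ PF (η i)) * t i = 1 ∧ aeval t (DD (Nm a b)) = 0 ∧
      ∃ (p u : O) (j : ℕ), Irreducible p ∧ IsUnit u ∧ Odd j ∧
        aeval t (MvPolynomial.map (algebraMap ℂ PF) g) = u * p ^ j := by
  classical
  obtain ⟨p0, p1, p2, η, η0, η1, η2, hg2, hμ2, hp20, hne0, hline⟩ := exists_line hgp hg hμ hnd
  set ι : ℂ →+* PF := algebraMap ℂ PF with hι
  have hcomp : ∀ (x : Fin 3 → ℂ) (q : R3), aeval (fun i => ι (x i)) q = ι (aeval x q) := by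
    intro x q
    have := MvPolynomial.comp_aeval_apply (R := ℂ) x (Algebra.ofId ℂ PF) q
    exact this.symm
  have hmap : ∀ (x : Fin 3 → PF) (q : R3),
      aeval x (MvPolynomial.map (algebraMap ℂ PF) q) = aeval x q := fun x q =>
    aeval_map_algebraMap PF x q
  set P0 : Fin 3 → PF := fun i => ι (p0 i) with hP0
  set P1 : Fin 3 → PF := fun i => ι (p1 i) with hP1
  set P2 : Fin 3 → PF := fun i => ι (p2 i) with hP2
  set gF := MvPolynomial.map (algebraMap ℂ PF) g with hgF
  have hgFh : gF.IsHomogeneous (2 * m + 1) := hg.map _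
  have hDh := DD_homog ha hb
  have hDP2 : eval P2 (DD (Nm a b)) ≠ 0 := by
    have h1 := DD_ne (Nm a b) p2 hp20 i j c d hμ2
    rwa [MvPolynomial.aeval_eq_eval] at h1
  have hgP2 : eval P2 gF ≠ 0 := by
    have h1 : eval P2 gF = ι (aeval p2 g) := by
      rw [← hcomp, ← hmap, MvPolynomial.aeval_eq_eval]
    rw [h1]
    intro h2
    apply hg2
    exact (algebraMap ℂ PF).injective (by rw [map_zero]; exact h2)
  have hres : Polynomial.resultant (linePoly P2 P1 (DD (Nm a b))) (linePoly P2 P1 gF) ≠ 0 := by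
    intro h0
    rw [Polynomial.resultant_eq_zero_iff,
      Polynomial.isCoprime_iff_aeval_ne_zero_of_isAlgClosed (k := PF) (AlgebraicClosure PF)] at h0
    obtain ⟨_, h2⟩ := h0
    push Not at h2
    obtain ⟨y, hyD, hyg⟩ := h2
    -- the root is a complex number
    have hG : linePoly P2 P1 gF = (linePoly p2 p1 g).map ι := (linePoly_mapF ι p2 p1 g)
    have hG0 : linePoly p2 p1 g ≠ 0 := by
      intro h3
      have h4 := (linePoly_natDegree p2 hg p1 hg2).1
      rw [h3, Polynomial.natDegree_zero] at h4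
      omega
    have hyG : Polynomial.aeval y (linePoly p2 p1 g) = 0 := by
      rw [hG, hι, Polynomial.aeval_map_algebraMap] at hyg
      exact hyg
    have hint : IsIntegral ℂ y := by
      rw [← isAlgebraic_iff_isIntegral]
      exact ⟨_, hG0, hyG⟩
    obtain ⟨c0, rfl⟩ := minpoly.mem_range_of_degree_eq_one ℂ y
      (IsAlgClosed.degree_eq_one_of_irreducible ℂ (minpoly.irreducible hint))
    have hc0 : algebraMap ℂ (AlgebraicClosure PF) c0 = algebraMap PF (AlgebraicClosure PF) (ι c0) :=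
      IsScalarTower.algebraMap_apply ℂ PF (AlgebraicClosure PF) c0
    rw [hc0, Polynomial.aeval_algebraMap_apply, map_eq_zero, Polynomial.coe_aeval_eq_eval,
      linePoly_eval] at hyD
    rw [Polynomial.aeval_algebraMap_apply, map_eq_zero, Polynomial.coe_aeval_eq_eval,
      linePoly_eval] at hyG
    refine DD_ne (Nm a b) (fun i => p1 i + p2 i * c0) (hne0 c0) i j c d (hline c0 hyG) ?_
    rw [← hyD]
    congr 2
    funext i
    rw [map_add, map_mul]
    rfl
  have hdeg := natDegree_resultant P2 hDh hgFh P0 P1 hDP2 hgP2 hres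
  have hlead := (linePoly_natDegree P2 hDh
    (fun i => (Polynomial.C (P0 i) + Polynomial.C (P1 i) * Polynomial.X : Polynomial PF)) hDP2).2
  obtain ⟨O, i1, i2, i3, i4, x, y, h3, h4, p, u, k, hp, hu, hk, h5⟩ := odd_place _
    (linePoly P2 (fun i => (Polynomial.C (P0 i) + Polynomial.C (P1 i) * Polynomial.X :
      Polynomial PF)) (DD (Nm a b)))
    (linePoly P2 (fun i => (Polynomial.C (P0 i) + Polynomial.C (P1 i) * Polynomial.X :
      Polynomial PF)) gF) rfl (by
        rw [hlead]
        exact (IsUnit.mk0 _ hDP2).map _) (by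
        rw [hdeg]
        exact Odd.mul ⟨m, rfl⟩ ⟨m, rfl⟩)
  rw [linePoly_aevalAeval] at h3 h5
  refine ⟨O, i1, i2, i3, i4, η, _, h4, ?_, h3, p, u, k, hp, hu, hk, h5⟩
  have e0 := congrArg (fun z => algebraMap PF O (ι z)) η0
  have e1 := congrArg (fun z => algebraMap PF O (ι z)) η1
  have e2 := congrArg (fun z => algebraMap PF O (ι z)) η2
  simp only [Fin.sum_univ_three, hι, map_add, map_mul, map_one, map_zero] at e0 e1 e2 ⊢
  simp only [P0, P1, P2, hι]
  linear_combination e0 + x * e1 + y * e2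

end

end Vale.Agent.P287.H69
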