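import Vale.Agent.P287.H69.ParityTwo
import Vale.Agent.P287.H946.QuotDim

/-!
The conductor of `√f` on the curve `g = 0`, and the parity of the number of sections of
`O(m - 1) ⊕ J(m + 2)`.
-/

namespace Vale.Agent.P287.H69

open Polynomial Matrix Module Vale.Agent.P287.Odd Vale.Agent.P287.H946

section general

variable {k : Type} [Field k] {n : ℕ} {g : k[X][X]}

/-- Multiplication by `z` followed by division by `g`. -/
noncomputable def mulZ (hg : g.Monic) (hgn : g.natDegree = n) (hgW : Wd n g) {z : k[X][X]}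
    {δ : ℕ} (hz : Wd δ z) (d : ℕ) :
    (En n d : Submodule k k[X][X]) →ₗ[k] (En n (d + δ) : Submodule k k[X][X]) where
  toFun p := ⟨((p : k[X][X]) * z) %ₘ g, mod_mem_En hg hgn hgW (Wd_mul p.2.1 hz)⟩
  map_add' p q := by
    apply Subtype.ext
    simp only [Submodule.coe_add, add_mul, add_modByMonic]
  map_smul' c p := by
    apply Subtype.ext
    simp only [SetLike.val_smul, RingHom.id_apply]
    have h : ∀ q : k[X][X], c • q = C (C c) * q := by
      intro q
      ext i j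
      simp [coeff_smul, coeff_C_mul]
    rw [h, h, mul_assoc, ← smul_eq_C_mul, ← smul_eq_C_mul, smul_modByMonic]

lemma eq_zero_of_dvd_En (hg : g.Monic) (hgn : g.natDegree = n) {d : ℕ} {p : k[X][X]}
    (hp : p ∈ (En n d : Submodule k k[X][X])) (h : g ∣ p) : p = 0 := by
  rw [← mod_eq_self hg hgn hp.2]
  exact (modByMonic_eq_zero_iff_dvd hg).mpr h

lemma mulZ_injective (hg : g.Monic) (hgn : g.natDegree = n) (hgW : Wd n g) (hp : Prime g)
    {z : k[X][X]} {δ : ℕ} (hz : Wd δ z) (hgz : ¬ g ∣ z) (d : ℕ) :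
    Function.Injective (mulZ hg hgn hgW hz d) := by
  refine (injective_iff_map_eq_zero _).mpr ?_
  intro p hp0
  have h1 : ((p : k[X][X]) * z) %ₘ g = 0 := congrArg Subtype.val hp0
  rw [modByMonic_eq_zero_iff_dvd hg] at h1
  have h2 : g ∣ (p : k[X][X]) := (hp.dvd_or_dvd h1).resolve_right hgz
  exact Subtype.ext (eq_zero_of_dvd_En hg hgn p.2 h2)

variable {I : Ideal k[X][X]}

lemma finrank_range_le' (hg : g.Monic) (hgn : g.natDegree = n) (hgW : Wd n g) (hp : Prime g)
    {z : k[X][X]} {δ : ℕ} (hz : Wd δ z) (hgz : ¬ g ∣ z) (hzI : z ∈ I) (hgI : g ∈ I) {d : ℕ}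
    (hd : n ≤ d) :
    finrank k (LinearMap.range ((mkJ I).domRestrict (En n (d + δ)))) ≤ δ * n := by
  have h1 := Theta.rank_le_of_complex (K := k) (U := (En n d : Submodule k k[X][X]))
    (V := (En n (d + δ) : Submodule k k[X][X])) (W := k[X][X] ⧸ I) (mulZ hg hgn hgW hz d)
    ((mkJ I).domRestrict (En n (d + δ))) (mulZ_injective hg hgn hgW hp hz hgz d) (by
      intro x
      change mkJ I (((x : k[X][X]) * z) %ₘ g) = 0
      rw [mkJ_modByMonic hgI, mkJ_eq_zero]
      exact I.mul_mem_left _ hzI)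
  have h2 := Odd.two_mul_finrank_En (k := k) (n := n) (d := d) (by omega)
  have h3 := Odd.two_mul_finrank_En (k := k) (n := n) (d := d + δ) (by omega)
  have h4 : n * (2 * (d + δ) + 3) = n * (2 * d + 3) + 2 * (δ * n) := by ring
  omega

lemma exists_range (hg : g.Monic) (hgn : g.natDegree = n) (hgW : Wd n g) (hgI : g ∈ I)
    (s : Finset (k[X][X] ⧸ I)) : ∃ d₀, ∀ d ≥ d₀, ∀ a ∈ s,
      a ∈ LinearMap.range ((mkJ I).domRestrict (En n d)) := by
  classical
  induction s using Finset.induction_on with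
  | empty => exact ⟨0, by simp⟩
  | insert a s ha ih =>
    obtain ⟨d₀, hs⟩ := ih
    obtain ⟨p, rfl⟩ := Ideal.Quotient.mk_surjective a
    obtain ⟨e, he⟩ := exists_Wd p
    refine ⟨d₀ + e, fun d hd b hb => ?_⟩
    rw [Finset.mem_insert] at hb
    rcases hb with rfl | hb
    · refine ⟨⟨p %ₘ g, mod_mem_En hg hgn hgW (Wd_mono he (by omega))⟩, ?_⟩
      exact mkJ_modByMonic hgI p
    · exact hs d (by omega) b hb

theorem finite_quot' (hg : g.Monic) (hgn : g.natDegree = n) (hgW : Wd n g) (hp : Prime g)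
    {z : k[X][X]} {δ : ℕ} (hz : Wd δ z) (hgz : ¬ g ∣ z) (hzI : z ∈ I) (hgI : g ∈ I) :
    Module.Finite k (k[X][X] ⧸ I) := by
  refine (Theta.rank_le_of_forall (K := k) (W := k[X][X] ⧸ I) (δ * n) ?_).1
  intro s hs
  obtain ⟨d₀, hds⟩ := exists_range hg hgn hgW hgI s
  have h1 := Theta.card_le_of_subset_range (K := k)
    (V := (En n (d₀ + n + δ) : Submodule k k[X][X])) (W := k[X][X] ⧸ I)
    ((mkJ I).domRestrict (En n (d₀ + n + δ))) s hs (hds _ (by omega))
  exact h1.trans (finrank_range_le' hg hgn hgW hp hz hgz hzI hgI (by omega))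

/-- For large degrees, the codimension of an ideal is seen on `En`. -/
theorem finrank_inf_En (hg : g.Monic) (hgn : g.natDegree = n) (hgW : Wd n g) (hgI : g ∈ I)
    [hfin : Module.Finite k (k[X][X] ⧸ I)] : ∃ d₀, ∀ d ≥ d₀,
      finrank k (I.restrictScalars k ⊓ En n d : Submodule k k[X][X]) +
        finrank k (k[X][X] ⧸ I) = finrank k (En n d : Submodule k k[X][X]) := by
  obtain ⟨s, hs⟩ := hfin.fg_top
  obtain ⟨d₀, hd₀⟩ := exists_range hg hgn hgW hgI s
  refine ⟨d₀, fun d hd => ?_⟩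
  have h1 : LinearMap.range ((mkJ I).domRestrict (En n d)) = ⊤ := by
    rw [eq_top_iff, ← hs, Submodule.span_le]
    exact hd₀ d hd
  rw [LinearMap.range_domRestrict] at h1
  have h2 := finrank_map_add (mkJ I) (En n d : Submodule k k[X][X])
  rw [h1, finrank_top] at h2
  have h3 : LinearMap.ker (mkJ I) = I.restrictScalars k := by
    ext p
    exact mkJ_eq_zero
  rw [h3, inf_comm] at h2
  omega

end general

/-- The elements `b` such that `√f b`, with `√f = s₀ / c₀`, is regular on the curve `g = 0`. -/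
def cond {R : Type*} [CommRing R] (g c₀ s₀ : R) : Ideal R where
  carrier := {b | ∃ a, g ∣ c₀ * a - s₀ * b}
  add_mem' := by
    rintro b b' ⟨a, ha⟩ ⟨a', ha'⟩
    refine ⟨a + a', ?_⟩
    have h : c₀ * (a + a') - s₀ * (b + b') = (c₀ * a - s₀ * b) + (c₀ * a' - s₀ * b') := by ring
    rw [h]
    exact dvd_add ha ha'
  zero_mem' := ⟨0, by simp⟩
  smul_mem' := by
    rintro c b ⟨a, ha⟩
    refine ⟨c * a, ?_⟩
    have h : c₀ * (c * a) - s₀ * (c • b) = c * (c₀ * a - s₀ * b) := by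
      rw [smul_eq_mul]
      ring
    rw [h]
    exact ha.mul_left c

lemma mem_cond {R : Type*} [CommRing R] {g c₀ s₀ b : R} :
    b ∈ cond g c₀ s₀ ↔ ∃ a, g ∣ c₀ * a - s₀ * b := Iff.rfl

section curve

variable {k : Type} [Field k] {m : ℕ} {g f c₀ s₀ : k[X][X]} {J : Ideal k[X][X]}

/-- The `k`-linear quotient map. -/
noncomputable def prL (g : k[X][X]) (N : ℕ) : k[X][X] →ₗ[k] QQ g N :=
  (Ideal.Quotient.mkₐ k _).toLinearMap

lemma prL_apply (g : k[X][X]) (N : ℕ) (P : k[X][X]) : prL g N P = pr g N P := rfl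

lemma En_of_pow_mul {n e d : ℕ} {b : k[X][X]}
    (h : (C X : k[X][X]) ^ e * b ∈ (En n (d + e) : Submodule k k[X][X])) :
    b ∈ (En n d : Submodule k k[X][X]) := by
  have h1 : ∀ i j, (((C X : k[X][X]) ^ e * b).coeff j).coeff (i + e) = (b.coeff j).coeff i := by
    intro i j
    rw [← C_pow, coeff_C_mul, coeff_X_pow_mul]
  refine ⟨fun i j hij => ?_, fun j hj => ?_⟩
  · rw [← h1]
    exact h.1 _ _ (by omega)
  · ext i
    rw [← h1, h.2 j hj, coeff_zero, coeff_zero]

lemma pow_mul_mem_En {n e d : ℕ} {b : k[X][X]} (h : b ∈ (En n d : Submodule k k[X][X])) :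
    (C X : k[X][X]) ^ e * b ∈ (En n (d + e) : Submodule k k[X][X]) := by
  refine ⟨fun i j hij => ?_, fun j hj => ?_⟩
  · rw [← C_pow, coeff_C_mul, coeff_X_pow_mul']
    split_ifs with h1
    · exact h.1 _ _ (by omega)
    · rfl
  · rw [← C_pow, coeff_C_mul, h.2 j hj, mul_zero]

lemma mem_of_pow_mul {I : Ideal k[X][X]} (hf : f ∈ I) (hg : g ∈ I)
    (hl : ∃ α β γ : k[X][X], α * f + β * g + γ * C X = 1) (e : ℕ) {b : k[X][X]}
    (h : (C X : k[X][X]) ^ e * b ∈ I) : b ∈ I := by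
  obtain ⟨α, β, γ, hl⟩ := hl
  induction e with
  | zero => simpa using h
  | succ e ih =>
    apply ih
    have h1 : (C X : k[X][X]) ^ e * b = (α * (C X) ^ e * b) * f + (β * (C X) ^ e * b) * g +
        γ * ((C X) ^ (e + 1) * b) := by
      rw [pow_succ]
      linear_combination (-((C X : k[X][X]) ^ e * b)) * hl
    rw [h1]
    exact I.add_mem (I.add_mem (I.mul_mem_left _ hf) (I.mul_mem_left _ hg)) (I.mul_mem_left _ h)

/-- `z` is a unit modulo `(g, p ^ N)`. -/
lemma exists_inv {z : k[X][X]} (hl : ∃ α β γ : k[X][X], α * z + β * g + γ * C X = 1) (N : ℕ) :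
    ∃ u : QQ g N, pr g N z * u = 1 := by
  obtain ⟨α, β, γ, hl⟩ := hl
  have h1 : ∃ α' β' : k[X][X], ∃ γ' : k[X][X], α' * z + β' * g + γ' * (C X) ^ N = 1 := by
    induction N with
    | zero => exact ⟨0, 0, 1, by simp⟩
    | succ N ih =>
      obtain ⟨α', β', γ', h⟩ := ih
      refine ⟨α' + γ' * (C X) ^ N * α, β' + γ' * (C X) ^ N * β, γ' * γ, ?_⟩
      rw [pow_succ]
      linear_combination h + γ' * (C X) ^ N * hl
  obtain ⟨α', β', γ', h⟩ := h1
  refine ⟨pr g N α', ?_⟩
  rw [← map_mul, ← map_one (pr g N)]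
  refine Ideal.Quotient.eq.mpr (Ideal.mem_span_pair.2 ⟨-β', -γ', ?_⟩)
  linear_combination -h

end curve

end Vale.Agent.P287.H69
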