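import Vale.Agent.P287.H631.Identity

/-!
Discriminant computations: the determinant of the conic `A` with
`pf Q e v ^ 2 - 4 γ g (qf Q v) = qf A (N v)`, singular points of determinantal curves, and
quadratic forms of rank at least three over `ℂ`.
-/

open MvPolynomial Matrix

namespace Vale.Agent.P287.H69

open Vale.Agent.P287 Vale.Agent.P287.H631

section det

variable {R : Type*} [CommRing R]

/-- The determinant of a `4 × 4` matrix. -/
lemma det_four (M : Matrix (Fin 4) (Fin 4) R) :
    M.det = M 0 0 * (M 1 1 * (M 2 2 * M 3 3 - M 2 3 * M 3 2) - M 1 2 * (M 2 1 * M 3 3 - M 2 3 * M 3 1)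
        + M 1 3 * (M 2 1 * M 3 2 - M 2 2 * M 3 1))
      - M 0 1 * (M 1 0 * (M 2 2 * M 3 3 - M 2 3 * M 3 2) - M 1 2 * (M 2 0 * M 3 3 - M 2 3 * M 3 0)
        + M 1 3 * (M 2 0 * M 3 2 - M 2 2 * M 3 0))
      + M 0 2 * (M 1 0 * (M 2 1 * M 3 3 - M 2 3 * M 3 1) - M 1 1 * (M 2 0 * M 3 3 - M 2 3 * M 3 0)
        + M 1 3 * (M 2 0 * M 3 1 - M 2 1 * M 3 0))
      - M 0 3 * (M 1 0 * (M 2 1 * M 3 2 - M 2 2 * M 3 1) - M 1 1 * (M 2 0 * M 3 2 - M 2 2 * M 3 0)
        + M 1 2 * (M 2 0 * M 3 1 - M 2 1 * M 3 0)) := by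
  rw [Matrix.det_succ_row_zero]
  simp only [Matrix.det_fin_three, Matrix.submatrix_apply, Fin.sum_univ_succ, Fin.succ_zero_eq_one,
    Fin.succ_one_eq_two]
  simp [Fin.succAbove, Fin.lt_def]
  ring

/-- The matrix of the identity with column `k` replaced by `e` (as a `4 × 4` matrix). -/
def rep (k : Fin 4) (e : Fin 4 → R) : Matrix (Fin 4) (Fin 4) R :=
  (1 : Matrix (Fin 4) (Fin 4) R).updateCol k e

lemma det_rep (k : Fin 4) (e : Fin 4 → R) : (rep k e).det = e k := by
  fin_cases k <;> simp [det_four, rep]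

/-- The symmetric coefficients of a quadratic form. -/
lemma entry_eq (hR : ∀ x : R, 2 * x = 0 → x = 0) {n : ℕ} (S T : Matrix (Fin n) (Fin n) R)
    (hS : S.IsSymm) (hT : T.IsSymm) (h : ∀ v : Fin n → R, qf S v = qf T v) : S = T := by
  have hp : ∀ u v : Fin n → R, pf S u v = pf T u v := by
    intro u v
    have h1 : pf S u v = qf S (u + v) - qf S u - qf S v := by rw [qf_add]; ring
    have h2 : pf T u v = qf T (u + v) - qf T u - qf T v := by rw [qf_add]; ring
    rw [h1, h2, h, h, h]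
  have hs : ∀ (M : Matrix (Fin n) (Fin n) R) (i j : Fin n),
      pf M (Pi.single i 1) (Pi.single j 1) = M i j + M j i := by
    intro M i j
    simp only [pf, Algebra.algebraMap_self, RingHom.id_apply, mul_add, Finset.sum_add_distrib]
    congr 1
    · rw [Finset.sum_eq_single i, Finset.sum_eq_single j]
      · simp
      · intro b _ hb; simp [Pi.single_eq_of_ne hb]
      · simp
      · intro b _ hb; simp [Pi.single_eq_of_ne hb]
      · simp
    · rw [Finset.sum_eq_single j, Finset.sum_eq_single i]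
      · simp
      · intro b _ hb; simp [Pi.single_eq_of_ne hb]
      · simp
      · intro b _ hb; simp [Pi.single_eq_of_ne hb]
      · simp
  ext i j
  have h1 := hp (Pi.single i 1) (Pi.single j 1)
  rw [hs, hs, hS.apply i j, hT.apply i j] at h1
  have h2 := hR (S i j - T i j) (by linear_combination h1)
  exact sub_eq_zero.mp h2

/-- The Schur complement, for the deletion of row and column `k`. -/
lemma det_schur (k : Fin 4) (Q : Matrix (Fin 4) (Fin 4) R) (hQ : Q.IsSymm) (w : Fin 4 → R) (c : R) :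
    ((Matrix.of fun i j : Fin 4 => w i * w j - c * Q i j).submatrix k.succAbove
      k.succAbove).det = - c ^ 2 * (Matrix.of fun i j : Fin 4 => if i = k then (if j = k then c
        else w j) else (if j = k then w i else Q i j)).det := by
  have h01 := hQ.apply 0 1
  have h02 := hQ.apply 0 2
  have h03 := hQ.apply 0 3
  have h12 := hQ.apply 1 2
  have h13 := hQ.apply 1 3
  have h23 := hQ.apply 2 3
  rw [det_four, Matrix.det_fin_three]
  fin_cases k <;>
    simp [Fin.succAbove, Fin.lt_def, h01, h02, h03, h12, h13, h23] <;> ring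

/-- The change of basis replacing the `k`-th vector by `e`. -/
lemma rep_mul (k : Fin 4) (Q : Matrix (Fin 4) (Fin 4) R) (hQ : Q.IsSymm) (e : Fin 4 → R) :
    (rep k e)ᵀ * Q * rep k e = Matrix.of fun i j : Fin 4 => if i = k then (if j = k then
      e ⬝ᵥ Q.mulVec e else Q.mulVec e j) else (if j = k then Q.mulVec e i else Q i j) := by
  have h01 := hQ.apply 0 1
  have h02 := hQ.apply 0 2
  have h03 := hQ.apply 0 3
  have h12 := hQ.apply 1 2
  have h13 := hQ.apply 1 3
  have h23 := hQ.apply 2 3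
  ext i j
  simp only [Matrix.mul_apply, Fin.sum_univ_four, Matrix.transpose_apply, rep, Matrix.mulVec,
    dotProduct, Matrix.of_apply, Matrix.updateCol_apply, Matrix.one_apply]
  fin_cases k <;> fin_cases i <;> fin_cases j <;>
    simp [h01, h02, h03, h12, h13, h23] <;> ring

/-- The submatrix of `Nᵀ A N`. -/
lemma det_pull (k : Fin 4) (N : Matrix (Fin 3) (Fin 4) R) (A : Matrix (Fin 3) (Fin 3) R) :
    ((Nᵀ * A * N).submatrix k.succAbove k.succAbove).det = A.det * mnr N k ^ 2 := by
  have h1 : (Nᵀ * A * N).submatrix k.succAbove k.succAbove =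
      (N.submatrix id k.succAbove)ᵀ * A * N.submatrix id k.succAbove := by
    ext i j
    simp [Matrix.mul_apply]
  have h2 : (N.submatrix id k.succAbove).det ^ 2 = mnr N k ^ 2 := by
    rw [Matrix.det_fin_three]
    fin_cases k <;> simp [Fin.succAbove, Fin.lt_def, mnr] <;> ring
  rw [h1, Matrix.det_mul, Matrix.det_mul, Matrix.det_transpose, ← h2]
  ring

theorem det_A [IsDomain R] (h2 : (2 : R) ≠ 0) (Q : Matrix (Fin 4) (Fin 4) R) (hQ : Q.IsSymm)
    (N : Matrix (Fin 3) (Fin 4) R) (A : Matrix (Fin 3) (Fin 3) R) (hA : A.IsSymm) (e : Fin 4 → R)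
    (g γ : R) (he : ∀ k, mnr N k = g * e k) (hqe : qf Q e = γ * g) (he0 : e ≠ 0) (hg : g ≠ 0)
    (h : ∀ v : Fin 4 → R, pf Q e v ^ 2 - 4 * γ * g * qf Q v = qf A (act N v)) :
    A.det = -64 * γ ^ 2 * Q.det := by
  obtain ⟨k, hk⟩ : ∃ k, e k ≠ 0 := by
    by_contra hcon
    push Not at hcon
    exact he0 (funext hcon)
  set w := Q.mulVec e with hw
  set c := e ⬝ᵥ Q.mulVec e with hc
  have hqe' : c = γ * g := by
    rw [← hqe, hc]
    simp only [qf, dotProduct, Matrix.mulVec, Algebra.algebraMap_self, RingHom.id_apply,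
      Finset.mul_sum]
    refine Finset.sum_congr rfl fun i _ => Finset.sum_congr rfl fun j _ => ?_
    ring
  have hpe : ∀ v : Fin 4 → R, pf Q e v = 2 * ∑ i, w i * v i := by
    intro v
    have h1 : ∀ i j, Q i j = Q j i := fun i j => hQ.apply j i
    simp only [pf, hw, Matrix.mulVec, dotProduct, Algebra.algebraMap_self, RingHom.id_apply,
      mul_add, Finset.sum_add_distrib]
    rw [Finset.sum_comm, ← Finset.sum_add_distrib, Finset.mul_sum]
    refine Finset.sum_congr rfl fun i _ => ?_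
    rw [Finset.sum_mul, Finset.mul_sum, ← Finset.sum_add_distrib]
    refine Finset.sum_congr rfl fun j _ => ?_
    rw [h1 j i]
    ring
  have hent : (Nᵀ * A * N) = (4 : R) • (Matrix.of fun i j : Fin 4 => w i * w j - c * Q i j) := by
    refine (entry_eq ?_ _ _ ?_ ?_ ?_)
    · intro x hx
      exact (mul_eq_zero.mp hx).resolve_left h2
    · change (Nᵀ * A * N)ᵀ = _
      rw [Matrix.transpose_mul, Matrix.transpose_mul, Matrix.transpose_transpose, hA.eq,
        Matrix.mul_assoc]
    · refine Matrix.IsSymm.smul ?_ _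
      ext i j
      simp only [Matrix.transpose_apply, Matrix.of_apply, hQ.apply i j]
      ring
    · intro v
      have hs : (2 * ∑ i, w i * v i) ^ 2 = ∑ i, ∑ j, 4 * ((w i * v i) * (w j * v j)) := by
        rw [mul_pow, sq (∑ i, w i * v i), Finset.sum_mul_sum, Finset.mul_sum]
        refine Finset.sum_congr rfl fun i _ => ?_
        rw [Finset.mul_sum]
        refine Finset.sum_congr rfl fun j _ => ?_
        ring
      rw [← qf_act, ← h, hpe, mul_assoc 4 γ g, ← hqe', hs]
      simp only [qf, Algebra.algebraMap_self, RingHom.id_apply, Matrix.smul_apply,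
        Matrix.of_apply, smul_eq_mul, Finset.mul_sum, ← Finset.sum_sub_distrib]
      refine Finset.sum_congr rfl fun i _ => Finset.sum_congr rfl fun j _ => ?_
      ring
  have h3 := det_pull k N A
  have h4 := det_schur k Q hQ w c
  have h5 := congrArg Matrix.det (rep_mul k Q hQ e)
  rw [Matrix.det_mul, Matrix.det_mul, Matrix.det_transpose, det_rep] at h5
  have h7 : ((4 : R) • (Matrix.of fun i j : Fin 4 => w i * w j - c * Q i j)).submatrix
      k.succAbove k.succAbove = (4 : R) • ((Matrix.of fun i j : Fin 4 =>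
      w i * w j - c * Q i j).submatrix k.succAbove k.succAbove) := rfl
  rw [← hw, ← hc] at h5
  rw [hent, h7, Matrix.det_smul, Fintype.card_fin, h4, ← h5, he, hqe'] at h3
  have h6 : (g * e k) ^ 2 ≠ 0 := pow_ne_zero _ (mul_ne_zero hg hk)
  apply mul_right_cancel₀ h6
  linear_combination -h3

end det

section sing

variable {σ k : Type*} [Field k]

/-- If the `2 × 2` minors of a `3 × 3` matrix of polynomials vanish at a point then its determinant
is singular there. -/
theorem two_minors_three (S : Matrix (Fin 3) (Fin 3) (MvPolynomial σ k)) (p : σ → k)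
    (h : ∀ a b c d : Fin 3, aeval p (S a c * S b d - S a d * S b c) = 0) (i : σ) :
    aeval p (pderiv i S.det) = 0 := by
  have h' : ∀ a b c d : Fin 3, aeval p (S a c) * aeval p (S b d) -
      aeval p (S a d) * aeval p (S b c) = 0 := by
    intro a b c d
    have := h a b c d
    rwa [map_sub, map_mul, map_mul] at this
  rw [Matrix.det_fin_three]
  simp only [map_add, map_sub, Derivation.leibniz, smul_eq_mul, map_mul]
  have e : ∀ a b : Fin 3, ∃ x, x = aeval p (pderiv i (S a b)) := fun a b => ⟨_, rfl⟩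
  linear_combination aeval p (pderiv i (S 0 0)) * h' 1 2 1 2
    - aeval p (pderiv i (S 0 1)) * h' 1 2 0 2
    + aeval p (pderiv i (S 0 2)) * h' 1 2 0 1
    - aeval p (pderiv i (S 1 0)) * h' 0 2 1 2
    + aeval p (pderiv i (S 1 1)) * h' 0 2 0 2
    - aeval p (pderiv i (S 1 2)) * h' 0 2 0 1
    + aeval p (pderiv i (S 2 0)) * h' 0 1 1 2
    - aeval p (pderiv i (S 2 1)) * h' 0 1 0 2
    + aeval p (pderiv i (S 2 2)) * h' 0 1 0 1

/-- If the `3 × 3` minors of a `4 × 4` matrix of polynomials vanish at a point then its determinant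
is singular there. -/
theorem two_minors_four (S : Matrix (Fin 4) (Fin 4) (MvPolynomial σ k)) (p : σ → k)
    (h : ∀ a b : Fin 4, aeval p (S.submatrix a.succAbove b.succAbove).det = 0) (i : σ) :
    aeval p (pderiv i S.det) = 0 := by
  have h' : ∀ a b : Fin 4,
      aeval p (S (a.succAbove 0) (b.succAbove 0)) * aeval p (S (a.succAbove 1) (b.succAbove 1)) *
        aeval p (S (a.succAbove 2) (b.succAbove 2)) -
      aeval p (S (a.succAbove 0) (b.succAbove 0)) * aeval p (S (a.succAbove 1) (b.succAbove 2)) *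
        aeval p (S (a.succAbove 2) (b.succAbove 1)) -
      aeval p (S (a.succAbove 0) (b.succAbove 1)) * aeval p (S (a.succAbove 1) (b.succAbove 0)) *
        aeval p (S (a.succAbove 2) (b.succAbove 2)) +
      aeval p (S (a.succAbove 0) (b.succAbove 1)) * aeval p (S (a.succAbove 1) (b.succAbove 2)) *
        aeval p (S (a.succAbove 2) (b.succAbove 0)) +
      aeval p (S (a.succAbove 0) (b.succAbove 2)) * aeval p (S (a.succAbove 1) (b.succAbove 0)) *
        aeval p (S (a.succAbove 2) (b.succAbove 1)) -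
      aeval p (S (a.succAbove 0) (b.succAbove 2)) * aeval p (S (a.succAbove 1) (b.succAbove 1)) *
        aeval p (S (a.succAbove 2) (b.succAbove 0)) = 0 := by
    intro a b
    have := h a b
    simpa only [Matrix.det_fin_three, Matrix.submatrix_apply, map_add, map_sub, map_mul] using this
  rw [det_four]
  simp only [map_add, map_sub, Derivation.leibniz, smul_eq_mul, map_mul]
  have h00 : aeval p (S 1 1) * aeval p (S 2 2) * aeval p (S 3 3) - 
      aeval p (S 1 1) * aeval p (S 2 3) * aeval p (S 3 2) - 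
      aeval p (S 1 2) * aeval p (S 2 1) * aeval p (S 3 3) + 
      aeval p (S 1 2) * aeval p (S 2 3) * aeval p (S 3 1) + 
      aeval p (S 1 3) * aeval p (S 2 1) * aeval p (S 3 2) - 
      aeval p (S 1 3) * aeval p (S 2 2) * aeval p (S 3 1) = 0 := h' 0 0
  have h01 : aeval p (S 1 0) * aeval p (S 2 2) * aeval p (S 3 3) - 
      aeval p (S 1 0) * aeval p (S 2 3) * aeval p (S 3 2) - 
      aeval p (S 1 2) * aeval p (S 2 0) * aeval p (S 3 3) + 
      aeval p (S 1 2) * aeval p (S 2 3) * aeval p (S 3 0) + 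
      aeval p (S 1 3) * aeval p (S 2 0) * aeval p (S 3 2) - 
      aeval p (S 1 3) * aeval p (S 2 2) * aeval p (S 3 0) = 0 := h' 0 1
  have h02 : aeval p (S 1 0) * aeval p (S 2 1) * aeval p (S 3 3) - 
      aeval p (S 1 0) * aeval p (S 2 3) * aeval p (S 3 1) - 
      aeval p (S 1 1) * aeval p (S 2 0) * aeval p (S 3 3) + 
      aeval p (S 1 1) * aeval p (S 2 3) * aeval p (S 3 0) + 
      aeval p (S 1 3) * aeval p (S 2 0) * aeval p (S 3 1) - 
      aeval p (S 1 3) * aeval p (S 2 1) * aeval p (S 3 0) = 0 := h' 0 2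
  have h03 : aeval p (S 1 0) * aeval p (S 2 1) * aeval p (S 3 2) - 
      aeval p (S 1 0) * aeval p (S 2 2) * aeval p (S 3 1) - 
      aeval p (S 1 1) * aeval p (S 2 0) * aeval p (S 3 2) + 
      aeval p (S 1 1) * aeval p (S 2 2) * aeval p (S 3 0) + 
      aeval p (S 1 2) * aeval p (S 2 0) * aeval p (S 3 1) - 
      aeval p (S 1 2) * aeval p (S 2 1) * aeval p (S 3 0) = 0 := h' 0 3
  have h10 : aeval p (S 0 1) * aeval p (S 2 2) * aeval p (S 3 3) - 
      aeval p (S 0 1) * aeval p (S 2 3) * aeval p (S 3 2) - 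
      aeval p (S 0 2) * aeval p (S 2 1) * aeval p (S 3 3) + 
      aeval p (S 0 2) * aeval p (S 2 3) * aeval p (S 3 1) + 
      aeval p (S 0 3) * aeval p (S 2 1) * aeval p (S 3 2) - 
      aeval p (S 0 3) * aeval p (S 2 2) * aeval p (S 3 1) = 0 := h' 1 0
  have h11 : aeval p (S 0 0) * aeval p (S 2 2) * aeval p (S 3 3) - 
      aeval p (S 0 0) * aeval p (S 2 3) * aeval p (S 3 2) - 
      aeval p (S 0 2) * aeval p (S 2 0) * aeval p (S 3 3) + 
      aeval p (S 0 2) * aeval p (S 2 3) * aeval p (S 3 0) + 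
      aeval p (S 0 3) * aeval p (S 2 0) * aeval p (S 3 2) - 
      aeval p (S 0 3) * aeval p (S 2 2) * aeval p (S 3 0) = 0 := h' 1 1
  have h12 : aeval p (S 0 0) * aeval p (S 2 1) * aeval p (S 3 3) - 
      aeval p (S 0 0) * aeval p (S 2 3) * aeval p (S 3 1) - 
      aeval p (S 0 1) * aeval p (S 2 0) * aeval p (S 3 3) + 
      aeval p (S 0 1) * aeval p (S 2 3) * aeval p (S 3 0) + 
      aeval p (S 0 3) * aeval p (S 2 0) * aeval p (S 3 1) - 
      aeval p (S 0 3) * aeval p (S 2 1) * aeval p (S 3 0) = 0 := h' 1 2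
  have h13 : aeval p (S 0 0) * aeval p (S 2 1) * aeval p (S 3 2) - 
      aeval p (S 0 0) * aeval p (S 2 2) * aeval p (S 3 1) - 
      aeval p (S 0 1) * aeval p (S 2 0) * aeval p (S 3 2) + 
      aeval p (S 0 1) * aeval p (S 2 2) * aeval p (S 3 0) + 
      aeval p (S 0 2) * aeval p (S 2 0) * aeval p (S 3 1) - 
      aeval p (S 0 2) * aeval p (S 2 1) * aeval p (S 3 0) = 0 := h' 1 3
  have h20 : aeval p (S 0 1) * aeval p (S 1 2) * aeval p (S 3 3) - 
      aeval p (S 0 1) * aeval p (S 1 3) * aeval p (S 3 2) - 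
      aeval p (S 0 2) * aeval p (S 1 1) * aeval p (S 3 3) + 
      aeval p (S 0 2) * aeval p (S 1 3) * aeval p (S 3 1) + 
      aeval p (S 0 3) * aeval p (S 1 1) * aeval p (S 3 2) - 
      aeval p (S 0 3) * aeval p (S 1 2) * aeval p (S 3 1) = 0 := h' 2 0
  have h21 : aeval p (S 0 0) * aeval p (S 1 2) * aeval p (S 3 3) - 
      aeval p (S 0 0) * aeval p (S 1 3) * aeval p (S 3 2) - 
      aeval p (S 0 2) * aeval p (S 1 0) * aeval p (S 3 3) + 
      aeval p (S 0 2) * aeval p (S 1 3) * aeval p (S 3 0) + 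
      aeval p (S 0 3) * aeval p (S 1 0) * aeval p (S 3 2) - 
      aeval p (S 0 3) * aeval p (S 1 2) * aeval p (S 3 0) = 0 := h' 2 1
  have h22 : aeval p (S 0 0) * aeval p (S 1 1) * aeval p (S 3 3) - 
      aeval p (S 0 0) * aeval p (S 1 3) * aeval p (S 3 1) - 
      aeval p (S 0 1) * aeval p (S 1 0) * aeval p (S 3 3) + 
      aeval p (S 0 1) * aeval p (S 1 3) * aeval p (S 3 0) + 
      aeval p (S 0 3) * aeval p (S 1 0) * aeval p (S 3 1) - 
      aeval p (S 0 3) * aeval p (S 1 1) * aeval p (S 3 0) = 0 := h' 2 2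
  have h23 : aeval p (S 0 0) * aeval p (S 1 1) * aeval p (S 3 2) - 
      aeval p (S 0 0) * aeval p (S 1 2) * aeval p (S 3 1) - 
      aeval p (S 0 1) * aeval p (S 1 0) * aeval p (S 3 2) + 
      aeval p (S 0 1) * aeval p (S 1 2) * aeval p (S 3 0) + 
      aeval p (S 0 2) * aeval p (S 1 0) * aeval p (S 3 1) - 
      aeval p (S 0 2) * aeval p (S 1 1) * aeval p (S 3 0) = 0 := h' 2 3
  have h30 : aeval p (S 0 1) * aeval p (S 1 2) * aeval p (S 2 3) - 
      aeval p (S 0 1) * aeval p (S 1 3) * aeval p (S 2 2) - 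
      aeval p (S 0 2) * aeval p (S 1 1) * aeval p (S 2 3) + 
      aeval p (S 0 2) * aeval p (S 1 3) * aeval p (S 2 1) + 
      aeval p (S 0 3) * aeval p (S 1 1) * aeval p (S 2 2) - 
      aeval p (S 0 3) * aeval p (S 1 2) * aeval p (S 2 1) = 0 := h' 3 0
  have h31 : aeval p (S 0 0) * aeval p (S 1 2) * aeval p (S 2 3) - 
      aeval p (S 0 0) * aeval p (S 1 3) * aeval p (S 2 2) - 
      aeval p (S 0 2) * aeval p (S 1 0) * aeval p (S 2 3) + 
      aeval p (S 0 2) * aeval p (S 1 3) * aeval p (S 2 0) + 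
      aeval p (S 0 3) * aeval p (S 1 0) * aeval p (S 2 2) - 
      aeval p (S 0 3) * aeval p (S 1 2) * aeval p (S 2 0) = 0 := h' 3 1
  have h32 : aeval p (S 0 0) * aeval p (S 1 1) * aeval p (S 2 3) - 
      aeval p (S 0 0) * aeval p (S 1 3) * aeval p (S 2 1) - 
      aeval p (S 0 1) * aeval p (S 1 0) * aeval p (S 2 3) + 
      aeval p (S 0 1) * aeval p (S 1 3) * aeval p (S 2 0) + 
      aeval p (S 0 3) * aeval p (S 1 0) * aeval p (S 2 1) - 
      aeval p (S 0 3) * aeval p (S 1 1) * aeval p (S 2 0) = 0 := h' 3 2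
  have h33 : aeval p (S 0 0) * aeval p (S 1 1) * aeval p (S 2 2) - 
      aeval p (S 0 0) * aeval p (S 1 2) * aeval p (S 2 1) - 
      aeval p (S 0 1) * aeval p (S 1 0) * aeval p (S 2 2) + 
      aeval p (S 0 1) * aeval p (S 1 2) * aeval p (S 2 0) + 
      aeval p (S 0 2) * aeval p (S 1 0) * aeval p (S 2 1) - 
      aeval p (S 0 2) * aeval p (S 1 1) * aeval p (S 2 0) = 0 := h' 3 3
  linear_combination aeval p (pderiv i (S 0 0)) * h00 - aeval p (pderiv i (S 0 1)) * h01
    + aeval p (pderiv i (S 0 2)) * h02 - aeval p (pderiv i (S 0 3)) * h03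
    - aeval p (pderiv i (S 1 0)) * h10 + aeval p (pderiv i (S 1 1)) * h11
    - aeval p (pderiv i (S 1 2)) * h12 + aeval p (pderiv i (S 1 3)) * h13
    + aeval p (pderiv i (S 2 0)) * h20 - aeval p (pderiv i (S 2 1)) * h21
    + aeval p (pderiv i (S 2 2)) * h22 - aeval p (pderiv i (S 2 3)) * h23
    - aeval p (pderiv i (S 3 0)) * h30 + aeval p (pderiv i (S 3 1)) * h31
    - aeval p (pderiv i (S 3 2)) * h32 + aeval p (pderiv i (S 3 3)) * h33

end sing

section sq

lemma qf_act_algebra {k A : Type*} [CommRing k] [CommRing A] [Algebra k A] {m n : ℕ}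
    (S : Matrix (Fin m) (Fin m) k) (P : Matrix (Fin m) (Fin n) k) (u : Fin n → A) :
    qf S (act P u) = qf (Pᵀ * S * P) u := by
  have h1 : act P u = act (P.map (algebraMap k A)) u := by
    funext i
    simp [act]
  have h2 : ∀ {l : ℕ} (T : Matrix (Fin l) (Fin l) k) (y : Fin l → A),
      qf T y = qf (T.map (algebraMap k A)) y := by
    intro l T y
    simp [qf]
  rw [h1, h2, qf_act, h2 (Pᵀ * S * P), Matrix.map_mul, Matrix.map_mul, Matrix.transpose_map]

lemma exists_ortho (S : Matrix (Fin 4) (Fin 4) ℂ) (hS : S.IsSymm) :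
    ∃ P P' : Matrix (Fin 4) (Fin 4) ℂ, ∃ d : Fin 4 → ℂ, P * P' = 1 ∧ P' * P = 1 ∧
      Pᵀ * S * P = Matrix.diagonal d := by
  classical
  set B : LinearMap.BilinForm ℂ (Fin 4 → ℂ) := Matrix.toBilin' S with hB
  have hBs : LinearMap.IsSymm B := by
    refine ⟨fun x y => ?_⟩
    simp only [hB, Matrix.toBilin'_apply, RingHom.id_apply]
    rw [Finset.sum_comm]
    refine Finset.sum_congr rfl fun i _ => Finset.sum_congr rfl fun j _ => ?_
    rw [hS.apply i j]
    ring
  have : Invertible (2 : ℂ) := invertibleOfNonzero two_ne_zero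
  obtain ⟨v0, hv0⟩ := LinearMap.BilinForm.exists_orthogonal_basis hBs
  have hfr : Module.finrank ℂ (Fin 4 → ℂ) = 4 := by simp
  let v : Module.Basis (Fin 4) ℂ (Fin 4 → ℂ) := v0.reindex (finCongr hfr)
  have hv : ∀ i j, i ≠ j → B (v i) (v j) = 0 := by
    intro i j hij
    simp only [v, Module.Basis.reindex_apply]
    exact hv0 (by simpa using hij)
  let P : Matrix (Fin 4) (Fin 4) ℂ := (Pi.basisFun ℂ (Fin 4)).toMatrix v
  let P' : Matrix (Fin 4) (Fin 4) ℂ := v.toMatrix (Pi.basisFun ℂ (Fin 4))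
  refine ⟨P, P', fun i => B (v i) (v i), Module.Basis.toMatrix_mul_toMatrix_flip _ _,
    Module.Basis.toMatrix_mul_toMatrix_flip _ _, ?_⟩
  ext i j
  have h1 : (Pᵀ * S * P) i j = B (v i) (v j) := by
    simp only [hB, Matrix.toBilin'_apply, Matrix.mul_apply, Finset.sum_mul, P,
      Module.Basis.toMatrix_apply, Matrix.transpose_apply, Pi.basisFun_repr]
    rw [Finset.sum_comm]
  rw [h1, Matrix.diagonal_apply]
  split_ifs with h
  · rw [h]
  · exact hv i j h

/-- A kernel vector of `S` with vanishing `b`-th coordinate vanishes, if some minor without the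
column `b` does not vanish. -/
lemma minor_ker (S : Matrix (Fin 4) (Fin 4) ℂ) (a b : Fin 4)
    (hab : (S.submatrix a.succAbove b.succAbove).det ≠ 0) (z : Fin 4 → ℂ) (hz : S.mulVec z = 0)
    (hzb : z b = 0) : z = 0 := by
  have h1 : (S.submatrix a.succAbove b.succAbove).mulVec (fun j => z (b.succAbove j)) = 0 := by
    funext i
    have h2 := congrFun hz (a.succAbove i)
    simp only [Matrix.mulVec, dotProduct, Pi.zero_apply] at h2 ⊢
    rw [Fin.sum_univ_succAbove _ b, hzb, mul_zero, zero_add] at h2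
    simpa using h2
  have h2 := Matrix.eq_zero_of_mulVec_eq_zero hab h1
  funext i
  rcases Fin.eq_self_or_eq_succAbove b i with rfl | ⟨j, rfl⟩
  · exact hzb
  · exact congrFun h2 j

theorem sum_sq_diag (S : Matrix (Fin 4) (Fin 4) ℂ) (hS : S.IsSymm) (a b : Fin 4)
    (hab : (S.submatrix a.succAbove b.succAbove).det ≠ 0) :
    ∃ P P' : Matrix (Fin 4) (Fin 4) ℂ, ∃ δ : ℂ, P * P' = 1 ∧ P' * P = 1 ∧
      Pᵀ * S * P = Matrix.diagonal ![1, 1, 1, δ] := by
  classical
  obtain ⟨P, P', d, h1, h2, h3⟩ := exists_ortho S hS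
  -- at most one zero
  have hcol : ∀ i, d i = 0 → S.mulVec (fun r => P r i) = 0 := by
    intro i hi
    have h4 : Pᵀ * (S * P) = Matrix.diagonal d := by rw [← Matrix.mul_assoc]; exact h3
    have h5 : S * P = P'ᵀ * Matrix.diagonal d := by
      rw [← h4, ← Matrix.mul_assoc, ← Matrix.transpose_mul, h1, Matrix.transpose_one, Matrix.one_mul]
    funext r
    have h6 := congrFun (congrFun h5 r) i
    rw [Matrix.mul_diagonal, hi, mul_zero] at h6
    simpa [Matrix.mulVec, dotProduct, Matrix.mul_apply] using h6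
  have hz : ∀ i j, d i = 0 → d j = 0 → i = j := by
    intro i j hi hj
    by_contra hij
    have h4 := hcol i hi
    have h5 := hcol j hj
    have hind : ∀ x y : ℂ, (fun r => x * P r i + y * P r j) = 0 → x = 0 ∧ y = 0 := by
      intro x y hxy
      have h6 : P.mulVec (x • Pi.single i 1 + y • Pi.single j 1) = 0 := by
        rw [Matrix.mulVec_add, Matrix.mulVec_smul, Matrix.mulVec_smul, Matrix.mulVec_single_one,
          Matrix.mulVec_single_one]
        exact hxy
      have h7 : P'.mulVec (P.mulVec (x • Pi.single i 1 + y • Pi.single j 1)) =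
          (x • Pi.single i 1 + y • Pi.single j 1) := by
        rw [Matrix.mulVec_mulVec, h2, Matrix.one_mulVec]
      rw [h6, Matrix.mulVec_zero] at h7
      have h8 := congrFun h7 i
      have h9 := congrFun h7 j
      simp [hij, Ne.symm hij] at h8 h9
      exact ⟨h8.symm, h9.symm⟩
    have h6 := minor_ker S a b hab (fun r => P b j * P r i + (-P b i) * P r j) (by
      have : (fun r => P b j * P r i + (-P b i) * P r j) =
        P b j • (fun r => P r i) + (-P b i) • (fun r => P r j) := rfl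
      rw [this, Matrix.mulVec_add, Matrix.mulVec_smul, Matrix.mulVec_smul, h4, h5]
      simp) (by ring)
    obtain ⟨h7, h8⟩ := hind _ _ h6
    have h9 := minor_ker S a b hab (fun r => P r i) h4 (by simpa using h8)
    have h10 := (hind 1 0 (by simpa using h9)).1
    exact one_ne_zero h10
  -- a permutation moving the zero to the last place
  obtain ⟨σ, hσ⟩ : ∃ σ : Equiv.Perm (Fin 4), ∀ i, i ≠ 3 → d (σ i) ≠ 0 := by
    by_cases h : ∃ i, d i = 0
    · obtain ⟨i, hi⟩ := h
      refine ⟨Equiv.swap i 3, fun j hj hdj => hj ?_⟩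
      have := hz _ _ hdj hi
      have h4 := congrArg (Equiv.swap i 3) this
      simpa using h4
    · push Not at h
      exact ⟨1, fun i _ => h _⟩
  have hsq : ∀ x : ℂ, ∃ s : ℂ, s ^ 2 = x := fun x => IsAlgClosed.exists_pow_nat_eq x (by norm_num)
  choose s hs using fun i => hsq (d i)
  let c : Fin 4 → ℂ := fun i => if i = 3 then 1 else (s (σ i))⁻¹
  have hc : ∀ i, c i ≠ 0 := by
    intro i
    simp only [c]
    split_ifs with h
    · exact one_ne_zero
    · refine inv_ne_zero fun h0 => hσ i h ?_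
      rw [← hs, h0]; ring
  let C : Matrix (Fin 4) (Fin 4) ℂ := (Matrix.diagonal c).submatrix σ.symm id
  let C' : Matrix (Fin 4) (Fin 4) ℂ := (Matrix.diagonal fun i => (c i)⁻¹).submatrix id σ.symm
  have hCC' : C * C' = 1 := by
    simp only [C, C']
    rw [← Matrix.submatrix_mul _ _ _ _ _ Function.bijective_id, Matrix.diagonal_mul_diagonal]
    simp [hc]
  have hC'C : C' * C = 1 := _root_.mul_eq_one_comm.mp hCC'
  refine ⟨P * C, C' * P', d (σ 3), ?_, ?_, ?_⟩
  · calc P * C * (C' * P') = P * (C * C') * P' := by simp only [Matrix.mul_assoc]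
      _ = 1 := by rw [hCC', Matrix.mul_one, h1]
  · calc C' * P' * (P * C) = C' * (P' * P) * C := by simp only [Matrix.mul_assoc]
      _ = 1 := by rw [h2, Matrix.mul_one, hC'C]
  · have h4 : (P * C)ᵀ * S * (P * C) = Cᵀ * Matrix.diagonal d * C := by
      rw [← h3, Matrix.transpose_mul]
      simp only [Matrix.mul_assoc]
    rw [h4]
    ext i j
    rw [Matrix.mul_apply]
    simp only [Matrix.mul_diagonal, Matrix.transpose_apply, C, Matrix.submatrix_apply, id_eq]
    rw [Finset.sum_eq_single (σ i)]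
    · simp only [Equiv.symm_apply_apply, Matrix.diagonal_apply, if_true]
      by_cases hij : i = j
      · subst hij
        by_cases h3 : i = 3
        · subst h3
          simp [c]
        · have h5 : s (σ i) ≠ 0 := by
            intro h0
            apply hσ i h3
            rw [← hs, h0]; ring
          have h6 : c i * d (σ i) * c i = 1 := by
            simp only [c, if_neg h3, ← hs (σ i)]
            field_simp
          simp only [if_true, h6]
          fin_cases i <;> simp at h3 ⊢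
      · simp [hij]
    · intro r _ hr
      have : σ.symm r ≠ i := by
        intro h
        exact hr (by rw [← h]; simp)
      simp [Matrix.diagonal_apply, this]
    · simp

theorem sum_sq (S : Matrix (Fin 4) (Fin 4) ℂ) (hS : S.IsSymm) (a b : Fin 4)
    (hab : (S.submatrix a.succAbove b.succAbove).det ≠ 0) :
    ∃ P P' : Matrix (Fin 4) (Fin 4) ℂ, ∃ δ : ℂ, P * P' = 1 ∧ P' * P = 1 ∧
      Pᵀ * S * P = Matrix.diagonal ![1, 1, 1, δ] ∧
      (∀ u : Fin 4 → ℂ, qf S (act P u) = u 0 ^ 2 + u 1 ^ 2 + u 2 ^ 2 + δ * u 3 ^ 2) ∧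
      ∀ (A : Type) [CommRing A] [Algebra ℂ A] (u : Fin 4 → A),
        qf S (act P u) = u 0 ^ 2 + u 1 ^ 2 + u 2 ^ 2 + algebraMap ℂ A δ * u 3 ^ 2 := by
  obtain ⟨P, P', δ, h1, h2, h3⟩ := sum_sq_diag S hS a b hab
  have h4 : ∀ (A : Type) [CommRing A] [Algebra ℂ A] (u : Fin 4 → A),
        qf S (act P u) = u 0 ^ 2 + u 1 ^ 2 + u 2 ^ 2 + algebraMap ℂ A δ * u 3 ^ 2 := by
    intro A _ _ u
    rw [qf_act_algebra, h3]
    simp only [qf, Fin.sum_univ_four, Matrix.diagonal_apply]
    simp
    ring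
  refine ⟨P, P', δ, h1, h2, h3, fun u => ?_, h4⟩
  simpa using h4 ℂ u

end sq

end Vale.Agent.P287.H69
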