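import Mathlib

/-!
Discrete valuation rings: primitive vectors in kernels, and the parity of the order of `a x ^ 2 - y ^ 2`.
-/

namespace Vale.Agent.P287.H69

section

variable {O : Type} [CommRing O] [IsDomain O] [IsDiscreteValuationRing O]

lemma exists_primitive {n : ℕ} (w : Fin n → O) (hw : w ≠ 0) {p : O} (hp : Irreducible p) :
    ∃ (c : O) (w' : Fin n → O), c ≠ 0 ∧ w = c • w' ∧ ∃ i, ¬ p ∣ w' i := by
  classical
  -- the least order of a coordinate
  have h1 : ∃ k : ℕ, ∃ i, ¬ p ^ (k + 1) ∣ w i := by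
    obtain ⟨i, hi⟩ : ∃ i, w i ≠ 0 := by
      by_contra h
      push Not at h
      exact hw (funext h)
    obtain ⟨k, u, hu⟩ := IsDiscreteValuationRing.eq_unit_mul_pow_irreducible hi hp
    refine ⟨k, i, ?_⟩
    rw [hu]
    intro h
    have h2 : p ^ (k + 1) ∣ p ^ k := by
      have h3 := (u.isUnit.dvd_mul_left (a := p ^ (k + 1)) (b := p ^ k)).mp h
      exact h3
    rw [pow_dvd_pow_iff hp.ne_zero hp.not_isUnit] at h2
    omega
  set k := Nat.find h1 with hk
  obtain ⟨i, hi⟩ := Nat.find_spec h1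
  have h2 : ∀ j, p ^ k ∣ w j := by
    intro j
    rcases Nat.eq_zero_or_pos k with h | h
    · rw [h, pow_zero]; exact one_dvd _
    · by_contra hcon
      have h3 : Nat.find h1 ≤ k - 1 := Nat.find_min' h1 ⟨j, by rwa [Nat.sub_add_cancel h]⟩
      omega
  choose w' hw' using h2
  refine ⟨p ^ k, w', pow_ne_zero _ hp.ne_zero, funext hw', i, ?_⟩
  intro h
  apply hi
  rw [← hk, hw' i, pow_succ]
  exact mul_dvd_mul_left _ h

/-- A singular matrix over a discrete valuation ring kills a primitive vector. -/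
theorem exists_kernel {n : ℕ} (M : Matrix (Fin n) (Fin n) O) (hM : M.det = 0) :
    ∃ w : Fin n → O, M.mulVec w = 0 ∧ ∃ i, IsLocalRing.residue O (w i) ≠ 0 := by
  obtain ⟨w, hw0, hw⟩ := Matrix.exists_mulVec_eq_zero_iff.mpr hM
  obtain ⟨p, hp⟩ := IsDiscreteValuationRing.exists_irreducible O
  obtain ⟨c, w', hc, rfl, i, hi⟩ := exists_primitive w hw0 hp
  refine ⟨w', ?_, i, ?_⟩
  · rw [Matrix.mulVec_smul] at hw
    exact (smul_eq_zero.mp hw).resolve_left hc
  · intro h
    apply hi
    rw [IsLocalRing.residue_eq_zero_iff, hp.maximalIdeal_eq, Ideal.mem_span_singleton] at h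
    exact h

/-- If the residue of `a` is not a square, then `a x ^ 2 - y ^ 2` has even order. -/
theorem not_odd_order {p : O} (hp : Irreducible p) (a : O)
    (ha : ¬ IsSquare (IsLocalRing.residue O a)) :
    ∀ (j : ℕ), Odd j → ∀ x y u : O, IsUnit u → x ^ 2 * a - y ^ 2 ≠ u * p ^ j := by
  intro j
  induction j using Nat.strong_induction_on with
  | _ j ih =>
  intro hj x y u hu h
  have hp0 : IsLocalRing.residue O p = 0 := by
    rw [IsLocalRing.residue_eq_zero_iff, hp.maximalIdeal_eq]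
    exact Ideal.mem_span_singleton_self p
  have hj0 : 0 < j := hj.pos
  have h1 := congrArg (IsLocalRing.residue O) h
  rw [map_sub, map_mul, map_pow, map_pow, map_mul, map_pow, hp0, zero_pow hj0.ne', mul_zero,
    sub_eq_zero] at h1
  have hx : IsLocalRing.residue O x = 0 := by
    by_contra hx
    apply ha
    refine ⟨IsLocalRing.residue O y / IsLocalRing.residue O x, ?_⟩
    field_simp
    rw [← h1]
    ring
  have hy : IsLocalRing.residue O y = 0 := by
    rw [hx] at h1
    have : IsLocalRing.residue O y ^ 2 = 0 := by rw [← h1]; ring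
    exact eq_zero_of_pow_eq_zero this
  rw [IsLocalRing.residue_eq_zero_iff, hp.maximalIdeal_eq, Ideal.mem_span_singleton] at hx hy
  obtain ⟨x', rfl⟩ := hx
  obtain ⟨y', rfl⟩ := hy
  have h2 : p ^ 2 * (x' ^ 2 * a - y' ^ 2) = u * p ^ j := by rw [← h]; ring
  have hj2 : 2 ≤ j := by
    by_contra hlt
    have hj1 : j = 1 := by omega
    rw [hj1, pow_one] at h2
    have h3 : p * (p * (x' ^ 2 * a - y' ^ 2)) = p * u := by rw [mul_comm p u, ← h2]; ring
    have h4 := mul_left_cancel₀ hp.ne_zero h3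
    exact hp.not_isUnit (isUnit_of_mul_isUnit_left (h4 ▸ hu))
  have h3 : x' ^ 2 * a - y' ^ 2 = u * p ^ (j - 2) := by
    apply mul_left_cancel₀ (pow_ne_zero 2 hp.ne_zero)
    rw [h2]
    have : p ^ j = p ^ 2 * p ^ (j - 2) := by rw [← pow_add]; congr 1; omega
    rw [this]
    ring
  exact ih (j - 2) (by omega) (by
    obtain ⟨k, hk⟩ := hj
    exact ⟨k - 1, by omega⟩) x' y' u hu h3

end

end Vale.Agent.P287.H69
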