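import Vale.Agent.P287.H69.ParamsA

/-!
Degrees over the field of the generic coefficients and over the field generated by the coefficients
alone.
-/

open MvPolynomial IntermediateField

namespace Vale.Agent.P287.H69

open Vale.Agent.P287

section minpoly

open scoped IntermediateField.algebraAdjoinAdjoin

/-- The degree of an algebraic element does not change in a purely transcendental extension. -/
theorem natDegree_minpoly_adjoin {K k : Type} [Field K] [Field k] [Algebra K k] {ι : Type}
    (x : ι → k) (hx : AlgebraicIndependent K x) (θ : k) (hθ : IsIntegral K θ) :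
    (minpoly (IntermediateField.adjoin K (Set.range x)) θ).natDegree =
      (minpoly K θ).natDegree := by
  classical
  set R := Algebra.adjoin K (Set.range x)
  set K3 := IntermediateField.adjoin K (Set.range x)
  have hic : IsIntegrallyClosed R := IsIntegrallyClosed.of_equiv hx.aevalEquiv.toRingEquiv
  have hR : IsIntegral R θ := hθ.tower_top
  have h1 : minpoly K3 θ = (minpoly R θ).map (algebraMap R K3) :=
    minpoly.isIntegrallyClosed_eq_field_fractions' K3 hR
  rw [h1, (minpoly.monic hR).natDegree_map]
  -- specialise
  let ε : R →ₐ[K] K := (aeval (fun _ => (0 : K))).comp hx.aevalEquiv.symm.toAlgHom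
  have h2 : minpoly R θ ∣ (minpoly K θ).map (algebraMap K R) := by
    apply minpoly.isIntegrallyClosed_dvd hR
    rw [Polynomial.aeval_map_algebraMap]
    exact minpoly.aeval K θ
  have h3 : (minpoly R θ).map (ε : R →+* K) ∣ minpoly K θ := by
    have h4 := Polynomial.map_dvd (ε : R →+* K) h2
    rw [Polynomial.map_map] at h4
    have h5 : (ε : R →+* K).comp (algebraMap K R) = RingHom.id K := by
      ext c
      exact ε.commutes c
    rwa [h5, Polynomial.map_id] at h4
  have h6 : ((minpoly R θ).map (ε : R →+* K)).natDegree = (minpoly R θ).natDegree :=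
    (minpoly.monic hR).natDegree_map _
  have h7 : 0 < (minpoly R θ).natDegree := minpoly.natDegree_pos hR
  have h8 : ¬ IsUnit ((minpoly R θ).map (ε : R →+* K)) := by
    intro h
    have := Polynomial.natDegree_eq_zero_of_isUnit h
    omega
  obtain ⟨q, hq⟩ := h3
  have hq' : IsUnit q := ((minpoly.irreducible hθ).isUnit_or_isUnit hq).resolve_left h8
  have h0 : minpoly K θ ≠ 0 := minpoly.ne_zero hθ
  have h9 := congrArg Polynomial.natDegree hq
  rw [Polynomial.natDegree_mul (by rintro h; rw [h, zero_mul] at hq; exact h0 hq) hq'.ne_zero,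
    Polynomial.natDegree_eq_zero_of_isUnit hq', h6] at h9
  omega

end minpoly

section tower

variable {k : Type} [Field k] [Algebra ℂ k] [Algebra RatK k] [Algebra PF k]
  [IsScalarTower ℂ RatK k] [IsScalarTower RatK PF k]

variable (k) in
/-- The field generated by the coefficients of the two linear forms. -/
noncomputable abbrev K1 : IntermediateField ℂ k :=
  IntermediateField.adjoin ℂ (Set.range fun ia : J => algebraMap PF k (gl ia.1 ia.2))

variable (k) in
/-- The coordinates of the plane. -/
noncomputable def xk : Fin 2 → k :=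
  fun i => algebraMap RatK k (algebraMap (MvPolynomial (Fin 2) ℂ) RatK (X i))

variable (k) in
lemma gl_indep : AlgebraicIndependent RatK fun ia : J => algebraMap PF k (gl ia.1 ia.2) := by
  have h1 : AlgebraicIndependent RatK (X : J → PR) := MvPolynomial.algebraicIndependent_X J RatK
  let f : PR →ₐ[RatK] k := (IsScalarTower.toAlgHom RatK PF k).comp (IsScalarTower.toAlgHom RatK PR PF)
  have hf : Function.Injective f :=
    (algebraMap PF k).injective.comp (IsFractionRing.injective PR PF)
  have h2 : AlgebraicIndependent RatK (f ∘ (X : J → PR)) := h1.map' hf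
  have h3 : f ∘ (X : J → PR) = fun ia : J => algebraMap PF k (gl ia.1 ia.2) := by
    funext ia
    rw [gl_eq]
    rfl
  rwa [h3] at h2

variable (k) in
lemma sum_indep : AlgebraicIndependent ℂ
    (Sum.elim (fun ia : J => algebraMap PF k (gl ia.1 ia.2)) (xk k)) := by
  have h1 : AlgebraicIndependent ℂ (X : Fin 2 → MvPolynomial (Fin 2) ℂ) :=
    MvPolynomial.algebraicIndependent_X (Fin 2) ℂ
  have h2 : AlgebraicIndependent ℂ
      (fun i : Fin 2 => algebraMap (MvPolynomial (Fin 2) ℂ) RatK (X i)) :=
    h1.map' (f := IsScalarTower.toAlgHom ℂ (MvPolynomial (Fin 2) ℂ) RatK)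
      (IsFractionRing.injective (MvPolynomial (Fin 2) ℂ) RatK)
  exact AlgebraicIndependent.sumElim_comp h2 (gl_indep k)

open scoped IntermediateField.algebraAdjoinAdjoin in
variable (k) in
lemma xk_indep : AlgebraicIndependent (K1 k) (xk k) := by
  have h1 : AlgebraicIndependent ℂ
      (Sum.elim (xk k) (fun ia : J => algebraMap PF k (gl ia.1 ia.2))) := by
    have h2 := (sum_indep k).comp (Sum.swap : Fin 2 ⊕ J → J ⊕ Fin 2) Sum.swap_leftInverse.injective
    have h3 : Sum.elim (fun ia : J => algebraMap PF k (gl ia.1 ia.2)) (xk k) ∘ Sum.swap =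
        Sum.elim (xk k) (fun ia : J => algebraMap PF k (gl ia.1 ia.2)) := by
      funext i
      rcases i with i | i <;> rfl
    rwa [h3] at h2
  have h2 := (AlgebraicIndependent.sumElim_iff.mp h1).2
  exact h2.extendScalars (K1 k)

variable (k) in
/-- The image of the field of the generic coefficients. -/
lemma mem_adjoin (c : PF) :
    algebraMap PF k c ∈ IntermediateField.adjoin (K1 k) (Set.range (xk k)) := by
  set K3 := IntermediateField.adjoin (K1 k) (Set.range (xk k))
  have hC : ∀ c : ℂ, algebraMap ℂ k c ∈ K3 := fun c => by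
    rw [IsScalarTower.algebraMap_apply ℂ (K1 k) k]
    exact K3.algebraMap_mem _
  have hx : ∀ i, xk k i ∈ K3 := fun i => IntermediateField.subset_adjoin _ _ ⟨i, rfl⟩
  have hl : ∀ ia : J, algebraMap PF k (gl ia.1 ia.2) ∈ K3 := fun ia =>
    K3.algebraMap_mem (⟨_, IntermediateField.subset_adjoin ℂ _ ⟨ia, rfl⟩⟩ : K1 k)
  have hR : ∀ n : MvPolynomial (Fin 2) ℂ,
      algebraMap RatK k (algebraMap (MvPolynomial (Fin 2) ℂ) RatK n) ∈ K3 := by
    intro n
    induction n using MvPolynomial.induction_on with
    | C a =>
      have h1 : algebraMap (MvPolynomial (Fin 2) ℂ) RatK (C a) = algebraMap ℂ RatK a := rfl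
      rw [h1, ← IsScalarTower.algebraMap_apply ℂ RatK k]
      exact hC a
    | add p q hp hq => rw [map_add, map_add]; exact K3.add_mem hp hq
    | mul_X p i hp => rw [map_mul, map_mul]; exact K3.mul_mem hp (hx i)
  have hK : ∀ c : RatK, algebraMap RatK k c ∈ K3 := by
    intro c
    obtain ⟨n, d, _, rfl⟩ := IsFractionRing.div_surjective (A := MvPolynomial (Fin 2) ℂ) c
    rw [map_div₀]
    exact K3.div_mem (hR n) (hR d)
  have hP : ∀ n : PR, algebraMap PF k (algebraMap PR PF n) ∈ K3 := by
    intro n
    induction n using MvPolynomial.induction_on with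
    | C a =>
      have h1 : algebraMap PR PF (C a) = algebraMap RatK PF a := rfl
      rw [h1, ← IsScalarTower.algebraMap_apply RatK PF k]
      exact hK a
    | add p q hp hq => rw [map_add, map_add]; exact K3.add_mem hp hq
    | mul_X p i hp => rw [map_mul, map_mul]; exact K3.mul_mem hp (hl i)
  obtain ⟨n, d, _, rfl⟩ := IsFractionRing.div_surjective (A := PR) c
  rw [map_div₀]
  exact K3.div_mem (hP n) (hP d)

variable (k) in
lemma adjoin_sub (y : k) (hy : y ∈ IntermediateField.adjoin (K1 k) (Set.range (xk k))) :
    ∃ c : PF, algebraMap PF k c = y := by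
  let F : Subfield k := (algebraMap PF k).fieldRange
  have hC : ∀ c : ℂ, algebraMap ℂ k c ∈ F := fun c => by
    rw [IsScalarTower.algebraMap_apply ℂ RatK k, IsScalarTower.algebraMap_apply RatK PF k]
    exact ⟨_, rfl⟩
  have hl : ∀ z ∈ K1 k, z ∈ F := by
    intro z hz
    induction hz using IntermediateField.adjoin_induction with
    | mem z hz => obtain ⟨ia, rfl⟩ := hz; exact ⟨_, rfl⟩
    | algebraMap c => exact hC c
    | add z w _ _ h1 h2 => exact F.add_mem h1 h2
    | inv z _ h1 => exact F.inv_mem h1
    | mul z w _ _ h1 h2 => exact F.mul_mem h1 h2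
  have : y ∈ F := by
    induction hy using IntermediateField.adjoin_induction with
    | mem z hz =>
      obtain ⟨i, rfl⟩ := hz
      refine ⟨algebraMap RatK PF (algebraMap (MvPolynomial (Fin 2) ℂ) RatK (X i)), ?_⟩
      rw [← IsScalarTower.algebraMap_apply RatK PF k]
      rfl
    | algebraMap c => exact hl _ c.2
    | add z w _ _ h1 h2 => exact F.add_mem h1 h2
    | inv z _ h1 => exact F.inv_mem h1
    | mul z w _ _ h1 h2 => exact F.mul_mem h1 h2
  exact this

variable (k) in
lemma finrank_eq : Module.finrank PF k =
    Module.finrank (IntermediateField.adjoin (K1 k) (Set.range (xk k))) k := by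
  set K3 := IntermediateField.adjoin (K1 k) (Set.range (xk k))
  let f : PF →+* K3 := RingHom.codRestrict (algebraMap PF k) K3.toSubalgebra (mem_adjoin k)
  have hf : Function.Bijective f := by
    refine ⟨f.injective, fun y => ?_⟩
    obtain ⟨c, hc⟩ := adjoin_sub k y.1 y.2
    exact ⟨c, Subtype.ext hc⟩
  exact Algebra.finrank_eq_of_equiv_equiv (RingEquiv.ofBijective f hf) (RingEquiv.refl k) rfl

/-- In an extension of odd degree of the field of generic coefficients, the field generated by an
algebraic element over the field of the coefficients of the two linear forms has odd degree. -/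
theorem not_even (hodd : Odd (Module.finrank PF k)) (t : Set k)
    (heven : Even (Module.finrank (K1 k) (IntermediateField.adjoin (K1 k) t)))
    (hpos : 0 < Module.finrank (K1 k) (IntermediateField.adjoin (K1 k) t)) : False := by
  classical
  set L := IntermediateField.adjoin (K1 k) t
  have hfin : FiniteDimensional (K1 k) L := Module.finite_of_finrank_pos hpos
  have hchar : CharZero (K1 k) := charZero_of_injective_algebraMap (algebraMap ℂ (K1 k)).injective
  obtain ⟨α, hα⟩ := Field.exists_primitive_element (K1 k) L
  rw [Field.primitive_element_iff_minpoly_natDegree_eq] at hα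
  have h1 : minpoly (K1 k) (α : k) = minpoly (K1 k) α := minpoly.algebraMap_eq L.val.injective α
  rw [← hα, ← h1] at heven
  have hint : IsIntegral (K1 k) (α : k) := by
    have := IsIntegral.of_finite (K1 k) α
    exact this.map L.val
  rw [← natDegree_minpoly_adjoin (xk k) (xk_indep k) (α : k) hint] at heven
  rw [finrank_eq k] at hodd
  set K3 := IntermediateField.adjoin (K1 k) (Set.range (xk k))
  have hint3 : IsIntegral K3 (α : k) := hint.tower_top
  rw [← IntermediateField.adjoin.finrank hint3] at heven
  have hdvd : Module.finrank K3 K3⟮(α : k)⟯ ∣ Module.finrank K3 k :=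
    Dvd.intro _ (Module.finrank_mul_finrank K3 K3⟮(α : k)⟯ k)
  exact (Nat.not_odd_iff_even.mpr heven) (hodd.of_dvd_nat hdvd)

end tower

end Vale.Agent.P287.H69
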