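import Vale.Agent.P287.H69.CritE
import Vale.Agent.P287.H69.ParamsD

/-!
The degree of the scroll, and the points of the scroll on the generic linear subspace.
-/

open MvPolynomial

namespace Vale.Agent.P287.H69

open Vale.Agent.P287 Vale.Agent.P287.H631

/-- The polynomials vanishing on the scroll. -/
def scrollIdeal {κ : Type} [Field κ] [Algebra ℂ κ] (τ : Fin 3 → κ) (W : Submodule κ (Fin 4 → κ)) :
    Set (MvPolynomial (Fin 6) ℂ) :=
  {p | ∀ w ∈ W, aeval (wvec τ w) p = 0}

/-- The surface in `ℙ⁵` with homogeneous ideal `I` has degree `s`: its intersection with the generic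
linear subspace of codimension two is a point of degree `s`. -/
def HasDegree (I : Set (MvPolynomial (Fin 6) ℂ)) (s : ℕ) : Prop :=
  0 < s ∧ ∀ (k : Type) [Field k] [Algebra ℂ k] (l : Fin 2 → Fin 6 → k) (z : Fin 6 → k),
    AlgebraicIndependent ℂ (fun ia : Fin 2 × Fin 6 => l ia.1 ia.2) → (∃ i, z i = 1) →
    (∀ p ∈ I, aeval z p = 0) → (∀ i, ∑ a, l i a * z a = 0) →
    Module.finrank (IntermediateField.adjoin ℂ (Set.range fun ia : Fin 2 × Fin 6 => l ia.1 ia.2))
      (IntermediateField.adjoin
        (IntermediateField.adjoin ℂ (Set.range fun ia : Fin 2 × Fin 6 => l ia.1 ia.2))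
        (Set.range z)) = s

/-- A solution of two linear equations. -/
def sol {A : Type} [CommRing A] (N : Matrix (Fin 3) (Fin 4) A) (i j : Fin 3) (c d a : Fin 4) :
    Fin 4 → A :=
  fun k => if k = a then mnr2 N i j c d else if k = c then -mnr2 N i j a d
    else if k = d then -mnr2 N i j c a else 0

lemma sol_map {A A' : Type} [CommRing A] [CommRing A'] (φ : A →+* A')
    (N : Matrix (Fin 3) (Fin 4) A) (i j : Fin 3) (c d a : Fin 4) (k : Fin 4) :
    φ (sol N i j c d a k) = sol (N.map φ) i j c d a k := by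
  simp only [sol, mnr2, Matrix.map_apply]
  split_ifs <;> simp

lemma sum_sol {A : Type} [CommRing A] (N : Matrix (Fin 3) (Fin 4) A) (i j : Fin 3) (c d a : Fin 4)
    (hac : a ≠ c) (had : a ≠ d) (hcd : c ≠ d) (x : Fin 4 → A) :
    ∑ k, x k * sol N i j c d a k =
      x a * mnr2 N i j c d - x c * mnr2 N i j a d - x d * mnr2 N i j c a := by
  classical
  have h : ∀ k, x k * sol N i j c d a k = (if k = a then x a * mnr2 N i j c d else 0) +
      ((if k = c then -(x c * mnr2 N i j a d) else 0) +
        (if k = d then -(x d * mnr2 N i j c a) else 0)) := by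
    intro k
    simp only [sol]
    by_cases h1 : k = a
    · subst h1
      simp [hac, had]
    · by_cases h2 : k = c
      · subst h2
        simp [h1, hcd]
      · by_cases h3 : k = d
        · subst h3
          simp [h1, h2]
        · simp [h1, h2, h3]
  simp only [h, Finset.sum_add_distrib, Finset.sum_ite_eq', Finset.mem_univ, if_true]
  ring

lemma sol_left {A : Type} [CommRing A] (N : Matrix (Fin 3) (Fin 4) A) (i j : Fin 3) (c d a : Fin 4)
    (hac : a ≠ c) (had : a ≠ d) (hcd : c ≠ d) : ∑ k, N i k * sol N i j c d a k = 0 := by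
  rw [sum_sol N i j c d a hac had hcd]
  simp only [mnr2]
  ring

lemma sol_right {A : Type} [CommRing A] (N : Matrix (Fin 3) (Fin 4) A) (i j : Fin 3) (c d a : Fin 4)
    (hac : a ≠ c) (had : a ≠ d) (hcd : c ≠ d) : ∑ k, N j k * sol N i j c d a k = 0 := by
  rw [sum_sol N i j c d a hac had hcd]
  simp only [mnr2]
  ring

lemma exists_compl' : ∀ c d : Fin 4, c ≠ d → ∃ a b : Fin 4, a ≠ b ∧ a ≠ c ∧ a ≠ d ∧ b ≠ c ∧ b ≠ d ∧
    ∀ k, k = a ∨ k = b ∨ k = c ∨ k = d := by
  decide

/-- A vector killed by two rows is a combination of the two solutions. -/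
lemma eq_sol {K : Type} [Field K] (N : Matrix (Fin 3) (Fin 4) K) (i j : Fin 3) (c d a b : Fin 4)
    (hab : a ≠ b) (hac : a ≠ c) (had : a ≠ d) (hbc : b ≠ c) (hbd : b ≠ d) (hcd : c ≠ d)
    (hall : ∀ k, k = a ∨ k = b ∨ k = c ∨ k = d) (hm : mnr2 N i j c d ≠ 0) (v : Fin 4 → K)
    (hi : ∑ k, N i k * v k = 0) (hj : ∑ k, N j k * v k = 0) :
    v = fun k => v a / mnr2 N i j c d * sol N i j c d a k +
      v b / mnr2 N i j c d * sol N i j c d b k := by
  classical
  have hsum : ∀ x : Fin 4 → K, ∑ k, x k * v k = x a * v a + x b * v b + x c * v c + x d * v d := by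
    intro x
    have h : ∀ k, x k * v k = (if k = a then x a * v a else 0) + ((if k = b then x b * v b else 0) +
        ((if k = c then x c * v c else 0) + (if k = d then x d * v d else 0))) := by
      intro k
      rcases hall k with h | h | h | h
      · subst h; simp [hab, hac, had]
      · subst h; simp [hab.symm, hbc, hbd]
      · subst h; simp [hac.symm, hbc.symm, hcd]
      · subst h; simp [had.symm, hbd.symm, hcd.symm]
    rw [Finset.sum_congr rfl fun k _ => h k]
    simp only [Finset.sum_add_distrib, Finset.sum_ite_eq', Finset.mem_univ, if_true]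
    ring
  rw [hsum] at hi hj
  funext k
  rcases hall k with h | h | h | h
  · subst h
    simp only [sol, if_true, if_neg hab, if_neg hac, if_neg had]
    field_simp
    ring
  · subst h
    simp only [sol, if_true, if_neg hab.symm, if_neg hbc, if_neg hbd]
    field_simp
    ring
  · subst h
    simp only [sol, if_neg hac.symm, if_neg hbc.symm, if_true]
    field_simp
    simp only [mnr2]
    linear_combination N j d * hi - N i d * hj
  · subst h
    simp only [sol, if_neg had.symm, if_neg hbd.symm, if_neg hcd.symm, if_true]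
    field_simp
    simp only [mnr2]
    linear_combination N i c * hj - N j c * hi

section

variable {κ : Type} [Field κ] [Algebra ℂ κ] {τ : Fin 3 → κ} {W : Submodule κ (Fin 4 → κ)}
  {g : R3}

/-- The points of the scroll over a non-constant point of the curve. -/
theorem aeval_scroll (hτ : ∀ p : R3, aeval τ p = 0 ↔ g ∣ p) (N : Matrix (Fin 3) (Fin 4) R3)
    (hW : Module.finrank κ W = 2) (hWN : ∀ w ∈ W, ∀ j, ∑ k, aeval τ (N j k) * w k = 0)
    (i j : Fin 3) (c d : Fin 4) (hnd : ¬ g ∣ mnr2 N i j c d)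
    {k : Type} [Field k] [Algebra ℂ k] (t : Fin 3 → k) (hgt : aeval t g = 0)
    (hμ : aeval t (mnr2 N i j c d) ≠ 0) (v : Fin 4 → k)
    (hv : ∀ j, ∑ l, aeval t (N j l) * v l = 0) (p : MvPolynomial (Fin 6) ℂ)
    (hp : p ∈ scrollIdeal τ W) : aeval (wvec t v) p = 0 := by
  classical
  have hcd : c ≠ d := by
    rintro rfl
    apply hnd
    have : mnr2 N i j c c = 0 := by simp only [mnr2]; ring
    rw [this]
    exact dvd_zero g
  obtain ⟨a, b, hab, hac, had, hbc, hbd, hall⟩ := exists_compl' c d hcd
  have hμτ : aeval τ (mnr2 N i j c d) ≠ 0 := fun h => hnd ((hτ _).mp h)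
  -- the two solutions lie in `W`
  set Nτ : Matrix (Fin 3) (Fin 4) κ := N.map ((aeval τ : R3 →ₐ[ℂ] κ) : R3 →+* κ) with hNτ
  set Nt : Matrix (Fin 3) (Fin 4) k := N.map ((aeval t : R3 →ₐ[ℂ] k) : R3 →+* k) with hNt
  have hmτ : mnr2 Nτ i j c d ≠ 0 := by
    have h1 : mnr2 Nτ i j c d = aeval τ (mnr2 N i j c d) := by
      simp only [mnr2, hNτ, Matrix.map_apply, map_sub, map_mul]
      rfl
    rwa [h1]
  have hmt : mnr2 Nt i j c d ≠ 0 := by
    have h1 : mnr2 Nt i j c d = aeval t (mnr2 N i j c d) := by
      simp only [mnr2, hNt, Matrix.map_apply, map_sub, map_mul]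
      rfl
    rwa [h1]
  let f : (Fin 4 → κ) →ₗ[κ] (Fin 2 → κ) :=
    { toFun := fun w => ![∑ l, Nτ i l * w l, ∑ l, Nτ j l * w l]
      map_add' := by
        intro x y
        funext r
        fin_cases r
        · simp [mul_add, Finset.sum_add_distrib]
        · simp [mul_add, Finset.sum_add_distrib]
      map_smul' := by
        intro x y
        funext r
        fin_cases r
        · change ∑ l, Nτ i l * (x * y l) = x * ∑ l, Nτ i l * y l
          rw [Finset.mul_sum]
          exact Finset.sum_congr rfl fun l _ => by ring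
        · change ∑ l, Nτ j l * (x * y l) = x * ∑ l, Nτ j l * y l
          rw [Finset.mul_sum]
          exact Finset.sum_congr rfl fun l _ => by ring }
  have hker : ∀ w, w ∈ LinearMap.ker f ↔ ∑ l, Nτ i l * w l = 0 ∧ ∑ l, Nτ j l * w l = 0 := by
    intro w
    rw [LinearMap.mem_ker]
    constructor
    · intro h
      exact ⟨congrFun h 0, congrFun h 1⟩
    · rintro ⟨h1, h2⟩
      funext r
      fin_cases r
      · exact h1
      · exact h2
  have hWker : W = LinearMap.ker f := by
    apply Submodule.eq_of_le_of_finrank_le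
    · intro w hw
      rw [hker]
      exact ⟨hWN w hw i, hWN w hw j⟩
    · rw [hW]
      let g2 : LinearMap.ker f →ₗ[κ] (Fin 2 → κ) :=
        (LinearMap.pi ![LinearMap.proj a, LinearMap.proj b]).comp (LinearMap.ker f).subtype
      have hg2 : Function.Injective g2 := by
        rw [injective_iff_map_eq_zero]
        rintro ⟨w, hw⟩ h0
        have ha0 : w a = 0 := congrFun h0 0
        have hb0 : w b = 0 := congrFun h0 1
        rw [hker] at hw
        have h1 := eq_sol Nτ i j c d a b hab hac had hbc hbd hcd hall hmτ w hw.1 hw.2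
        rw [ha0, hb0] at h1
        apply Subtype.ext
        change w = 0
        funext l
        have h2 := congrFun h1 l
        simpa using h2
      have h2 := LinearMap.finrank_le_finrank_of_injective hg2
      simpa using h2
  have hsolW : ∀ α β : κ, (fun l => α * sol Nτ i j c d a l + β * sol Nτ i j c d b l) ∈ W := by
    intro α β
    rw [hWker, hker]
    constructor
    · have h1 : ∀ l, Nτ i l * (α * sol Nτ i j c d a l + β * sol Nτ i j c d b l) =
          α * (Nτ i l * sol Nτ i j c d a l) + β * (Nτ i l * sol Nτ i j c d b l) := fun l => by ring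
      simp only [h1, Finset.sum_add_distrib, ← Finset.mul_sum]
      rw [sol_left Nτ i j c d a hac had hcd, sol_left Nτ i j c d b hbc hbd hcd]
      ring
    · have h1 : ∀ l, Nτ j l * (α * sol Nτ i j c d a l + β * sol Nτ i j c d b l) =
          α * (Nτ j l * sol Nτ i j c d a l) + β * (Nτ j l * sol Nτ i j c d b l) := fun l => by ring
      simp only [h1, Finset.sum_add_distrib, ← Finset.mul_sum]
      rw [sol_right Nτ i j c d a hac had hcd, sol_right Nτ i j c d b hbc hbd hcd]
      ring
  -- the polynomial in two parameters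
  let P := MvPolynomial (Fin 2) R3
  set Φ : P := aeval (wvec (fun r => (C (X r) : P)) (fun l => X 0 * C (sol N i j c d a l) +
    X 1 * C (sol N i j c d b l))) p with hΦ
  have hev : ∀ {F : Type} [Field F] [Algebra ℂ F] (s : Fin 3 → F) (α β : F),
      eval₂Hom ((aeval s : R3 →ₐ[ℂ] F) : R3 →+* F) ![α, β] Φ =
        aeval (wvec s (fun l =>
          α * sol (N.map ((aeval s : R3 →ₐ[ℂ] F) : R3 →+* F)) i j c d a l +
          β * sol (N.map ((aeval s : R3 →ₐ[ℂ] F) : R3 →+* F)) i j c d b l)) p := by
    intro F _ _ s α β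
    set ψ : P →+* F := eval₂Hom ((aeval s : R3 →ₐ[ℂ] F) : R3 →+* F) ![α, β] with hψ
    have hψC : ∀ q : R3, ψ (C q) = aeval s q := fun q => eval₂Hom_C _ _ _
    have hψX : ∀ r, ψ (X r) = ![α, β] r := fun r => eval₂Hom_X' _ _ _
    let ψ' : P →ₐ[ℂ] F :=
      { ψ with
        commutes' := fun z => by
          have h1 : (algebraMap ℂ P z) = C (algebraMap ℂ R3 z) := rfl
          change ψ (algebraMap ℂ P z) = _
          rw [h1, hψC]
          exact (aeval s : R3 →ₐ[ℂ] F).commutes z }
    have h1 := MvPolynomial.comp_aeval_apply (R := ℂ)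
      (wvec (fun r => (C (X r) : P)) (fun l => X 0 * C (sol N i j c d a l) +
        X 1 * C (sol N i j c d b l))) ψ' p
    change ψ Φ = _ at h1
    rw [h1]
    congr 2
    have hl : ∀ l, ψ (X 0 * C (sol N i j c d a l) + X 1 * C (sol N i j c d b l)) =
        α * sol (N.map ((aeval s : R3 →ₐ[ℂ] F) : R3 →+* F)) i j c d a l +
          β * sol (N.map ((aeval s : R3 →ₐ[ℂ] F) : R3 →+* F)) i j c d b l := by
      intro l
      rw [map_add, map_mul, map_mul, hψX, hψX, hψC, hψC, ← sol_map, ← sol_map]
      rfl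
    funext r
    have hr : ∀ r : Fin 3, ψ ((X 0 * C (sol N i j c d a 0) + X 1 * C (sol N i j c d b 0)) *
        C (X r)) = (α * sol (N.map ((aeval s : R3 →ₐ[ℂ] F) : R3 →+* F)) i j c d a 0 +
          β * sol (N.map ((aeval s : R3 →ₐ[ℂ] F) : R3 →+* F)) i j c d b 0) * s r := by
      intro r
      rw [map_mul, hl, hψC, aeval_X]
    fin_cases r
    · exact hr 0
    · exact hr 1
    · exact hr 2
    · exact hl 1
    · exact hl 2
    · exact hl 3
  have hκinf : Infinite κ := Infinite.of_injective _ (algebraMap ℂ κ).injective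
  have hΦκ : MvPolynomial.map ((aeval τ : R3 →ₐ[ℂ] κ) : R3 →+* κ) Φ = 0 := by
    apply MvPolynomial.funext
    intro x
    rw [map_zero, eval_map]
    have h1 := hev τ (x 0) (x 1)
    have h2 : (![x 0, x 1] : Fin 2 → κ) = x := by
      funext r
      fin_cases r <;> rfl
    rw [h2] at h1
    have h3 := hp _ (hsolW (x 0) (x 1))
    rw [h3] at h1
    exact h1
  have hΦk : MvPolynomial.map ((aeval t : R3 →ₐ[ℂ] k) : R3 →+* k) Φ = 0 := by
    ext e
    rw [coeff_map, coeff_zero]
    have h1 := congrArg (coeff e) hΦκ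
    rw [coeff_map, coeff_zero] at h1
    obtain ⟨q, hq⟩ := (hτ _).mp h1
    rw [hq]
    change aeval t (g * q) = 0
    rw [map_mul, hgt, zero_mul]
  have h1 := hev t (v a / mnr2 Nt i j c d) (v b / mnr2 Nt i j c d)
  have h2 := eq_sol Nt i j c d a b hab hac had hbc hbd hcd hall hmt v (hv i) (hv j)
  rw [← h2] at h1
  rw [← h1]
  change eval₂ _ _ Φ = 0
  rw [← eval_map, hΦk, map_zero]

/-- There is no point of the scroll, of odd degree, on the generic linear subspace. -/
theorem no_generic (hτ : ∀ p : R3, aeval τ p = 0 ↔ g ∣ p) (N : Matrix (Fin 3) (Fin 4) R3)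
    (hW : Module.finrank κ W = 2) (hWN : ∀ w ∈ W, ∀ j, ∑ k, aeval τ (N j k) * w k = 0)
    (i j : Fin 3) (c d : Fin 4) (hnd : ¬ g ∣ mnr2 N i j c d)
    {s : ℕ} (hs : Even s) (hdeg : HasDegree (scrollIdeal τ W) s)
    {k : Type} [Field k] [Algebra ℂ k] [Algebra RatK k] [Algebra PF k]
    [IsScalarTower ℂ RatK k] [IsScalarTower RatK PF k] (hodd : Odd (Module.finrank PF k))
    (t : Fin 3 → k) (hgt : aeval t g = 0)
    (hμ : aeval t (mnr2 N i j c d) ≠ 0) (ht : t ≠ 0) (v : Fin 4 → k) (hv0 : v ≠ 0)
    (hv : ∀ j, ∑ l, aeval t (N j l) * v l = 0)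
    (hl : ∀ i, ∑ a, algebraMap PF k (gl i a) * wvec t v a = 0) : False := by
  classical
  obtain ⟨r, hr⟩ : ∃ r, wvec t v r ≠ 0 := by
    by_contra h
    push Not at h
    have h0 : ∀ i, v 0 * t i = 0 := by
      intro i
      fin_cases i
      · exact h 0
      · exact h 1
      · exact h 2
    have h1 : v 1 = 0 := h 3
    have h2 : v 2 = 0 := h 4
    have h3 : v 3 = 0 := h 5
    apply hv0
    funext l
    fin_cases l
    · by_contra h4
      apply ht
      funext i
      exact (mul_eq_zero.mp (h0 i)).resolve_left h4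
    · exact h1
    · exact h2
    · exact h3
  set q := (wvec t v r)⁻¹ with hq
  have hw : wvec t (q • v) = q • wvec t v := by
    funext l
    fin_cases l <;> simp [wvec, mul_assoc]
  have h1 := hdeg.2 k (fun i a => algebraMap PF k (gl i a)) (wvec t (q • v))
    ((sum_indep k).comp Sum.inl Sum.inl_injective) ⟨r, by
      rw [hw, Pi.smul_apply, smul_eq_mul, hq, inv_mul_cancel₀ hr]⟩
    (fun p hp => aeval_scroll hτ N hW hWN i j c d hnd t hgt hμ (q • v) (fun j => by
      have h2 : ∀ l, aeval t (N j l) * (q • v) l = q * (aeval t (N j l) * v l) := fun l => by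
        simp only [Pi.smul_apply, smul_eq_mul]
        ring
      simp only [h2, ← Finset.mul_sum]
      rw [hv, mul_zero]) p hp)
    (fun i => by
      rw [hw]
      have h2 : ∀ a, algebraMap PF k (gl i a) * (q • wvec t v) a =
          q * (algebraMap PF k (gl i a) * wvec t v a) := fun a => by
        simp only [Pi.smul_apply, smul_eq_mul]
        ring
      simp only [h2, ← Finset.mul_sum]
      rw [hl, mul_zero])
  refine not_even hodd (Set.range (wvec t (q • v))) ?_ ?_
  · exact h1 ▸ hs
  · exact h1 ▸ hdeg.1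

end

end Vale.Agent.P287.H69
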