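import Vale.Agent.P287.H69.GenusB

/-!
The number of sections of the theta characteristic of an odd splitting curve is even if and only
if the arithmetic genus of one half of the split curve is odd.
-/

namespace Vale.Agent.P287.H69

open Polynomial Matrix Module Vale.Agent.P287 Vale.Agent.P287.Theta Vale.Agent.P287.Odd
  Vale.Agent.P287.H946 Vale.Agent.P287.H621 Vale.Agent.P287.H597

/-- The arithmetic genus `p` of the curve `D` of degree `n` with homogeneous coordinate ring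
`ℂ[x₀, x₁, x₂, s / c]`, in the function field of `g = 0`. -/
def HasGenus (g c s : R3) (n p : ℕ) : Prop := ∃ t₀ : ℕ, ∀ t ≥ t₀,
  finrank ℂ (MvPolynomial.homogeneousSubmodule (Fin 3) ℂ (t + 3)) +
    finrank ℂ (MvPolynomial.homogeneousSubmodule (Fin 3) ℂ t) + p =
      finrank ℂ (Rel g c s t) + n * (t + 3) + 1

lemma two_mul_choose (a : ℕ) : 2 * (a + 1).choose 2 = (a + 1) * a := by
  have h1 := Nat.choose_two_right (a + 1)
  rw [Nat.add_sub_cancel] at h1
  rw [h1, Nat.mul_div_cancel' (by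
    have := Nat.even_mul_pred_self (a + 1)
    rw [Nat.add_sub_cancel] at this
    exact this.two_dvd)]

lemma genus_arith {m p δ l R : ℕ} {t : ℕ} (ht : t + 3 = 2 * m + 1 + l)
    (h1 : (t + 3 + 2).choose 2 + (t + 2).choose 2 + p = R + (2 * m + 1) * (t + 3) + 1)
    (h2 : ∃ C, R = C + (l + 2).choose 2 ∧ C + δ = (t + 2).choose 2) :
    p + δ = m * (2 * m - 1) := by
  obtain ⟨C, hC, hC'⟩ := h2
  have e1 := two_mul_choose (t + 4)
  have e2 := two_mul_choose (l + 1)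
  have e3 : t + 3 + 2 = t + 4 + 1 := by omega
  rw [e3] at h1
  have e4 : l + 2 = l + 1 + 1 := by omega
  rw [e4] at hC
  have e5 : t = 2 * m + l - 2 := by omega
  rcases Nat.eq_zero_or_pos m with hm | hm
  · subst hm
    have e6 : l = t + 2 := by omega
    subst e6
    have e7 : t + 2 + 1 + 1 = t + 4 := by omega
    rw [e7] at hC e2
    have e8 := two_mul_choose (t + 3)
    have e9 : t + 3 + 1 = t + 4 := by omega
    rw [e9] at e8
    simp only [mul_zero, zero_add, one_mul, Nat.zero_sub] at *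
    nlinarith
  · obtain ⟨a, rfl⟩ : ∃ a, m = a + 1 := ⟨m - 1, by omega⟩
    have e6 : t = 2 * a + l := by omega
    subst e6
    have e7 : 2 * (a + 1) - 1 = 2 * a + 1 := by omega
    rw [e7]
    nlinarith

lemma parity_arith {m a δ p : ℕ} (hm : 2 ≤ m)
    (h : Even ((m - 1 + 2).choose 2 + (a + (m + 2 - 4).choose 2) + δ))
    (hp : p + δ = m * (2 * m - 1)) : Even a ↔ Odd p := by
  obtain ⟨m', rfl⟩ : ∃ m', m = m' + 2 := ⟨m - 2, by omega⟩
  have e1 : m' + 2 - 1 + 2 = m' + 2 + 1 := by omega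
  have e2 : m' + 2 + 2 - 4 = m' := by omega
  have e3 : (m' + 2) * (2 * (m' + 2) - 1) = 2 * m' ^ 2 + 7 * m' + 6 := by
    have : 2 * (m' + 2) - 1 = 2 * m' + 3 := by omega
    rw [this]
    ring
  have h1 := two_mul_choose (m' + 2)
  have h2 : 2 * m'.choose 2 + m' = m' * m' := by
    rcases Nat.eq_zero_or_pos m' with h0 | h0
    · subst h0
      simp
    · obtain ⟨b, rfl⟩ : ∃ b, m' = b + 1 := ⟨m' - 1, by omega⟩
      have := two_mul_choose b
      nlinarith
  obtain ⟨q, hq⟩ := Nat.even_mul_succ_self m'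
  rw [e1, e2] at h
  rw [e3] at hp
  have h3 : (m' + 2 + 1) * (m' + 2) = m' ^ 2 + 5 * m' + 6 := by ring
  have h4 : m' * (m' + 1) = m' ^ 2 + m' := by ring
  have h5 : m' * m' = m' ^ 2 := by ring
  rw [h3] at h1
  rw [h4] at hq
  rw [h5] at h2
  rw [Nat.even_iff] at h ⊢
  rw [Nat.odd_iff]
  omega

theorem genus_parity {f g c s : R3} {m e₀ : ℕ} (hf : f.IsHomogeneous 6) (hs : SmoothTernary f)
    (hm : 2 ≤ m) (hg : g.IsHomogeneous (2 * m + 1)) (hgi : Irreducible g) (hgf : ¬ g ∣ f)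
    (hc : c.IsHomogeneous e₀) (hgc : ¬ g ∣ c) (hsh : s.IsHomogeneous (e₀ + 3))
    (hsq : g ∣ c ^ 2 * f - s ^ 2) {p : ℕ} (hp : HasGenus g c s (2 * m + 1) p)
    (H : H684.CurvePair f g (2 * m + 1)) (hk : 2 * m + 1 ≤ 2 * (m + 2)) :
    Even (finrank ℂ ((H.J (m + 2) hk).map (H684.modf f))) ↔ Odd p := by
  have hgfc : ¬ g ∣ f * c := fun h => (hgi.prime.dvd_or_dvd h).elim hgf hgc
  obtain ⟨T, S, v, hT⟩ := H270.OddCoord.exists_coords_pair hg (by omega) hgi (hf.mul hc) hgfc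
  have hTS := hT.inv
  have hv := hT.v_ne
  obtain ⟨-, hcc, α, β, γ, hl⟩ := hT.facts hf hc
  have hCu := H270.OddCoord.curve_frame (c := (1 : ℂ)) hf (by omega) hg hgi hgf one_ne_zero hc hT
  have e1 : C (C (1 : ℂ)) * H270.OddCoord.chi T f = ch T f := by
    rw [C_1, C_1, one_mul]
    rfl
  rw [e1] at hCu
  obtain ⟨g', hg'⟩ : ∃ g', g' = C (C v) * ch T g := ⟨_, rfl⟩
  have e2 : C (C v) * H270.OddCoord.chi T g = g' := hg'.symm
  rw [e2] at hCu hl hcc
  have hdv : g' ∣ ch T c ^ 2 * ch T f - ch T s ^ 2 := by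
    rw [← map_pow, ← map_mul, ← map_pow, ← map_sub]
    have h6 : (c ^ 2 * f - s ^ 2).IsHomogeneous (2 * e₀ + 6) := by
      have h7 := (hc.pow 2).mul hf
      have h8 := hsh.pow 2
      rw [show e₀ * 2 + 6 = 2 * e₀ + 6 by ring] at h7
      rw [show (e₀ + 3) * 2 = 2 * e₀ + 6 by ring] at h8
      exact h7.sub h8
    exact (ch_dvd_iff hTS hv hg (by omega) hgi hg' h6).mpr hsq
  have hsqm : SquareMod f g := ⟨e₀, s, c, hc, hgc, hsq⟩
  obtain ⟨J, hJ, hHalf⟩ := stmtJ0 m g f T S v (-1) hTS hv (neg_ne_zero.mpr one_ne_zero) hm hf hs hg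
    hgi hgf hsqm (by
      have e3 : C (C (-(-1) : ℂ)) * dh (sb T f) = ch T f := by
        rw [neg_neg, C_1, C_1, one_mul]
        rfl
      have e4 : C (C v) * dh (sb T g) = g' := hg'.symm
      rw [e3, e4]
      exact hCu)
  have e3 : C (C (-(-1) : ℂ)) * dh (sb T f) = ch T f := by
    rw [neg_neg, C_1, C_1, one_mul]
    rfl
  have e4 : C (C v) * dh (sb T g) = g' := hg'.symm
  rw [e3, e4] at hHalf
  simp only [e3, e4] at hJ
  have hW : Wd (2 * m + 1) g' := hCu.wd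
  have hinf : InfUnit (2 * m + 1) g' e₀ (ch T c) :=
    H684.infUnit_of_coprime hCu.monic hCu.deg hW (Wd_iff_TD.mpr (TD_ch hc)) hcc
  have hline : ∃ α β γ : ℂ[X][X], α * ch T c + β * g' + γ * C X = 1 :=
    ⟨α * ch T f, β, γ, hl⟩
  have hJ' : ∀ a, a ^ 2 ∈ Ideal.span {ch T f, g'} → a ∈ J := by
    intro a ha
    rw [hJ]
    exact ha
  obtain ⟨hfin, hpar⟩ := parity_two (by omega) hCu hHalf hJ' hinf (Wd_iff_TD.mpr (TD_ch hsh)) hdv
    hline
  -- the codimension of the conductor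
  have hgc' : g' ∈ cond g' (ch T c) (ch T s) :=
    ⟨0, by rw [mul_zero, zero_sub]; exact (dvd_mul_left g' _).neg_right⟩
  obtain ⟨d₀, hd₀⟩ := finrank_inf_PT (k := ℂ) hCu.monic hCu.deg hW hgc'
  obtain ⟨t₀, ht₀⟩ := hp
  obtain ⟨t, ht⟩ : ∃ t, t = d₀ + t₀ + 2 * m + 1 := ⟨_, rfl⟩
  obtain ⟨l, hl'⟩ : ∃ l, t + 3 = 2 * m + 1 + l := ⟨t + 3 - (2 * m + 1), by omega⟩
  have hR := finrank_Rel_chart hTS hv hg (by omega) hgi hc hgc hsh hg' hCu.monic hCu.deg hW hinf l
    hl'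
  have hR2 := hd₀ t (by omega)
  have hR3 := ht₀ t (by omega)
  rw [H684.finrank_homog, H684.finrank_homog] at hR3
  have hpδ := genus_arith hl' hR3 ⟨_, hR, hR2⟩
  -- the sections
  have hJd : finrank ℂ (J.restrictScalars ℂ ⊓ En (2 * m + 1) (m - 1 + 3) :
      Submodule ℂ ℂ[X][X]) = finrank ℂ (H.J (m + 2) hk) := by
    rw [← finrank_map_of_inj (ch T).toLinearMap (H.J (m + 2) hk) (fun b hb h0 =>
      ch_inj hTS (H.mem_J.mp hb).1 (MvPolynomial.isHomogeneous_zero _ _ _)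
        (by rw [map_zero]; exact h0))]
    suffices hkey : (J.restrictScalars ℂ ⊓ En (2 * m + 1) (m - 1 + 3) :
        Submodule ℂ ℂ[X][X]) = (H.J (m + 2) hk).map (ch T).toLinearMap by rw [hkey]
    have e5 : m - 1 + 3 = m + 2 := by omega
    rw [e5, En_eq_PT (by omega)]
    ext b'
    constructor
    · rintro ⟨h2, h3⟩
      obtain ⟨b, hb, rfl⟩ := ch_surj hTS (Wd_iff_TD.mp (mem_PT_iff.mp h3))
      refine ⟨b, H.mem_J.mpr ⟨hb, ?_⟩, rfl⟩
      have h4 := (hJ _).mp h2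
      rw [← map_pow] at h4
      rw [Ideal.span_pair_comm]
      refine mem_of_ch (u := 1) hTS hf hg (by rw [C_1, C_1, one_mul]) hg' hCu (hb.pow 2)
        (by omega) (by omega) h4
    · rintro ⟨b, hb, rfl⟩
      obtain ⟨h2, h3⟩ := H.mem_J.mp hb
      refine ⟨(hJ _).mpr ?_, mem_PT_iff.mpr (Wd_iff_TD.mpr (TD_ch h2))⟩
      obtain ⟨x, y, hxy⟩ := Ideal.mem_span_pair.mp h3
      obtain ⟨w, hw⟩ := (isUnit_CC'' hv).exists_left_inv
      refine Ideal.mem_span_pair.mpr ⟨ch T y, ch T x * w, ?_⟩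
      change _ = ch T b ^ 2
      rw [← map_pow, ← hxy, map_add, map_mul, map_mul, hg']
      linear_combination (ch T x * ch T g) * hw
  have hE : finrank ℂ (En (2 * m + 1) (m - 1) : Submodule ℂ ℂ[X][X]) = (m - 1 + 2).choose 2 := by
    rw [En_eq_PT (by omega), H684.finrank_PT]
  rw [hJd, hE, H.finrank_J] at hpar
  generalize finrank ℂ ((H.J (m + 2) hk).map (H684.modf f)) = a at hpar
  generalize finrank ℂ (ℂ[X][X] ⧸ cond g' (ch T c) (ch T s)) = δ at hpar hpδ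
  exact parity_arith hm hpar hpδ

end Vale.Agent.P287.H69
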