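import Vale.Agent.P287.H69.GenusA

/-!
The arithmetic genus of one half of the split curve: from the forms to the chart.
-/

namespace Vale.Agent.P287.H69

open Polynomial Matrix Module Vale.Agent.P287 Vale.Agent.P287.Theta Vale.Agent.P287.Odd
  Vale.Agent.P287.H946 Vale.Agent.P287.H621

lemma isUnit_CC'' {v : ℂ} (hv : v ≠ 0) : IsUnit (C (C v) : ℂ[X][X]) :=
  H270.OddCoord.isUnit_CC hv

variable {f g c s : R3} {n m e₀ : ℕ} {T S : Matrix (Fin 3) (Fin 3) ℂ} {v : ℂ} {g' : ℂ[X][X]}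

lemma ch_dvd_iff (hTS : T * S = 1) (hv : v ≠ 0) (hg : g.IsHomogeneous n) (hn : 2 ≤ n)
    (hgi : Irreducible g) (hg' : g' = C (C v) * ch T g) {P : R3} {d : ℕ}
    (hP : P.IsHomogeneous d) : g' ∣ ch T P ↔ g ∣ P := by
  rw [hg', (isUnit_CC'' hv).mul_left_dvd]
  constructor
  · intro h
    exact (sb_dvd_iff hTS).1 (dvd_of_dh_dvd' (sb_homog T hg) (by omega)
      (sb_irreducible hTS hgi) (sb_homog T hP) h)
  · intro h
    exact _root_.map_dvd (ch T) h

theorem finrank_Rel_chart (hTS : T * S = 1) (hv : v ≠ 0) (hg : g.IsHomogeneous n) (hn : 2 ≤ n)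
    (hgi : Irreducible g) (hc : c.IsHomogeneous e₀) (hgc : ¬ g ∣ c)
    (hs : s.IsHomogeneous (e₀ + 3)) (hg' : g' = C (C v) * ch T g) (hmon : g'.Monic)
    (hdeg : g'.natDegree = n) (hW : Wd n g') (hinf : InfUnit n g' e₀ (ch T c)) (l : ℕ)
    {t : ℕ} (ht : t + 3 = n + l) :
    finrank ℂ (Rel g c s t) =
      finrank ℂ ((cond g' (ch T c) (ch T s)).restrictScalars ℂ ⊓ H684.PT ℂ t :
        Submodule ℂ ℂ[X][X]) + (l + 2).choose 2 := by
  have h1 := finrank_map_add (LinearMap.snd ℂ R3 R3) (Rel g c s t)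
  rw [← h1]
  congr 1
  · -- the coefficients `b`
    set B := (Rel g c s t).map (LinearMap.snd ℂ R3 R3) with hB
    have hBm : ∀ b, b ∈ B ↔ b.IsHomogeneous t ∧
        ∃ a : R3, a.IsHomogeneous (t + 3) ∧ g ∣ c * a + s * b := by
      intro b
      rw [hB]
      constructor
      · rintro ⟨w, ⟨h2, h3, h4⟩, rfl⟩
        exact ⟨h3, w.1, h2, h4⟩
      · rintro ⟨h2, a, h3, h4⟩
        exact ⟨(a, b), ⟨h3, h2, h4⟩, rfl⟩
    have hBfin : Module.Finite ℂ B :=
      Submodule.finiteDimensional_of_le (S₂ := MvPolynomial.homogeneousSubmodule (Fin 3) ℂ t)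
        fun b hb => ((hBm b).mp hb).1
    rw [← finrank_map_of_inj (ch T).toLinearMap B (fun b hb h0 =>
      ch_inj hTS ((hBm b).mp hb).1 (MvPolynomial.isHomogeneous_zero _ _ t)
        (by rw [map_zero]; exact h0))]
    suffices hkey : B.map (ch T).toLinearMap =
        ((cond g' (ch T c) (ch T s)).restrictScalars ℂ ⊓ H684.PT ℂ t :
          Submodule ℂ ℂ[X][X]) by rw [hkey]
    ext b'
    constructor
    · rintro ⟨b, hb, rfl⟩
      obtain ⟨h2, a, h3, h4⟩ := (hBm b).mp hb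
      refine ⟨⟨-ch T a, ?_⟩, mem_PT_iff.mpr (Wd_iff_TD.mpr (TD_ch h2))⟩
      have h5 := (ch_dvd_iff hTS hv hg hn hgi hg' (d := e₀ + 3 + t) (by
        have h6 := hc.mul h3
        rw [show e₀ + (t + 3) = e₀ + 3 + t by omega] at h6
        exact h6.add (hs.mul h2))).mpr h4
      rw [map_add, map_mul, map_mul] at h5
      have h6 : ch T c * -ch T a - ch T s * (ch T).toLinearMap b =
          -(ch T c * ch T a + ch T s * ch T b) := by
        change ch T c * -ch T a - ch T s * ch T b = _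
        ring
      rw [h6]
      exact h5.neg_right
    · rintro ⟨h2, h3⟩
      have h3' := mem_PT_iff.mp h3
      obtain ⟨a', ha', hd⟩ := cond_reduce hmon hdeg hW hinf (Wd_iff_TD.mpr (TD_ch hs)) h3' h2
      obtain ⟨b, hb, rfl⟩ := ch_surj hTS (Wd_iff_TD.mp h3')
      obtain ⟨a, ha, rfl⟩ := ch_surj hTS (Wd_iff_TD.mp ha')
      refine ⟨b, (hBm b).mpr ⟨hb, -a, ha.neg, ?_⟩, rfl⟩
      have h7 : (c * -a + s * b).IsHomogeneous (e₀ + 3 + t) := by
        have h6 := hc.mul ha.neg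
        rw [show e₀ + (t + 3) = e₀ + 3 + t by omega] at h6
        exact h6.add (hs.mul hb)
      rw [← ch_dvd_iff hTS hv hg hn hgi hg' h7]
      have h8 : ch T (c * -a + s * b) = -(ch T c * ch T a - ch T s * ch T b) := by
        rw [map_add, map_mul, map_mul, map_neg]
        ring
      rw [h8]
      exact hd.neg_right
  · -- the pairs `(a, 0)`
    have hfin : Module.Finite ℂ
        (Rel g c s t ⊓ LinearMap.ker (LinearMap.snd ℂ R3 R3) : Submodule ℂ (R3 × R3)) :=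
      Submodule.finiteDimensional_of_le (S₂ := Rel g c s t) inf_le_left
    rw [← finrank_map_of_inj (LinearMap.fst ℂ R3 R3)
      (Rel g c s t ⊓ LinearMap.ker (LinearMap.snd ℂ R3 R3)) (by
        rintro w ⟨-, hw⟩ h0
        exact Prod.ext h0 hw)]
    refine finrank_mult_n hg hgi.ne_zero l fun a => ?_
    rw [← ht]
    constructor
    · rintro ⟨w, ⟨⟨h2, h3, h4⟩, h5⟩, rfl⟩
      have h5' : w.2 = 0 := h5
      rw [h5', mul_zero, add_zero] at h4
      exact ⟨h2, (hgi.prime.dvd_or_dvd h4).resolve_left hgc⟩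
    · rintro ⟨h2, h3⟩
      refine ⟨(a, 0), ⟨⟨h2, MvPolynomial.isHomogeneous_zero _ _ _, ?_⟩, rfl⟩, rfl⟩
      rw [mul_zero, add_zero]
      exact h3.mul_left _

end Vale.Agent.P287.H69
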