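import Vale.Agent.P287.H69.ResDeg
import Vale.Agent.P287.H631.Const

/-!
A line which meets a plane curve outside of a given curve.
-/

open Polynomial

namespace Vale.Agent.P287.H69

open Vale.Agent.P287 Vale.Agent.P287.H631

/-- Three unit vectors and a given vector: a basis containing the given vector. -/
lemma exists_basis (q : Fin 3 → ℂ) (hq : q ≠ 0) : ∃ a b α β : Fin 3 → ℂ,
    ∑ i, α i * a i = 1 ∧ ∑ i, α i * b i = 0 ∧ ∑ i, α i * q i = 0 ∧
    ∑ i, β i * a i = 0 ∧ ∑ i, β i * b i = 1 ∧ ∑ i, β i * q i = 0 := by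
  obtain ⟨i, hi⟩ : ∃ i, q i ≠ 0 := by
    by_contra h
    push Not at h
    exact hq (funext h)
  fin_cases i
  · have h0 : q 0 ≠ 0 := hi
    refine ⟨![0, 1, 0], ![0, 0, 1], ![-(q 1 / q 0), 1, 0], ![-(q 2 / q 0), 0, 1], ?_⟩
    simp [Fin.sum_univ_three, h0]
  · have h0 : q 1 ≠ 0 := hi
    refine ⟨![1, 0, 0], ![0, 0, 1], ![1, -(q 0 / q 1), 0], ![0, -(q 2 / q 1), 1], ?_⟩
    simp [Fin.sum_univ_three, h0]
  · have h0 : q 2 ≠ 0 := hi
    refine ⟨![1, 0, 0], ![0, 1, 0], ![1, 0, -(q 0 / q 2)], ![0, 1, -(q 1 / q 2)], ?_⟩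
    simp [Fin.sum_univ_three, h0]

/-- Given a plane curve `g = 0` and a form `μ` not divisible by `g`, there is a line which does not
meet the common zeros of `g` and `μ`. -/
theorem exists_line {n n' : ℕ} {g μ : R3} (hgp : Prime g) (hg : g.IsHomogeneous n)
    (hμ : μ.IsHomogeneous n') (hnd : ¬ g ∣ μ) :
    ∃ p0 p1 p2 η : Fin 3 → ℂ, ∑ i, η i * p0 i = 1 ∧ ∑ i, η i * p1 i = 0 ∧ ∑ i, η i * p2 i = 0 ∧
      MvPolynomial.eval p2 g ≠ 0 ∧ MvPolynomial.eval p2 μ ≠ 0 ∧ p2 ≠ 0 ∧
      (∀ c : ℂ, (fun i => p1 i + p2 i * c) ≠ 0) ∧ ∀ c : ℂ,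
        MvPolynomial.aeval (fun i => p1 i + p2 i * c) g = 0 →
          MvPolynomial.aeval (fun i => p1 i + p2 i * c) μ ≠ 0 := by
  classical
  have hμ0 : μ ≠ 0 := by
    rintro rfl
    exact hnd (dvd_zero g)
  by_cases hn : n = 0
  · exfalso
    subst hn
    have h1 := MvPolynomial.totalDegree_eq_zero_iff_eq_C.mp (hg.totalDegree hgp.ne_zero)
    apply hgp.not_isUnit
    rw [h1]
    have h2 : MvPolynomial.coeff 0 g ≠ 0 := by
      intro h
      rw [h, map_zero] at h1
      exact hgp.ne_zero h1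
    exact (IsUnit.mk0 _ h2).map MvPolynomial.C
  obtain ⟨p2, hp2⟩ : ∃ p2, MvPolynomial.eval p2 (g * μ) ≠ 0 := by
    by_contra h
    push Not at h
    apply mul_ne_zero hgp.ne_zero hμ0
    apply MvPolynomial.funext
    intro x
    rw [h x, map_zero]
  rw [map_mul] at hp2
  have hg2 : MvPolynomial.eval p2 g ≠ 0 := left_ne_zero_of_mul hp2
  have hμ2 : MvPolynomial.eval p2 μ ≠ 0 := right_ne_zero_of_mul hp2
  have hp20 : p2 ≠ 0 := by
    rintro rfl
    apply hg2
    have h1 := aeval_smul_hom hg (0 : ℂ) (0 : Fin 3 → ℂ)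
    rw [zero_pow hn, zero_mul] at h1
    have h2 : (fun i => (0 : ℂ) * (0 : Fin 3 → ℂ) i) = 0 := by
      funext i
      simp
    rw [h2] at h1
    exact h1
  obtain ⟨a, b, α, β, αa, αb, αq, βa, βb, βq⟩ := exists_basis p2 hp20
  set G := linePoly p2 (fun i => (C (a i) + C (b i) * X : ℂ[X])) g with hG
  set M := linePoly p2 (fun i => (C (a i) + C (b i) * X : ℂ[X])) μ with hM
  set K := FractionRing ℂ[X]
  set E := AlgebraicClosure K
  have hinj : Function.Injective (algebraMap ℂ[X] E) := by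
    rw [IsScalarTower.algebraMap_eq ℂ[X] K E]
    exact (algebraMap K E).injective.comp (IsFractionRing.injective ℂ[X] K)
  have hres : resultant G M ≠ 0 := by
    intro h0
    have h1 : resultant (G.map (algebraMap ℂ[X] E)) (M.map (algebraMap ℂ[X] E)) = 0 := by
      rw [natDegree_map_eq_of_injective hinj, natDegree_map_eq_of_injective hinj,
        resultant_map_map, h0, map_zero]
    rw [resultant_eq_zero_iff] at h1
    obtain ⟨_, h2⟩ := h1
    rw [Polynomial.isCoprime_iff_aeval_ne_zero_of_isAlgClosed (k := E) E] at h2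
    push Not at h2
    obtain ⟨y, hyG, hyM⟩ := h2
    set f : ℂ[X] →ₐ[ℂ] E := IsScalarTower.toAlgHom ℂ ℂ[X] E with hf
    have hval : ∀ p : R3, aeval y ((linePoly p2 (fun i => (C (a i) + C (b i) * X : ℂ[X])) p).map
        (algebraMap ℂ[X] E)) =
        MvPolynomial.aeval (fun i => f (C (a i) + C (b i) * X) + algebraMap ℂ E (p2 i) * y) p := by
      intro p
      have h3 := linePoly_map p2 f (fun i => (C (a i) + C (b i) * X : ℂ[X])) p
      have h4 : (f : ℂ[X] →+* E) = algebraMap ℂ[X] E := rfl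
      rw [h4] at h3
      rw [h3, coe_aeval_eq_eval, linePoly_eval]
    rw [hval] at hyG hyM
    obtain ⟨c, r, hcr⟩ := exists_const hgp hg hμ hnd _ hyG hyM
    have hfC : ∀ z : ℂ, f (C z) = algebraMap ℂ E z := fun z => by
      have : C z = algebraMap ℂ ℂ[X] z := rfl
      rw [this, f.commutes]
    have hlin : ∀ γ : Fin 3 → ℂ, algebraMap ℂ E (∑ i, γ i * a i) +
        algebraMap ℂ E (∑ i, γ i * b i) * f X + algebraMap ℂ E (∑ i, γ i * p2 i) * y =
        r * algebraMap ℂ E (∑ i, γ i * c i) := by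
      intro γ
      have h5 : ∀ i, algebraMap ℂ E (a i) + algebraMap ℂ E (b i) * f X +
          algebraMap ℂ E (p2 i) * y = r * algebraMap ℂ E (c i) := by
        intro i
        have h6 := congrFun hcr i
        simp only [map_add, map_mul, hfC, Pi.smul_apply, smul_eq_mul] at h6
        exact h6
      have h7 := h5 0
      have h8 := h5 1
      have h9 := h5 2
      simp only [Fin.sum_univ_three, map_add, map_mul]
      linear_combination algebraMap ℂ E (γ 0) * h7 + algebraMap ℂ E (γ 1) * h8 +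
        algebraMap ℂ E (γ 2) * h9
    have e1 := hlin α
    have e2 := hlin β
    rw [αa, αb, αq, map_one, map_zero, zero_mul, zero_mul, add_zero, add_zero] at e1
    rw [βa, βb, βq, map_one, map_zero, zero_mul, one_mul, add_zero, zero_add] at e2
    set u := ∑ i, α i * c i
    set v := ∑ i, β i * c i
    have hu : u ≠ 0 := by
      intro h
      rw [h, map_zero, mul_zero] at e1
      exact one_ne_zero e1
    have hu' : algebraMap ℂ E u ≠ 0 := by
      intro h
      rw [h, mul_zero] at e1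
      exact one_ne_zero e1
    have e3 : f (X : ℂ[X]) = f (C (v / u)) := by
      rw [hfC, map_div₀, eq_div_iff hu', e2]
      linear_combination (-algebraMap ℂ E v) * e1
    exact X_ne_C (v / u) (hinj e3)
  obtain ⟨s, hs⟩ : ∃ s : ℂ, (resultant G M).eval s ≠ 0 := by
    by_contra h
    push Not at h
    apply hres
    apply Polynomial.funext
    intro x
    rw [h x, eval_zero]
  have h1 := resultant_eval p2 hg hμ hg2 hμ2 a b s
  rw [← hG, ← hM] at h1
  rw [h1] at hs
  refine ⟨b, fun i => a i + b i * s, p2, fun i => β i - s * α i, ?_, ?_, ?_, hg2, hμ2, hp20, ?_,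
    ?_⟩
  · simp only [sub_mul, Finset.sum_sub_distrib, mul_assoc, ← Finset.mul_sum]
    rw [βb, αb]
    ring
  · have h2 : ∀ i, (β i - s * α i) * (a i + b i * s) = β i * a i + s * (β i * b i) -
        s * (α i * a i) - s * s * (α i * b i) := fun i => by ring
    simp only [h2, Finset.sum_sub_distrib, Finset.sum_add_distrib, ← Finset.mul_sum]
    rw [βa, βb, αa, αb]
    ring
  · simp only [sub_mul, Finset.sum_sub_distrib, mul_assoc, ← Finset.mul_sum]
    rw [βq, αq]
    ring
  · intro c h0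
    have h2 : ∀ i, α i * (a i + b i * s + p2 i * c) = α i * a i + s * (α i * b i) +
        c * (α i * p2 i) := fun i => by ring
    have h3 : ∑ i, α i * (a i + b i * s + p2 i * c) = 0 := by
      refine Finset.sum_eq_zero fun i _ => ?_
      have := congrFun h0 i
      simp only [Pi.zero_apply] at this
      rw [this, mul_zero]
    simp only [h2, Finset.sum_add_distrib, ← Finset.mul_sum] at h3
    rw [αa, αb, αq] at h3
    simp at h3
  · intro c hc1 hc2
    apply hs
    rw [resultant_eq_zero_iff]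
    refine ⟨Or.inl ?_, ?_⟩
    · intro h2
      have h3 := (linePoly_natDegree p2 hg (fun i => a i + b i * s) hg2).1
      rw [h2, natDegree_zero] at h3
      exact hn h3.symm
    · rintro ⟨u, v, huv⟩
      have h3 := congrArg (eval c) huv
      rw [eval_add, eval_mul, eval_mul, linePoly_eval, linePoly_eval, eval_one] at h3
      have h4 : MvPolynomial.aeval (fun i => (a i + b i * s) + algebraMap ℂ ℂ (p2 i) * c) g = 0 := hc1
      have h5 : MvPolynomial.aeval (fun i => (a i + b i * s) + algebraMap ℂ ℂ (p2 i) * c) μ = 0 := hc2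
      rw [h4, h5, mul_zero, mul_zero, add_zero] at h3
      exact one_ne_zero h3.symm

end Vale.Agent.P287.H69
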