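import Vale.Agent.P287.H69.ParamsA

/-!
A quadric surface of rank at least three over `ℂ` has no point of odd degree on a generic line.
-/

open MvPolynomial

namespace Vale.Agent.P287.H69

open Vale.Agent.P287

lemma poly_not_square {K : Type} [Field K] {p : Polynomial K} (hp : Odd p.natDegree) :
    ¬ IsSquare p := by
  rintro ⟨q, rfl⟩
  by_cases hq : q = 0
  · rw [hq, mul_zero, Polynomial.natDegree_zero] at hp
    exact Nat.not_odd_zero hp
  · rw [Polynomial.natDegree_mul hq hq] at hp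
    exact (Nat.not_odd_iff_even.mpr ⟨_, rfl⟩) hp

/-- The vectors `Z j` form a basis of the space of the `3`-plane, `G` is a left inverse. -/
theorem no_odd_point {k : Type} [Field k] [Algebra PF k] (hodd : Odd (Module.finrank PF k))
    (Z : Fin 4 → Fin 6 → RatK) (G : Fin 4 → Fin 6 → RatK)
    (hG : ∀ j j', ∑ a, G j a * Z j' a = if j = j' then 1 else 0)
    (δ : RatK) (I : RatK) (hI : I ^ 2 = -1) (c : Fin 4 → k) (hc : c ≠ 0)
    (hl : ∀ i, ∑ j, c j * algebraMap PF k (algebraMap PR PF (lv i (Z j))) = 0)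
    (hq : c 0 ^ 2 + c 1 ^ 2 + c 2 ^ 2 +
      algebraMap PF k (algebraMap RatK PF δ) * c 3 ^ 2 = 0) : False := by
  classical
  -- the coefficients of the two linear forms
  set L : Fin 2 → Fin 4 → PR := fun i j => lv i (Z j) with hL
  set Dl : Fin 4 → Fin 4 → PR := fun a b => L 0 a * L 1 b - L 0 b * L 1 a with hDl
  set φ : PR →+* k := (algebraMap PF k).comp (algebraMap PR PF) with hφ
  have hφinj : Function.Injective φ :=
    (algebraMap PF k).injective.comp (IsFractionRing.injective PR PF)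
  have hδ : algebraMap PF k (algebraMap RatK PF δ) = φ (C δ) := by
    rw [hφ, RingHom.comp_apply, ← MvPolynomial.algebraMap_eq,
      ← IsScalarTower.algebraMap_apply RatK PR PF]
  rw [hδ] at hq
  set d : Fin 4 → Fin 4 → k := fun a b => φ (Dl a b) with hd
  have hl0 : c 0 * φ (L 0 0) + c 1 * φ (L 0 1) + c 2 * φ (L 0 2) + c 3 * φ (L 0 3) = 0 := by
    have := hl 0
    rw [Fin.sum_univ_four] at this
    exact this
  have hl1 : c 0 * φ (L 1 0) + c 1 * φ (L 1 1) + c 2 * φ (L 1 2) + c 3 * φ (L 1 3) = 0 := by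
    have := hl 1
    rw [Fin.sum_univ_four] at this
    exact this
  have hdd : ∀ a b, d a b = φ (L 0 a) * φ (L 1 b) - φ (L 0 b) * φ (L 1 a) := by
    intro a b
    simp only [d, Dl, map_sub, map_mul]
  have e2 : d 2 3 * c 2 = -(d 0 3 * c 0 + d 1 3 * c 1) := by
    rw [hdd, hdd, hdd]
    linear_combination φ (L 1 3) * hl0 - φ (L 0 3) * hl1
  have e3 : d 2 3 * c 3 = d 0 2 * c 0 + d 1 2 * c 1 := by
    rw [hdd, hdd, hdd]
    linear_combination φ (L 0 2) * hl1 - φ (L 1 2) * hl0
  -- the specialisation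
  let U : Polynomial RatK := Polynomial.X
  let lam : Fin 2 → Fin 4 → Polynomial RatK :=
    ![![0, 0, 0, 1], ![0, Polynomial.C I * (U - 1), -(1 + U), 0]]
  let ev : PR →ₐ[RatK] Polynomial RatK :=
    aeval fun ia : J => ∑ j, lam ia.1 j * Polynomial.C (G j ia.2)
  have hev : ∀ i j, ev (L i j) = lam i j := by
    intro i j
    rw [hL]
    simp only [ev, lv_aeval]
    have h1 : ∀ a, (∑ j', lam i j' * Polynomial.C (G j' a)) *
        algebraMap RatK (Polynomial RatK) (Z j a) =
        ∑ j', lam i j' * Polynomial.C (G j' a * Z j a) := by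
      intro a
      rw [Finset.sum_mul]
      refine Finset.sum_congr rfl fun j' _ => ?_
      rw [Polynomial.C_mul, Polynomial.algebraMap_eq]
      ring
    simp only [h1]
    rw [Finset.sum_comm]
    simp only [← Finset.mul_sum, ← map_sum, hG]
    simp
  have hevD : ∀ a b, ev (Dl a b) = lam 0 a * lam 1 b - lam 0 b * lam 1 a := by
    intro a b
    simp only [Dl, map_sub, map_mul, hev]
  have h23 : ev (Dl 2 3) = 1 + U := by
    rw [hevD]
    simp [lam]
  have h03 : ev (Dl 0 3) = 0 := by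
    rw [hevD]; simp [lam]
  have h02 : ev (Dl 0 2) = 0 := by
    rw [hevD]; simp [lam]
  have h12 : ev (Dl 1 2) = 0 := by
    rw [hevD]; simp [lam]
  have h13 : ev (Dl 1 3) = -(Polynomial.C I * (U - 1)) := by
    rw [hevD]; simp [lam]
  have hU1 : (1 + U : Polynomial RatK) ≠ 0 := by
    intro h
    have := congrArg (fun p => Polynomial.coeff p 1) h
    simp [U, Polynomial.coeff_one] at this
  have hd23 : d 2 3 ≠ 0 := by
    intro h
    have h1 : Dl 2 3 = 0 := hφinj (by rw [map_zero]; exact h)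
    rw [h1, map_zero] at h23
    exact hU1 h23.symm
  -- the discriminant
  set al : PR := Dl 2 3 ^ 2 + Dl 0 3 ^ 2 + C δ * Dl 0 2 ^ 2 with hal
  set be : PR := 2 * (Dl 0 3 * Dl 1 3 + C δ * Dl 0 2 * Dl 1 2) with hbe
  set ga : PR := Dl 2 3 ^ 2 + Dl 1 3 ^ 2 + C δ * Dl 1 2 ^ 2 with hga
  have hbin : φ al * c 0 ^ 2 + φ be * (c 0 * c 1) + φ ga * c 1 ^ 2 = 0 := by
    have h1 : φ al = d 2 3 ^ 2 + d 0 3 ^ 2 + φ (C δ) * d 0 2 ^ 2 := by
      simp only [hal, map_add, map_mul, map_pow, d]
    have h2 : φ be = 2 * (d 0 3 * d 1 3 + φ (C δ) * d 0 2 * d 1 2) := by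
      simp only [hbe, map_add, map_mul, map_ofNat, d]
    have h3 : φ ga = d 2 3 ^ 2 + d 1 3 ^ 2 + φ (C δ) * d 1 2 ^ 2 := by
      simp only [hga, map_add, map_mul, map_pow, d]
    rw [h1, h2, h3]
    linear_combination d 2 3 ^ 2 * hq - (d 2 3 * c 2 - (d 0 3 * c 0 + d 1 3 * c 1)) * e2 -
      φ (C δ) * (d 2 3 * c 3 + (d 0 2 * c 0 + d 1 2 * c 1)) * e3
  have hsq : IsSquare (φ (be ^ 2 - 4 * al * ga)) := by
    by_cases hc1 : c 1 = 0
    · have hc0 : c 0 ≠ 0 := by
        intro hc0
        apply hc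
        rw [hc0, hc1] at e2 e3
        funext i
        fin_cases i
        · exact hc0
        · exact hc1
        · have h1 : d 2 3 * c 2 = 0 := by rw [e2]; ring
          exact (mul_eq_zero.mp h1).resolve_left hd23
        · have h1 : d 2 3 * c 3 = 0 := by rw [e3]; ring
          exact (mul_eq_zero.mp h1).resolve_left hd23
      rw [hc1] at hbin
      have h1 : φ al * c 0 ^ 2 = 0 := by linear_combination hbin
      have h2 : φ al = 0 := (mul_eq_zero.mp h1).resolve_right (pow_ne_zero 2 hc0)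
      refine ⟨φ be, ?_⟩
      rw [map_sub, map_mul, map_mul, h2, map_pow]
      ring
    · refine ⟨(2 * φ al * c 0 + φ be * c 1) / c 1, ?_⟩
      rw [map_sub, map_mul, map_mul, map_pow, map_ofNat]
      field_simp
      linear_combination -4 * φ al * hbin
  have hsq2 : IsSquare (be ^ 2 - 4 * al * ga) :=
    isSquare_of_frac (K := PF) _ (isSquare_of_odd hodd _ hsq)
  have hsq3 : IsSquare (ev (be ^ 2 - 4 * al * ga)) := hsq2.map ev
  have hval : ev (be ^ 2 - 4 * al * ga) = -16 * ((1 + U) ^ 2 * U) := by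
    have hI' : (Polynomial.C I : Polynomial RatK) ^ 2 = -1 := by
      rw [← Polynomial.C_pow, hI, Polynomial.C_neg, Polynomial.C_1]
    have h4 : ev (4 : PR) = 4 := map_ofNat ev 4
    simp only [hal, hbe, hga, map_sub, map_add, map_mul, map_pow, h23, h03, h02, h12, h13, h4]
    linear_combination (-4 * (1 + U) ^ 2 * (U - 1) ^ 2) * hI'
  rw [hval] at hsq3
  refine poly_not_square ?_ hsq3
  have hdeg : (-16 * ((1 + U) ^ 2 * U) : Polynomial RatK).natDegree = 3 := by
    have h1 : (-16 : Polynomial RatK) = Polynomial.C (-16) := by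
      rw [Polynomial.C_neg]
      congr 1
    have h2 : (1 + U : Polynomial RatK) = Polynomial.X + Polynomial.C 1 := by
      rw [Polynomial.C_1, add_comm]
    rw [h1, Polynomial.natDegree_C_mul (by norm_num), Polynomial.natDegree_mul (pow_ne_zero 2 hU1)
      Polynomial.X_ne_zero, Polynomial.natDegree_pow, h2, Polynomial.natDegree_X_add_C,
      Polynomial.natDegree_X]
  rw [hdeg]
  decide

end Vale.Agent.P287.H69
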