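import Vale.Agent.P287.H69.ParamsA

/-!
A quadratic form of rank at least two takes a non-square value at the generic point.
-/

open MvPolynomial

namespace Vale.Agent.P287.H69

open Vale.Agent.P287

lemma eq_of_totalDegree_le_one (p : MvPolynomial (Fin 2) ℂ) (hp : p.totalDegree ≤ 1) :
    p = C (coeff 0 p) + C (coeff (Finsupp.single 0 1) p) * X 0 +
      C (coeff (Finsupp.single 1 1) p) * X 1 := by
  classical
  ext m
  rw [coeff_add, coeff_add, coeff_C_mul, coeff_C_mul, coeff_C, coeff_X', coeff_X']
  by_cases h0 : m = 0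
  · subst h0
    have h1 : (Finsupp.single (0 : Fin 2) 1 : Fin 2 →₀ ℕ) ≠ 0 := by simp
    have h2 : (Finsupp.single (1 : Fin 2) 1 : Fin 2 →₀ ℕ) ≠ 0 := by simp
    rw [if_pos rfl, if_neg h1, if_neg h2]
    ring
  rw [if_neg (Ne.symm h0)]
  by_cases h1 : m = Finsupp.single 0 1
  · subst h1
    have h2 : (Finsupp.single (1 : Fin 2) 1 : Fin 2 →₀ ℕ) ≠ Finsupp.single 0 1 := by
      intro h
      have := DFunLike.congr_fun h 1
      simp at this
    rw [if_pos rfl, if_neg h2]
    ring
  by_cases h2 : m = Finsupp.single 1 1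
  · subst h2
    rw [if_pos rfl, if_neg (Ne.symm h1)]
    ring
  rw [if_neg (Ne.symm h1), if_neg (Ne.symm h2)]
  have h3 : coeff m p = 0 := by
    apply coeff_eq_zero_of_totalDegree_lt
    refine lt_of_le_of_lt hp ?_
    have h4 : ∑ i ∈ m.support, m i = m 0 + m 1 := by
      have h5 : ∑ i ∈ m.support, m i = ∑ i, m i :=
        Finset.sum_subset (Finset.subset_univ _) (fun i _ hi => Finsupp.notMem_support_iff.mp hi)
      rw [h5, Fin.sum_univ_two]
    rw [h4]
    by_contra hcon
    have h5 : m 0 + m 1 ≤ 1 := by omega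
    rcases Nat.eq_zero_or_pos (m 0) with ha | ha
    · rcases Nat.eq_zero_or_pos (m 1) with hb | hb
      · apply h0
        ext i
        fin_cases i
        · exact ha
        · exact hb
      · apply h2
        ext i
        fin_cases i
        · simp [ha]
        · simp only [Fin.mk_one, Finsupp.single_eq_same]
          omega
    · apply h1
      ext i
      fin_cases i
      · simp only [Fin.zero_eta, Finsupp.single_eq_same]
        omega
      · simp only [Fin.mk_one]
        rw [Finsupp.single_eq_of_ne (by decide)]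
        omega
  rw [h3]
  ring

/-- If the value of the symmetric matrix `S` at the generic point is a square, then `S` has rank at
most one. -/
theorem rank_le_one_of_square (S : Matrix (Fin 3) (Fin 3) ℂ) (hS : ∀ i j, S i j = S j i)
    (h : IsSquare (∑ i, ∑ j, algebraMap ℂ RatK (S i j) * (tvec i * tvec j))) :
    ∀ i j c d, S i c * S j d = S i d * S j c := by
  classical
  let x : Fin 3 → MvPolynomial (Fin 2) ℂ := ![1, X 0, X 1]
  have hx : ∀ i, algebraMap (MvPolynomial (Fin 2) ℂ) RatK (x i) = tvec i := by
    intro i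
    fin_cases i
    · exact map_one _
    · rfl
    · rfl
  set a : MvPolynomial (Fin 2) ℂ := ∑ i, ∑ j, C (S i j) * (x i * x j) with ha
  have h1 : algebraMap (MvPolynomial (Fin 2) ℂ) RatK a =
      ∑ i, ∑ j, algebraMap ℂ RatK (S i j) * (tvec i * tvec j) := by
    rw [ha, map_sum]
    refine Finset.sum_congr rfl fun i _ => ?_
    rw [map_sum]
    refine Finset.sum_congr rfl fun j _ => ?_
    rw [map_mul, map_mul, hx, hx, ← MvPolynomial.algebraMap_eq,
      ← IsScalarTower.algebraMap_apply ℂ (MvPolynomial (Fin 2) ℂ) RatK]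
  rw [← h1] at h
  obtain ⟨q, hq⟩ := isSquare_of_frac (K := RatK) a h
  have hxd : ∀ i, (x i).totalDegree ≤ 1 := by
    intro i
    fin_cases i
    · change (1 : MvPolynomial (Fin 2) ℂ).totalDegree ≤ 1
      rw [totalDegree_one]; omega
    · exact (totalDegree_X _).le
    · exact (totalDegree_X _).le
  have had : a.totalDegree ≤ 2 := by
    rw [ha]
    refine totalDegree_finsetSum_le fun i _ => totalDegree_finsetSum_le fun j _ => ?_
    refine (totalDegree_mul _ _).trans ?_
    rw [totalDegree_C, zero_add]
    refine (totalDegree_mul _ _).trans ?_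
    have := hxd i
    have := hxd j
    omega
  have hqd : q.totalDegree ≤ 1 := by
    by_cases hq0 : q = 0
    · rw [hq0]; simp
    · rw [hq, totalDegree_mul_of_isDomain hq0 hq0] at had
      omega
  set α := coeff 0 q
  set β := coeff (Finsupp.single 0 1) q
  set γ := coeff (Finsupp.single 1 1) q
  have hqe : q = C α + C β * X 0 + C γ * X 1 := eq_of_totalDegree_le_one q hqd
  let l : Fin 3 → ℂ := ![α, β, γ]
  have key : ∀ y : Fin 2 → ℂ, S 0 0 + 2 * S 0 1 * y 0 + 2 * S 0 2 * y 1 + S 1 1 * y 0 ^ 2 +
      2 * S 1 2 * (y 0 * y 1) + S 2 2 * y 1 ^ 2 = (α + β * y 0 + γ * y 1) ^ 2 := by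
    intro y
    have h2 := congrArg (eval y) hq
    rw [hqe, ha] at h2
    simp only [map_sum, map_mul, map_add, eval_C, eval_X, Fin.sum_univ_three] at h2
    have x0 : eval y (x 0) = 1 := map_one _
    have x1 : eval y (x 1) = y 0 := eval_X _
    have x2 : eval y (x 2) = y 1 := eval_X _
    rw [x0, x1, x2, hS 1 0, hS 2 0, hS 2 1] at h2
    linear_combination h2
  have k1 := key ![0, 0]
  have k2 := key ![1, 0]
  have k3 := key ![-1, 0]
  have k4 := key ![0, 1]
  have k5 := key ![0, -1]
  have k6 := key ![1, 1]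
  simp only [Matrix.cons_val_zero, Matrix.cons_val_one] at k1 k2 k3 k4 k5 k6
  have e00 : S 0 0 = α * α := by linear_combination k1
  have e01 : S 0 1 = α * β := by linear_combination (1 / 4) * k2 - (1 / 4) * k3
  have e11 : S 1 1 = β * β := by linear_combination (1 / 2) * k2 + (1 / 2) * k3 - k1
  have e02 : S 0 2 = α * γ := by linear_combination (1 / 4) * k4 - (1 / 4) * k5
  have e22 : S 2 2 = γ * γ := by linear_combination (1 / 2) * k4 + (1 / 2) * k5 - k1
  have e12 : S 1 2 = β * γ := by
    linear_combination (1 / 2) * k6 - (1 / 2) * k1 - e01 - e02 - (1 / 2) * e11 - (1 / 2) * e22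
  have hSl : ∀ i j, S i j = l i * l j := by
    intro i j
    fin_cases i <;> fin_cases j
    · exact e00
    · exact e01
    · exact e02
    · change S 1 0 = β * α
      rw [hS, e01]; ring
    · exact e11
    · exact e12
    · change S 2 0 = γ * α
      rw [hS, e02]; ring
    · change S 2 1 = γ * β
      rw [hS, e12]; ring
    · exact e22
  intro i j c d
  rw [hSl, hSl, hSl, hSl]
  ring

/-- The value of a quadratic form of rank at least two at the generic point is not a square in an
extension of odd degree of the field of generic coefficients. -/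
theorem not_square {k : Type} [Field k] [Algebra PF k] (hodd : Odd (Module.finrank PF k))
    (S : Matrix (Fin 3) (Fin 3) ℂ) (hS : ∀ i j, S i j = S j i)
    (hrk : ∃ i j c d, S i c * S j d ≠ S i d * S j c) :
    ¬ IsSquare (algebraMap PF k (algebraMap RatK PF
      (∑ i, ∑ j, algebraMap ℂ RatK (S i j) * (tvec i * tvec j)))) := by
  intro h
  obtain ⟨i, j, c, d, h0⟩ := hrk
  apply h0
  refine rank_le_one_of_square S hS ?_ i j c d
  have h1 := isSquare_of_odd hodd _ h
  set a := ∑ i, ∑ j, algebraMap ℂ RatK (S i j) * (tvec i * tvec j)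
  rw [IsScalarTower.algebraMap_apply RatK PR PF] at h1
  have h2 := isSquare_of_frac (K := PF) _ h1
  have h3 := h2.map (aeval (fun _ => (0 : RatK)) : PR →ₐ[RatK] RatK)
  rw [AlgHom.commutes] at h3
  exact h3

end Vale.Agent.P287.H69
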