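import Vale.Agent.P287.H69.Generic
import Vale.Agent.P287.H69.ParamsB
import Vale.Agent.P287.H69.ParamsC
import Vale.Agent.P287.H69.Dvr
import Vale.Agent.P287.H69.Curve

/-!
Local analysis at the point of odd degree.
-/

open MvPolynomial

namespace Vale.Agent.P287.H69

open Vale.Agent.P287 Vale.Agent.P287.H631

variable {B : Fin 3 → Matrix (Fin 6) (Fin 6) ℂ} {a : Fin 3 → Fin 3 → R3} {b : Fin 3 → R3}
  {m : ℕ} {g : R3} {e : Fin 4 → R3} {γ : ℂ} {Θ : Fin 3 → Fin 3 → Matrix (Fin 3) (Fin 3) ℂ}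

section

variable {A : Type} [CommRing A] [Algebra ℂ A]

/-- The main identity at a point. -/
lemma Setup.identity_at (S : Setup B a b m g e γ Θ) (t : Fin 3 → A) (w : Fin 4 → A) :
    pf ((QR B).map (aeval t : R3 →ₐ[ℂ] A)) (fun i => aeval t (e i)) w ^ 2 -
      4 * algebraMap ℂ A γ * aeval t g * net B t (wvec t w) =
      ∑ i, ∑ j, qf (Θ i j) t * (act ((Nm a b).map (aeval t : R3 →ₐ[ℂ] A)) w i *
        act ((Nm a b).map (aeval t : R3 →ₐ[ℂ] A)) w j) := by
  have key := transport (QR B) (Nm a b) (Matrix.of fun i j => qf (Θ i j) (X : Fin 3 → R3)) e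
    (4 * C γ * g) S.hid ((aeval t : R3 →ₐ[ℂ] A) : R3 →+* A) w
  have hq : qf ((QR B).map ((aeval t : R3 →ₐ[ℂ] A) : R3 →+* A)) w = net B t (wvec t w) :=
    qf_QR B t w
  have hr : ((aeval t : R3 →ₐ[ℂ] A) : R3 →+* A) (4 * C γ * g) =
      4 * algebraMap ℂ A γ * aeval t g := by
    rw [map_mul, map_mul, map_ofNat]
    congr 2
    exact aeval_C t γ
  rw [hq, hr] at key
  refine key.trans ?_
  simp only [qf, Matrix.map_apply, Matrix.of_apply, Algebra.algebraMap_self, RingHom.id_apply]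
  refine Finset.sum_congr rfl fun i _ => Finset.sum_congr rfl fun j _ => ?_
  congr 1
  exact aeval_qfX (Θ i j) t

end

section point

variable {k : Type} [Field k] [Algebra ℂ k] [Algebra RatK k] [Algebra PF k]
    [IsScalarTower ℂ RatK k] [IsScalarTower RatK PF k]

/-- The point of odd degree gives a point of the second quadric surface, if the three linear forms
do not vanish. -/
theorem Setup.point_of_zero (S : Setup B a b m g e γ Θ) (hm : 2 ≤ m)
    (hodd : Odd (Module.finrank PF k)) (t : Fin 3 → k) (w : Fin 4 → k) (lam : k) (hlam : lam ≠ 0)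
    (hgt : aeval t g = 0)
    (hf : act ((Nm a b).map (aeval t : R3 →ₐ[ℂ] k)) w =
      lam • fun i => algebraMap RatK k (tvec i)) :
    ∃ v u : Fin 4 → RatK, qf (Q2 Θ tvec) v = 0 ∧ pf (Q2 Θ tvec) v u ≠ 0 := by
  classical
  set x : Fin 3 → k := fun i => algebraMap RatK k (tvec i) with hx
  set s0 : k := pf ((QR B).map (aeval t : R3 →ₐ[ℂ] k)) (fun i => aeval t (e i)) w with hs0
  set s1 : k := lam⁻¹ * s0 with hs1
  have key := S.identity_at t w
  rw [hgt, mul_zero, zero_mul, sub_zero, hf] at key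
  have hsq : s0 ^ 2 = lam ^ 2 * ∑ i, ∑ j, qf (Θ i j) t * (x i * x j) := by
    rw [hs0, key, Finset.mul_sum]
    refine Finset.sum_congr rfl fun i _ => ?_
    rw [Finset.mul_sum]
    refine Finset.sum_congr rfl fun j _ => ?_
    simp only [Pi.smul_apply, smul_eq_mul]
    ring
  have hsq1 : s1 ^ 2 = ∑ i, ∑ j, qf (Θ i j) t * (x i * x j) := by
    rw [hs1, mul_pow, hsq, ← mul_assoc, ← mul_pow, inv_mul_cancel₀ hlam, one_pow, one_mul]
  have hz : qf (Q2 Θ tvec) (tv t s1) = 0 := by
    rw [qf_Q2, hsq1]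
    exact sub_self _
  by_cases hcon : ∃ w u : Fin 4 → k, qf (Q2 Θ tvec) w = 0 ∧ pf (Q2 Θ tvec) w u ≠ 0
  · -- Springer's theorem
    obtain ⟨v1, u1, hv1, hu1⟩ := hcon
    set Q' : Matrix (Fin 4) (Fin 4) PF := (Q2 Θ tvec).map (algebraMap RatK PF) with hQ'
    have hqf : ∀ v : Fin 4 → k, qf Q' v = qf (Q2 Θ tvec) v := by
      intro v
      simp only [qf, hQ', Matrix.map_apply, ← IsScalarTower.algebraMap_apply RatK PF k]
    have hpf : ∀ v u : Fin 4 → k, pf Q' v u = pf (Q2 Θ tvec) v u := by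
      intro v u
      simp only [pf, hQ', Matrix.map_apply, ← IsScalarTower.algebraMap_apply RatK PF k]
    obtain ⟨v2, u2, hv2, hu2⟩ := springer hodd Q' v1 u1 (by rw [hqf, hv1]) (by rwa [hpf])
    refine descend (Q2 Θ tvec) v2 u2 ?_ ?_
    · rw [← hv2]
      simp [qf, hQ', Matrix.map_apply]
    · have h1 : pf Q' v2 u2 = pf (Q2 Θ tvec) v2 u2 := by
        simp [pf, hQ', Matrix.map_apply]
      rwa [← h1]
  · exfalso
    push Not at hcon
    have hall := fun u => hcon (tv t s1) u hz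
    have h3 : ∀ τ : Fin 3 → k, ∑ i, ∑ j, pf (Θ i j) t τ * (x i * x j) = 0 := by
      intro τ
      have h1 := hall (tv τ 0)
      rw [pf_Q2, mul_zero, zero_sub, neg_eq_zero] at h1
      exact h1
    exact S.crit_any hm t w lam hlam hgt hf h3

/-- Over a constant point of the curve there is no point of odd degree. -/
theorem const_false (hodd : Odd (Module.finrank PF k)) (d : Fin 3 → ℂ) (η : Fin 3 → ℂ)
    (hη : ∑ i, η i * d i = 1) (P P' : Matrix (Fin 4) (Fin 4) ℂ) (δ : ℂ) (hPP' : P * P' = 1)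
    (hP'P : P' * P = 1)
    (hq : ∀ u : Fin 4 → k, qf ((QR B).map (aeval d : R3 →ₐ[ℂ] ℂ)) (act P u) =
      u 0 ^ 2 + u 1 ^ 2 + u 2 ^ 2 + algebraMap ℂ k δ * u 3 ^ 2)
    (v : Fin 4 → k) (hv : v ≠ 0)
    (hqv : qf ((QR B).map (aeval d : R3 →ₐ[ℂ] ℂ)) v = 0)
    (hl : ∀ i, ∑ a, algebraMap PF k (gl i a) * wvec (fun i => algebraMap ℂ k (d i)) v a = 0) :
    False := by
  classical
  set c : Fin 4 → k := act P' v with hc
  have hcv : act P c = v := by rw [hc, ← act_mul, hPP', act_one]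
  have hc0 : c ≠ 0 := by
    intro h
    apply hv
    rw [← hcv, h]
    funext i
    simp [act]
  let Z : Fin 4 → Fin 6 → RatK := fun j a => algebraMap ℂ RatK (wvec d (fun i => P i j) a)
  let L : Fin 4 → Fin 6 → ℂ := ![![η 0, η 1, η 2, 0, 0, 0], ![0, 0, 0, 1, 0, 0],
    ![0, 0, 0, 0, 1, 0], ![0, 0, 0, 0, 0, 1]]
  let G : Fin 4 → Fin 6 → RatK := fun j a => algebraMap ℂ RatK (∑ i, P' j i * L i a)
  have hL : ∀ (u : Fin 4 → ℂ) (i : Fin 4), ∑ a, L i a * wvec d u a = u i := by
    intro u i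
    rw [Fin.sum_univ_three] at hη
    fin_cases i
    · simp only [L, Fin.sum_univ_six, wvec]
      simp
      linear_combination u 0 * hη
    · simp [L, Fin.sum_univ_six, wvec]
    · simp [L, Fin.sum_univ_six, wvec]
    · simp [L, Fin.sum_univ_six, wvec]
  have hG : ∀ j j', ∑ a, G j a * Z j' a = if j = j' then 1 else 0 := by
    intro j j'
    simp only [G, Z, ← map_mul, ← map_sum]
    have h1 : ∑ a, (∑ i, P' j i * L i a) * wvec d (fun i => P i j') a =
        ∑ i, P' j i * ∑ a, L i a * wvec d (fun i => P i j') a := by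
      simp only [Finset.sum_mul, Finset.mul_sum]
      rw [Finset.sum_comm]
      refine Finset.sum_congr rfl fun i _ => Finset.sum_congr rfl fun a _ => ?_
      ring
    rw [h1]
    simp only [hL]
    have h2 : ∑ i, P' j i * P i j' = (P' * P) j j' := by rw [Matrix.mul_apply]
    rw [h2, hP'P, Matrix.one_apply]
    split_ifs
    · exact map_one _
    · exact map_zero _
  have hwv : ∀ a, wvec (fun i => algebraMap ℂ k (d i)) v a =
      ∑ j, c j * algebraMap ℂ k (wvec d (fun i => P i j) a) := by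
    intro a
    have hvi : ∀ i, v i = ∑ j, algebraMap ℂ k (P i j) * c j := fun i => by
      rw [← hcv]
      rfl
    have h0 : ∀ z : ℂ, v 0 * algebraMap ℂ k z = ∑ j, c j * algebraMap ℂ k (P 0 j * z) := by
      intro z
      rw [hvi, Finset.sum_mul]
      refine Finset.sum_congr rfl fun j _ => ?_
      rw [map_mul]
      ring
    have h1 : ∀ i, v i = ∑ j, c j * algebraMap ℂ k (P i j) := by
      intro i
      rw [hvi]
      refine Finset.sum_congr rfl fun j _ => mul_comm _ _
    fin_cases a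
    · exact h0 (d 0)
    · exact h0 (d 1)
    · exact h0 (d 2)
    · exact h1 1
    · exact h1 2
    · exact h1 3
  refine no_odd_point hodd Z G hG (algebraMap ℂ RatK δ) (algebraMap ℂ RatK Complex.I) (by
    rw [← map_pow, Complex.I_sq, map_neg, map_one]) c hc0 (fun i => ?_) ?_
  · rw [← hl i]
    simp only [lv_map, map_sum, map_mul, Finset.mul_sum, hwv]
    rw [Finset.sum_comm]
    refine Finset.sum_congr rfl fun a _ => Finset.sum_congr rfl fun j _ => ?_
    rw [← IsScalarTower.algebraMap_apply RatK PF k, ← IsScalarTower.algebraMap_apply ℂ RatK k]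
    ring
  · rw [← IsScalarTower.algebraMap_apply RatK PF k, ← IsScalarTower.algebraMap_apply ℂ RatK k,
      ← hq, hcv, hqv]

end point

end Vale.Agent.P287.H69
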