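import Vale.Agent.P287.H69.CurveTwo

/-!
The parity of the number of sections of `O(m - 1) ⊕ J(m + 2)` on the curve `g = 0` of degree
`2 m + 1` is the parity of the codimension of the conductor of `√f`.
-/

namespace Vale.Agent.P287.H69

open Polynomial Matrix Module Vale.Agent.P287.Odd Vale.Agent.P287.H946

variable {k : Type} [Field k] {m : ℕ} {g f c₀ s₀ : k[X][X]} {J : Ideal k[X][X]}

/-- The pairs `(b, c)` of degrees at most `d` and `d + 3`, with `c ∈ J`. -/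
noncomputable def Y2 (n d : ℕ) (J : Ideal k[X][X]) : Submodule k (k[X][X] × k[X][X]) :=
  (En n d).prod (J.restrictScalars k ⊓ En n (d + 3))

lemma mem_Y2 {n d : ℕ} {v : k[X][X] × k[X][X]} :
    v ∈ Y2 n d J ↔ v.1 ∈ (En n d : Submodule k k[X][X]) ∧ v.2 ∈ J ∧
      v.2 ∈ (En n (d + 3) : Submodule k k[X][X]) := by
  rw [Y2, Submodule.mem_prod, Submodule.mem_inf, Submodule.restrictScalars_mem]

instance finite_J_inf (n d : ℕ) : Module.Finite k
    (J.restrictScalars k ⊓ En n d : Submodule k k[X][X]) :=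
  Submodule.finiteDimensional_inf_right _ _

instance finite_Y2 (n d : ℕ) : Module.Finite k (Y2 n d J) :=
  finite_prod_sub _ _

/-- Reduction modulo `(g, p ^ N)`. -/
noncomputable def red (g : k[X][X]) (N : ℕ) : (k[X][X] × k[X][X]) →ₗ[k] (QQ g N × QQ g N) :=
  (prL g N).prodMap (prL g N)

lemma red_apply (g : k[X][X]) (N : ℕ) (v : k[X][X] × k[X][X]) :
    red g N v = (pr g N v.1, pr g N v.2) := rfl

lemma red_inj {n d N : ℕ} (hg : g.Monic) (hgn : g.natDegree = n) (hN : d + 3 < N)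
    {v : k[X][X] × k[X][X]} (hv : v ∈ Y2 n d J) (h : red g N v = 0) : v = 0 := by
  obtain ⟨h1, -, h2⟩ := mem_Y2.mp hv
  have h3 : pr g N v.1 = 0 := congrArg Prod.fst h
  have h4 : pr g N v.2 = 0 := congrArg Prod.snd h
  rw [pr_eq_zero_iff hg, mod_eq_self hg hgn h1.2] at h3
  rw [pr_eq_zero_iff hg, mod_eq_self hg hgn h2.2] at h4
  exact Prod.ext (eq_zero_of_CX_pow_dvd h1.1 (by omega) h3) (eq_zero_of_CX_pow_dvd h2.1 hN h4)

lemma pr_of_dvd {N : ℕ} {P : k[X][X]} (h : g ∣ P) : pr g N P = 0 :=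
  Ideal.Quotient.eq_zero_iff_mem.mpr (Ideal.mem_of_dvd _ h (Ideal.subset_span (by simp)))

lemma finrank_map_of_inj {V W : Type*} [AddCommGroup V] [Module k V] [AddCommGroup W]
    [Module k W] (φ : V →ₗ[k] W) (Y : Submodule k V) [Module.Finite k Y]
    (h : ∀ v ∈ Y, φ v = 0 → v = 0) : finrank k (Y.map φ) = finrank k Y := by
  have h1 := finrank_map_add φ Y
  have h2 : (Y ⊓ LinearMap.ker φ : Submodule k V) = ⊥ := by
    rw [eq_bot_iff]
    rintro v ⟨hv, hv'⟩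
    exact h v hv hv'
  rw [h2, finrank_bot, add_zero] at h1
  exact h1

/-- The pairs `(b, c)` with `c = √f b`. -/
noncomputable def Z2 (n d : ℕ) (J : Ideal k[X][X]) (g c₀ s₀ : k[X][X]) :
    Submodule k (k[X][X] × k[X][X]) :=
  { carrier := {v | v ∈ Y2 n d J ∧ g ∣ c₀ * v.2 - s₀ * v.1}
    add_mem' := by
      rintro v w ⟨hv, hv'⟩ ⟨hw, hw'⟩
      refine ⟨add_mem hv hw, ?_⟩
      have h : c₀ * (v + w).2 - s₀ * (v + w).1 =
          (c₀ * v.2 - s₀ * v.1) + (c₀ * w.2 - s₀ * w.1) := by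
        rw [Prod.fst_add, Prod.snd_add]
        ring
      rw [h]
      exact dvd_add hv' hw'
    zero_mem' := ⟨zero_mem _, by simp⟩
    smul_mem' := by
      rintro c v ⟨hv, hv'⟩
      refine ⟨Submodule.smul_mem _ c hv, ?_⟩
      have h0 : ∀ q : k[X][X], c • q = C (C c) * q := by
        intro q
        ext i j
        simp [coeff_smul, coeff_C_mul]
      have h : c₀ * (c • v).2 - s₀ * (c • v).1 = C (C c) * (c₀ * v.2 - s₀ * v.1) := by
        rw [Prod.smul_fst, Prod.smul_snd, h0, h0]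
        ring
      rw [h]
      exact hv'.mul_left _ }

lemma mem_Z2 {n d : ℕ} {v : k[X][X] × k[X][X]} :
    v ∈ Z2 n d J g c₀ s₀ ↔ v ∈ Y2 n d J ∧ g ∣ c₀ * v.2 - s₀ * v.1 := Iff.rfl

lemma Z2_le {n d : ℕ} : Z2 n d J g c₀ s₀ ≤ Y2 n d J := fun _ h => h.1

instance finite_Z2 (n d : ℕ) : Module.Finite k (Z2 n d J g c₀ s₀) :=
  Submodule.finiteDimensional_of_le Z2_le

/-- `b ↦ √f b` maps the conductor to `J`. -/
lemma finrank_Z2 (hC : Curve m g f) (hJ : Half m g f J)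
    (hJ' : ∀ c, c ^ 2 ∈ Ideal.span {f, g} → c ∈ J) {e₀ : ℕ}
    (hc : InfUnit (2 * m + 1) g e₀ c₀) (hc₀ : ¬ g ∣ c₀) (hsW : Wd (e₀ + 3) s₀)
    (hsq : g ∣ c₀ ^ 2 * f - s₀ ^ 2) (d : ℕ) :
    finrank k (Z2 (2 * m + 1) d J g c₀ s₀) =
      finrank k ((cond g c₀ s₀).restrictScalars k ⊓ En (2 * m + 1) d :
        Submodule k k[X][X]) := by
  rw [← finrank_map_of_inj (LinearMap.fst k k[X][X] k[X][X]) (Z2 (2 * m + 1) d J g c₀ s₀) (by
    rintro v ⟨hv, hv'⟩ h0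
    have h0' : v.1 = 0 := h0
    obtain ⟨h1, -, h2⟩ := mem_Y2.mp hv
    rw [h0', mul_zero, sub_zero] at hv'
    exact Prod.ext h0' (eq_zero_of_dvd_En hC.monic hC.deg h2
      ((hC.prime.dvd_or_dvd hv').resolve_left hc₀)))]
  suffices hkey : (Z2 (2 * m + 1) d J g c₀ s₀).map (LinearMap.fst k k[X][X] k[X][X]) =
      ((cond g c₀ s₀).restrictScalars k ⊓ En (2 * m + 1) d : Submodule k k[X][X]) by
    rw [hkey]
  ext b
  constructor
  · rintro ⟨v, ⟨hv, hv'⟩, rfl⟩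
    exact ⟨⟨v.2, hv'⟩, (mem_Y2.mp hv).1⟩
  · rintro ⟨⟨a, ha⟩, hb⟩
    have ha1 : g ∣ a ^ 2 - f * b ^ 2 := by
      have h1 : c₀ ^ 2 * (a ^ 2 - f * b ^ 2) = (c₀ * a - s₀ * b) * (c₀ * a + s₀ * b) -
          (c₀ ^ 2 * f - s₀ ^ 2) * b ^ 2 := by ring
      have h2 : g ∣ c₀ ^ 2 * (a ^ 2 - f * b ^ 2) := by
        rw [h1]
        exact dvd_sub (ha.mul_right _) (hsq.mul_right _)
      exact (hC.prime.dvd_or_dvd h2).resolve_left (fun h => hc₀ (hC.prime.dvd_of_dvd_pow h))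
    have haJ : a ∈ J := by
      apply hJ'
      obtain ⟨r, hr⟩ := ha1
      exact Ideal.mem_span_pair.2 ⟨b ^ 2, r, by linear_combination -hr⟩
    have hmod : a %ₘ g = a - g * (a /ₘ g) := by
      linear_combination modByMonic_add_div a g
    have hcJ : a %ₘ g ∈ J := by
      rw [hmod]
      exact J.sub_mem haJ (J.mul_mem_right _ hJ.g_mem)
    have hdv : g ∣ c₀ * (a %ₘ g) - s₀ * b := by
      have h1 : c₀ * (a %ₘ g) - s₀ * b = (c₀ * a - s₀ * b) - g * (c₀ * (a /ₘ g)) := by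
        rw [hmod]
        ring
      rw [h1]
      exact dvd_sub ha (dvd_mul_right _ _)
    have hW : Wd (d + 3) (a %ₘ g) := by
      refine hc.2 (d + 3) _ (fun j hj => coeff_mod hC.monic hC.deg hj) ?_
      have h1 : (c₀ * (a %ₘ g)) %ₘ g = (s₀ * b) %ₘ g := by
        have h2 := (modByMonic_eq_zero_iff_dvd hC.monic).mpr hdv
        rw [sub_modByMonic] at h2
        exact sub_eq_zero.mp h2
      rw [h1]
      exact Wd_mod hC.monic hC.deg hC.wd (Wd_mul_le hsW hb.1 (by omega))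
    exact ⟨(b, a %ₘ g), ⟨mem_Y2.mpr ⟨hb, hcJ, hW, fun j hj => coeff_mod hC.monic hC.deg hj⟩,
      hdv⟩, rfl⟩

/-- The sections are isotropic. -/
lemma isotropy (hC : Curve m g f) (hJ : Half m g f J) {e N : ℕ} (hN : N = 2 * e) (he : 1 ≤ e)
    (hm : 1 ≤ m) (lam : QQ g N →ₗ[k] k)
    (hlam : ∀ h, lam (pr g N h) = ((h %ₘ g).coeff (2 * m + 1 - 1)).coeff (N - 1))
    {f' : QQ g N} (hf' : pr g N f * f' = 1) {v w : k[X][X] × k[X][X]}
    (hv : v ∈ Y2 (2 * m + 1) (m - 1 + e) J) (hw : w ∈ Y2 (2 * m + 1) (m - 1 + e) J) :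
    lam (pr g N v.1 * pr g N w.1 - f' * (pr g N v.2 * pr g N w.2)) = 0 := by
  obtain ⟨hv1, hvJ, hv2⟩ := mem_Y2.mp hv
  obtain ⟨hw1, hwJ, hw2⟩ := mem_Y2.mp hw
  obtain ⟨α, β, hαβ⟩ := Ideal.mem_span_pair.mp (hJ.mul_mem _ hvJ _ hwJ)
  have ht : Wd (2 * (m - 1 + e)) (α %ₘ g) := by
    refine hC.inf.2 _ _ (fun j hj => coeff_mod hC.monic hC.deg hj) ?_
    have h1 : (f * (α %ₘ g)) %ₘ g = (v.2 * w.2) %ₘ g := by
      have h2 : g ∣ f * (α %ₘ g) - v.2 * w.2 := by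
        refine ⟨-(f * (α /ₘ g)) - β, ?_⟩
        linear_combination f * modByMonic_add_div α g + hαβ
      have h4 := (modByMonic_eq_zero_iff_dvd hC.monic).mpr h2
      rw [sub_modByMonic] at h4
      exact sub_eq_zero.mp h4
    rw [h1]
    exact Wd_mod hC.monic hC.deg hC.wd (Wd_mul_le hv2.1 hw2.1 (by omega))
  have h5 : pr g N v.1 * pr g N w.1 - f' * (pr g N v.2 * pr g N w.2) =
      pr g N (v.1 * w.1 - α %ₘ g) := by
    have h6 : pr g N (v.2 * w.2) = pr g N α * pr g N f := by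
      rw [← hαβ, map_add, pr_of_dvd (dvd_mul_left g β), add_zero, map_mul]
    rw [map_sub, pr_mod, map_mul]
    rw [map_mul] at h6
    linear_combination (-f') * h6 - pr g N α * hf'
  rw [h5, hlam]
  have hW : Wd (2 * (m - 1 + e)) ((v.1 * w.1 - α %ₘ g) %ₘ g) :=
    Wd_mod hC.monic hC.deg hC.wd (Wd_sub (Wd_mul_le hv1.1 hw1.1 (by omega)) ht)
  exact hW _ _ (by omega)

/-- The intersection with the graph of `√f`. -/
lemma graph_inter (hC : Curve m g f) {e₀ e N : ℕ} (hN : e₀ + (m - 1 + e + 3) < N)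
    (hc : Wd e₀ c₀) (hsW : Wd (e₀ + 3) s₀) {ci : QQ g N} (hci : pr g N c₀ * ci = 1) :
    (gr k (ci * pr g N s₀) ⊓ (Y2 (2 * m + 1) (m - 1 + e) J).map (red g N) :
      Submodule k (QQ g N × QQ g N)) =
      (Z2 (2 * m + 1) (m - 1 + e) J g c₀ s₀).map (red g N) := by
  ext x
  constructor
  · rintro ⟨hx, ⟨v, hv, rfl⟩⟩
    have hx' : pr g N v.2 = ci * pr g N s₀ * pr g N v.1 := mem_gr.mp hx
    obtain ⟨hv1, hvJ, hv2⟩ := mem_Y2.mp hv
    refine ⟨v, ⟨hv, ?_⟩, rfl⟩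
    have h1 : pr g N (c₀ * v.2 - s₀ * v.1) = 0 := by
      rw [map_sub, map_mul, map_mul]
      linear_combination pr g N c₀ * hx' + pr g N s₀ * pr g N v.1 * hci
    rw [pr_eq_zero_iff hC.monic] at h1
    have h2 : Wd (e₀ + (m - 1 + e + 3)) ((c₀ * v.2 - s₀ * v.1) %ₘ g) :=
      Wd_mod hC.monic hC.deg hC.wd (Wd_sub (Wd_mul_le hc hv2.1 le_rfl)
        (Wd_mul_le hsW hv1.1 (by omega)))
    exact (modByMonic_eq_zero_iff_dvd hC.monic).mp (eq_zero_of_CX_pow_dvd h2 (by omega) h1)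
  · rintro ⟨v, ⟨hv, hv'⟩, rfl⟩
    refine ⟨?_, ⟨v, hv, rfl⟩⟩
    refine mem_gr.mpr ?_
    change pr g N v.2 = ci * pr g N s₀ * pr g N v.1
    have h1 : pr g N (c₀ * v.2 - s₀ * v.1) = 0 := pr_of_dvd hv'
    rw [map_sub, map_mul, map_mul] at h1
    linear_combination ci * h1 - pr g N v.2 * hci

/-- The multiplication by `p ^ e`. -/
noncomputable def mulP (k : Type) [Field k] (e : ℕ) :
    (k[X][X] × k[X][X]) →ₗ[k] (k[X][X] × k[X][X]) :=
  (LinearMap.mulLeft k ((C X : k[X][X]) ^ e)).prodMap (LinearMap.mulLeft k ((C X : k[X][X]) ^ e))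

lemma mulP_apply (e : ℕ) (v : k[X][X] × k[X][X]) :
    mulP k e v = ((C X : k[X][X]) ^ e * v.1, (C X : k[X][X]) ^ e * v.2) := rfl

lemma mulP_mem {n d e : ℕ} {v : k[X][X] × k[X][X]} (hv : v ∈ Y2 n d J) :
    mulP k e v ∈ Y2 n (d + e) J := by
  obtain ⟨h1, hJv, h2⟩ := mem_Y2.mp hv
  refine mem_Y2.mpr ⟨pow_mul_mem_En h1, J.mul_mem_left _ hJv, ?_⟩
  have := pow_mul_mem_En (e := e) h2
  rw [show d + e + 3 = d + 3 + e by omega]
  exact this

/-- The intersection with the multiples of `p ^ e`. -/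
lemma ann_inter (hC : Curve m g f) (hJ : Half m g f J) {e N d : ℕ} (hN : N = e + e) :
    (ann2 k (pr g N ((C X : k[X][X]) ^ e)) ⊓ (Y2 (2 * m + 1) (d + e) J).map (red g N) :
      Submodule k (QQ g N × QQ g N)) =
      (Y2 (2 * m + 1) d J).map (red g N ∘ₗ mulP k e) := by
  subst hN
  ext x
  constructor
  · rintro ⟨hx, ⟨v, hv, rfl⟩⟩
    have hx' := mem_ann2.mp hx
    obtain ⟨hv1, hvJ, hv2⟩ := mem_Y2.mp hv
    have hdv : ∀ {b : k[X][X]} {d : ℕ}, b ∈ (En (2 * m + 1) d : Submodule k k[X][X]) →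
        pr g (e + e) ((C X : k[X][X]) ^ e) * pr g (e + e) b = 0 → (C X : k[X][X]) ^ e ∣ b := by
      intro b d hb h
      rw [← map_mul, pr_eq_zero_iff hC.monic, mod_pow_mul, mod_eq_self hC.monic hC.deg hb.2,
        pow_add] at h
      exact (mul_dvd_mul_iff_left (pow_ne_zero _ (by simp))).mp h
    obtain ⟨b, hb⟩ := hdv hv1 hx'.1
    obtain ⟨c, hc'⟩ := hdv hv2 hx'.2
    refine ⟨(b, c), mem_Y2.mpr ⟨?_, ?_, ?_⟩, ?_⟩
    · rw [hb] at hv1
      exact En_of_pow_mul hv1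
    · rw [hc'] at hvJ
      exact mem_of_pow_mul hJ.f_mem hJ.g_mem hC.line e hvJ
    · rw [hc', show d + e + 3 = d + 3 + e by omega] at hv2
      exact En_of_pow_mul hv2
    · rw [LinearMap.comp_apply, mulP_apply]
      simp only
      rw [← hb, ← hc']
  · rintro ⟨v, hv, rfl⟩
    rw [LinearMap.comp_apply]
    refine ⟨?_, ⟨mulP k e v, mulP_mem hv, rfl⟩⟩
    refine mem_ann2.mpr ?_
    have h1 : ∀ b : k[X][X], pr g (e + e) ((C X : k[X][X]) ^ e) *
        pr g (e + e) ((C X : k[X][X]) ^ e * b) = 0 := by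
      intro b
      rw [← map_mul, ← mul_assoc, ← pow_add]
      exact Ideal.Quotient.eq_zero_iff_mem.mpr (Ideal.mul_mem_right _ _
        (Ideal.subset_span (by simp)))
    exact ⟨h1 _, h1 _⟩

lemma not_dvd_of_line (hC : Curve m g f)
    (hl : ∃ α β γ : k[X][X], α * c₀ + β * g + γ * C X = 1) : ¬ g ∣ c₀ := by
  rintro ⟨r, hr⟩
  obtain ⟨α, β, γ, h⟩ := hl
  have h1 : pr g 1 1 = 0 := by
    rw [← h, hr]
    refine Ideal.Quotient.eq_zero_iff_mem.mpr (Ideal.mem_span_pair.2 ⟨α * r + β, γ, ?_⟩)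
    rw [pow_one]
    ring
  rw [pr_eq_zero_iff hC.monic, (modByMonic_eq_self_iff hC.monic).mpr, pow_one] at h1
  · have h2 := eq_zero_of_CX_pow_dvd (N := 1) (d := 0) (P := (1 : k[X][X])) (fun i j hij => by
      rw [coeff_one]
      split_ifs with h3
      · rw [coeff_one, if_neg (by omega)]
      · rw [coeff_zero]) (by omega) (by rw [pow_one]; exact h1)
    exact one_ne_zero h2
  · rw [degree_one, degree_eq_natDegree hC.monic.ne_zero, hC.deg]
    exact_mod_cast Nat.succ_pos _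

lemma finite_cond (hC : Curve m g f) {e₀ : ℕ} (hc : Wd e₀ c₀) (hc₀ : ¬ g ∣ c₀) :
    g ∈ cond g c₀ s₀ ∧ Module.Finite k (k[X][X] ⧸ cond g c₀ s₀) := by
  have hgc : g ∈ cond g c₀ s₀ :=
    ⟨0, by rw [mul_zero, zero_sub]; exact (dvd_mul_left g s₀).neg_right⟩
  have hcc : c₀ ^ 2 ∈ cond g c₀ s₀ := ⟨s₀ * c₀, by
    have h1 : c₀ * (s₀ * c₀) - s₀ * c₀ ^ 2 = 0 := by ring
    rw [h1]
    exact dvd_zero _⟩
  exact ⟨hgc, finite_quot' hC.monic hC.deg hC.wd hC.prime (z := c₀ ^ 2) (δ := e₀ + e₀)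
      (by rw [pow_two]; exact Wd_mul hc hc)
      (fun h => hc₀ (hC.prime.dvd_of_dvd_pow h)) hcc hgc⟩

lemma dims (hm : 1 ≤ m) (hJ : Half m g f J) {e : ℕ} (he : m < e) :
    finrank k (En (2 * m + 1) (m - 1 + e) : Submodule k k[X][X]) = (2 * m + 1) * e ∧
      2 * ((2 * m + 1) * e) ≤ finrank k (Y2 (k := k) (2 * m + 1) (m - 1 + e) J) := by
  have hE1 := Odd.two_mul_finrank_En (k := k) (n := 2 * m + 1) (d := m - 1 + e) (by omega)
  have hE2 := Odd.two_mul_finrank_En (k := k) (n := 2 * m + 1) (d := m - 1 + e + 3) (by omega)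
  have hE3 := finrank_En_le_J hJ (2 * m + 1) (m - 1 + e + 3)
  have hYd : finrank k (Y2 (k := k) (2 * m + 1) (m - 1 + e) J) =
      finrank k (En (2 * m + 1) (m - 1 + e) : Submodule k k[X][X]) +
      finrank k (J.restrictScalars k ⊓ En (2 * m + 1) (m - 1 + e + 3) :
        Submodule k k[X][X]) := finrank_prod_sub _ _
  have hne : (2 * m + 1) * (2 * (m - 1 + e) + 3) =
      (2 * m + 1) * (2 * m + 1) + 2 * ((2 * m + 1) * e) := by
    have : 2 * (m - 1 + e) + 3 = (2 * m + 1) + 2 * e := by omega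
    rw [this]
    ring
  have hne' : (2 * m + 1) * (2 * (m - 1 + e + 3) + 3) =
      (2 * m + 1) * (2 * m + 1) + 2 * ((2 * m + 1) * e) + 6 * (2 * m + 1) := by
    have : 2 * (m - 1 + e + 3) + 3 = (2 * m + 1) + 2 * e + 6 := by omega
    rw [this]
    ring
  constructor <;> omega

lemma finrank_ann (hC : Curve m g f) (hJ : Half m g f J) {e N : ℕ} (hN : N = e + e)
    (he : m - 1 + e + 3 < N) :
    finrank k (ann2 k (pr g N ((C X : k[X][X]) ^ e)) ⊓
      (Y2 (k := k) (2 * m + 1) (m - 1 + e) J).map (red g N) :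
      Submodule k (QQ g N × QQ g N)) =
      finrank k (En (2 * m + 1) (m - 1) : Submodule k k[X][X]) +
        finrank k (J.restrictScalars k ⊓ En (2 * m + 1) (m - 1 + 3) :
          Submodule k k[X][X]) := by
  rw [ann_inter hC hJ hN, finrank_map_of_inj _ _ ?_]
  · exact finrank_prod_sub _ _
  · intro v hv h
    rw [LinearMap.comp_apply] at h
    have h1 := red_inj hC.monic hC.deg he (mulP_mem (e := e) hv) h
    rw [mulP_apply, Prod.mk_eq_zero] at h1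
    have h0 : (C X : k[X][X]) ^ e ≠ 0 := pow_ne_zero _ (by simp)
    exact Prod.ext ((mul_eq_zero.mp h1.1).resolve_left h0)
      ((mul_eq_zero.mp h1.2).resolve_left h0)

lemma finrank_gr_inter (hC : Curve m g f) (hJ : Half m g f J)
    (hJ' : ∀ c, c ^ 2 ∈ Ideal.span {f, g} → c ∈ J) {e₀ : ℕ}
    (hc : InfUnit (2 * m + 1) g e₀ c₀) (hc₀ : ¬ g ∣ c₀) (hsW : Wd (e₀ + 3) s₀)
    (hsq : g ∣ c₀ ^ 2 * f - s₀ ^ 2) {e N : ℕ} (he : e₀ + (m - 1 + e + 3) < N)
    {ci : QQ g N} (hci : pr g N c₀ * ci = 1) :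
    finrank k (gr k (ci * pr g N s₀) ⊓
      (Y2 (k := k) (2 * m + 1) (m - 1 + e) J).map (red g N) :
      Submodule k (QQ g N × QQ g N)) =
      finrank k ((cond g c₀ s₀).restrictScalars k ⊓ En (2 * m + 1) (m - 1 + e) :
        Submodule k k[X][X]) := by
  rw [graph_inter hC he hc.1 hsW hci,
    finrank_map_of_inj _ _ (fun v hv h => red_inj hC.monic hC.deg (by omega) (Z2_le hv) h),
    finrank_Z2 hC hJ hJ' hc hc₀ hsW hsq]

lemma parity_aux [CharZero k] (hm : 1 ≤ m) (hC : Curve m g f) (hJ : Half m g f J)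
    (hsq : g ∣ c₀ ^ 2 * f - s₀ ^ 2) {e N : ℕ} (hN : N = e + e) (he : m + 3 ≤ e)
    {ci : QQ g N} (hci : pr g N c₀ * ci = 1) :
    Even (finrank k (gr k (ci * pr g N s₀) ⊓
      (Y2 (k := k) (2 * m + 1) (m - 1 + e) J).map (red g N) :
      Submodule k (QQ g N × QQ g N)) +
      finrank k (ann2 k (pr g N ((C X : k[X][X]) ^ e)) ⊓
      (Y2 (k := k) (2 * m + 1) (m - 1 + e) J).map (red g N) :
      Submodule k (QQ g N × QQ g N)) + (2 * m + 1) * e) := by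
  obtain ⟨hQf, hQ⟩ := H908.finrank_Q (k := k) g hC.monic _ N hC.deg
  obtain ⟨lam, hlam, hnd⟩ := H908.exists_frob (k := k) g hC.monic _ N hC.deg (by omega) (by omega)
  obtain ⟨f', hf'⟩ := exists_inv (k := k) hC.line N
  have hPk : ∀ u : QQ g N, pr g N ((C X : k[X][X]) ^ e) * u = 0 →
      ∃ w, u = pr g N ((C X : k[X][X]) ^ e) * w := by
    subst hN
    rw [← two_mul]
    exact fun u hu => exists_of_pow_mul (k := k) hC.monic u hu
  have hPP : pr g N ((C X : k[X][X]) ^ e) * pr g N ((C X : k[X][X]) ^ e) = 0 := by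
    rw [← map_mul, ← pow_add, ← hN]
    exact pr_pow g N
  have hρ : (ci * pr g N s₀) ^ 2 = pr g N f := by
    have h1 : pr g N (c₀ ^ 2 * f - s₀ ^ 2) = 0 := pr_of_dvd hsq
    rw [map_sub, map_mul, map_pow, map_pow] at h1
    linear_combination (-ci ^ 2) * h1 + (ci * pr g N c₀ + 1) * pr g N f * hci
  have e3 := finrank_annI (k := k) (Q := QQ g N) (P := pr g N ((C X : k[X][X]) ^ e)) hPk hPP
  rw [hQ] at e3
  have hne2 : (2 * m + 1) * N = 2 * ((2 * m + 1) * e) := by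
    rw [hN]
    ring
  have hdim := dims (k := k) hm hJ (show m < e by omega)
  have hL₃f : finrank k ((Y2 (k := k) (2 * m + 1) (m - 1 + e) J).map (red g N)) =
      finrank k (Y2 (k := k) (2 * m + 1) (m - 1 + e) J) :=
    finrank_map_of_inj _ _ (fun v hv h => red_inj hC.monic hC.deg (by omega) hv h)
  have h33 : ∀ v ∈ (Y2 (k := k) (2 * m + 1) (m - 1 + e) J).map (red g N),
      ∀ w ∈ (Y2 (k := k) (2 * m + 1) (m - 1 + e) J).map (red g N),
      lam (v.1 * w.1 - f' * (v.2 * w.2)) = 0 := by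
    rintro _ ⟨v, hv, rfl⟩ _ ⟨w, hw, rfl⟩
    exact isotropy hC hJ (by omega) (by omega) hm lam hlam hf' hv hw
  have h3 : finrank k (QQ g N) ≤
      finrank k ((Y2 (k := k) (2 * m + 1) (m - 1 + e) J).map (red g N)) := by
    rw [hL₃f, hQ]
    omega
  have key := parity2 (k := k) (Q := QQ g N) (two_ne_zero) lam hnd (f := pr g N f) (f' := f') hf'
    (ρ := ci * pr g N s₀) hρ (P := pr g N ((C X : k[X][X]) ^ e)) hPk hPP _ h33 h3
  have e4 : finrank k ((annI (pr g N ((C X : k[X][X]) ^ e))).restrictScalars k) =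
      (2 * m + 1) * e := by omega
  rw [e4] at key
  exact key

/-- **The parity theorem of rank two.** -/
theorem parity_two [CharZero k] (hm : 1 ≤ m) (hC : Curve m g f) (hJ : Half m g f J)
    (hJ' : ∀ c, c ^ 2 ∈ Ideal.span {f, g} → c ∈ J) {e₀ : ℕ}
    (hc : InfUnit (2 * m + 1) g e₀ c₀) (hsW : Wd (e₀ + 3) s₀)
    (hsq : g ∣ c₀ ^ 2 * f - s₀ ^ 2)
    (hl : ∃ α β γ : k[X][X], α * c₀ + β * g + γ * C X = 1) :
    Module.Finite k (k[X][X] ⧸ cond g c₀ s₀) ∧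
      Even (finrank k (En (2 * m + 1) (m - 1) : Submodule k k[X][X]) +
        finrank k (J.restrictScalars k ⊓ En (2 * m + 1) (m - 1 + 3) : Submodule k k[X][X]) +
          finrank k (k[X][X] ⧸ cond g c₀ s₀)) := by
  have hc₀ : ¬ g ∣ c₀ := not_dvd_of_line hC hl
  obtain ⟨hgc, hfin⟩ := finite_cond (s₀ := s₀) hC hc.1 hc₀
  refine ⟨hfin, ?_⟩
  obtain ⟨d₀, hd₀⟩ := finrank_inf_En (k := k) hC.monic hC.deg hC.wd hgc
  obtain ⟨e, he⟩ : ∃ e, e = e₀ + m + d₀ + 3 := ⟨_, rfl⟩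
  obtain ⟨N, hN⟩ : ∃ N, N = e + e := ⟨_, rfl⟩
  obtain ⟨ci, hci⟩ := exists_inv (k := k) hl N
  have key := parity_aux hm hC hJ hsq hN (by omega) hci
  rw [finrank_gr_inter hC hJ hJ' hc hc₀ hsW hsq (by omega) hci,
    finrank_ann hC hJ hN (by omega)] at key
  have h1 := hd₀ (m - 1 + e) (by omega)
  rw [(dims (k := k) hm hJ (show m < e by omega)).1] at h1
  obtain ⟨r, hr⟩ := key
  refine ⟨r + finrank k (k[X][X] ⧸ cond g c₀ s₀) - (2 * m + 1) * e, ?_⟩
  omega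

end Vale.Agent.P287.H69
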