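import Mathlib

/-!
The norm of an element of a simple extension as a resultant.
-/

open Polynomial

namespace Vale.Agent.P287.H69

/-- The resultant of an irreducible polynomial `f` and `g` is, up to a power of the leading
coefficient, the norm of the value of `g` at the root of `f`. -/
theorem resultant_eq_norm {K : Type} [Field K] [CharZero K] (f g : K[X]) [hf : Fact (Irreducible f)] :
    resultant f g = f.leadingCoeff ^ g.natDegree *
      Algebra.norm K (aeval (AdjoinRoot.root f) g) := by
  classical
  set L := AlgebraicClosure K
  have hf0 : f ≠ 0 := hf.out.ne_zero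
  have : FiniteDimensional K (AdjoinRoot f) := (AdjoinRoot.powerBasis hf0).finite
  apply (algebraMap K L).injective
  have h1 : algebraMap K L (resultant f g) =
      resultant (f.map (algebraMap K L)) (g.map (algebraMap K L)) := by
    rw [natDegree_map, natDegree_map, resultant_map_map]
  rw [h1, resultant_eq_prod_eval _ _ _ (by rw [natDegree_map]) (IsAlgClosed.splits _),
    leadingCoeff_map, map_mul, map_pow, Algebra.norm_eq_prod_embeddings K L, natDegree_map]
  congr 1
  have hnd : (f.map (algebraMap K L)).roots.Nodup :=
    nodup_roots (hf.out.separable.map)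
  have h2 : (Multiset.map (eval · (g.map (algebraMap K L))) (f.map (algebraMap K L)).roots).prod =
      ∏ x : {x // x ∈ f.aroots L}, eval x.1 (g.map (algebraMap K L)) := by
    have h3 : ∏ x : {x // x ∈ f.aroots L}, eval x.1 (g.map (algebraMap K L)) =
        ∏ x ∈ (f.aroots L).toFinset, eval x (g.map (algebraMap K L)) := by
      exact (Finset.prod_subtype (f.aroots L).toFinset (fun x => by rw [Multiset.mem_toFinset])
        fun x => eval x (g.map (algebraMap K L))).symm
    rw [h3, Finset.prod, Multiset.toFinset_val, Multiset.dedup_eq_self.mpr hnd]
  rw [h2]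
  refine (Fintype.prod_equiv (AdjoinRoot.equiv L K f hf0) _ _ fun σ => ?_).symm
  rw [eval_map_algebraMap, ← aeval_algHom_apply]
  rfl

end Vale.Agent.P287.H69
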