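import Vale.Agent.P287.H69.Relate

/-!
Cubic fourfolds containing a plane and a scroll of lines of even degree over a plane curve of odd
degree.
-/

open MvPolynomial

namespace Vale.Agent.P287.H69

open Vale.Agent.P287 Vale.Agent.P287.H631

/-- The main theorem on scrolls of even degree over plane curves of odd degree. -/
theorem odd_even (B : Fin 3 → Matrix (Fin 6) (Fin 6) ℂ) (hsm : SmoothForm (cubic B))
    (Q : Matrix (Fin 4) (Fin 4) R3) (hQs : Q.IsSymm) (hQ : ∀ v : Fin 4 → R3, qf (QR B) v = qf Q v)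
    (hC : ∀ z : Fin 3 → ℂ, (∀ i, aeval z (pderiv i Q.det) = 0) → z = 0)
    {m : ℕ} (hm : 2 ≤ m) {g : R3} (hgp : Prime g) (hg : g.IsHomogeneous (2 * m + 1))
    {κ : Type} [Field κ] [Algebra ℂ κ] (τ : Fin 3 → κ)
    (hτ : ∀ p : R3, aeval τ p = 0 ↔ g ∣ p) (W : Submodule κ (Fin 4 → κ))
    (hW : Module.finrank κ W = 2) (hWF : ∀ w ∈ W, net B τ (wvec τ w) = 0)
    {a : Fin 3 → Fin 3 → R3} {b : Fin 3 → R3}
    (ha : ∀ j i, (a j i).IsHomogeneous m) (hb : ∀ j, (b j).IsHomogeneous (m + 1))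
    (hWN : ∀ w ∈ W, ∀ j, aeval τ (b j) * w 0 + ∑ i, aeval τ (a j i) * w i.succ = 0)
    (hLI : LinearIndependent RatK (fun j => ((Nm a b).map (aeval tvec : R3 →ₐ[ℂ] RatK)) j))
    {s : ℕ} (hs : Even s) (hdeg : HasDegree (scrollIdeal τ W) s) :
    Nonempty (FractionRing (MvPolynomial (Fin 5) ℂ ⧸ Ideal.span {chart (cubic B)}) ≃ₐ[ℂ]
      FractionRing (MvPolynomial (Fin 4) ℂ)) := by
  classical
  have hcharK : CharZero RatK := charZero_of_injective_algebraMap (algebraMap ℂ RatK).injective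
  have nd := nondegenerate_of_smooth B hsm
  have hp := prime_of_smooth B hsm
  have hg0 := hgp.ne_zero
  set N := Nm a b with hN
  -- the scroll
  let _ : Algebra R3 κ := (aeval τ : R3 →ₐ[ℂ] κ).toRingHom.toAlgebra
  have hcharκ : CharZero κ := charZero_of_injective_algebraMap (algebraMap ℂ κ).injective
  have hqW : ∀ w : Fin 4 → κ, qf (QR B) w = net B τ (wvec τ w) := fun w => qf_QR B τ w
  have hS : ScrollData (QR B) N g κ W :=
    { hg := hgp
      hκ := fun r => hτ r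
      hW := hW
      hq := fun w hw => by
        rw [hqW]
        exact hWF w hw
      hN := by
        intro w hw
        funext j
        have h1 := hWN w hw j
        change ∑ k, aeval τ (N j k) * w k = 0
        rw [Fin.sum_univ_succ]
        exact h1 }
  -- a minor which does not vanish
  obtain ⟨k0, hk0'⟩ := exists_mnr_ne _ hLI
  have hk0 : (aeval tvec : R3 →ₐ[ℂ] RatK) (mnr N k0) ≠ 0 := by
    have h1 := map_mnr ((aeval tvec : R3 →ₐ[ℂ] RatK) : R3 →+* RatK) N k0
    intro h0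
    apply hk0'
    refine Eq.trans h1 h0
  have hk00 : mnr N k0 ≠ 0 := by
    intro h
    rw [h, map_zero] at hk0
    exact hk0 rfl
  have hne : ∃ c, ¬ g ^ 2 ∣ mnr N c := ⟨k0, sq_not_dvd ha hb hg hg0 k0 hk00⟩
  choose e he using fun k => hS.dvd_mnr k
  obtain ⟨γ, hγ⟩ := exists_gamma hg hg0 (qf_e_homog B ha hb hg hg0 he) (hS.dvd_qf hne e he)
  by_cases hγ0 : γ = 0
  · -- a rational point
    rw [hγ0, map_zero, zero_mul] at hγ
    have h1 := map_qf' ((aeval tvec : R3 →ₐ[ℂ] RatK) : R3 →+* RatK) (QR B) e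
    rw [hγ, map_zero] at h1
    have h2 : qf ((QR B).map (aeval tvec : R3 →ₐ[ℂ] RatK)) (fun i => aeval tvec (e i)) = 0 :=
      h1.symm
    rw [qf_QR] at h2
    refine rational_of_isotropic B hp nd (fun i => aeval tvec (e i)) ?_ ?_
    · intro h3
      apply hk0
      have h4 : (aeval tvec : R3 →ₐ[ℂ] RatK) (e k0) = 0 := congrFun h3 k0
      rw [he, map_mul, h4, mul_zero]
    · rw [qf_qmat]
      simpa using h2
  -- the identity
  have hCγ : IsUnit (C γ : R3) := (IsUnit.mk0 γ hγ0).map C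
  have h2u : IsUnit (2 : R3) := by
    have h1 : (2 : R3) = C 2 := (map_ofNat C 2).symm
    rw [h1]
    exact (IsUnit.mk0 (2 : ℂ) two_ne_zero).map C
  obtain ⟨A, hAs, hA⟩ := hS.identity h2u hne e he (C γ) hCγ hγ
  have hAh := A_homog B ha hb hg hg0 he ⟨k0, hk00⟩ γ hAs hA
  have hex : ∀ p : R3, ∃ α : Matrix (Fin 3) (Fin 3) ℂ, p.IsHomogeneous 2 →
      p = qf α (X : Fin 3 → R3) := by
    intro p
    by_cases h : p.IsHomogeneous 2
    · obtain ⟨α, _, hα⟩ := exists_sym_of_homog p h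
      exact ⟨α, fun _ => hα⟩
    · exact ⟨0, fun h' => absurd h' h⟩
  choose Φ hΦ using hex
  set Θ : Fin 3 → Fin 3 → Matrix (Fin 3) (Fin 3) ℂ := fun i j => Φ (A i j) with hΘ
  have hΘs : ∀ i j, Θ i j = Θ j i := fun i j => by
    simp only [Θ]
    rw [hAs]
  have hAΘ : A = Matrix.of fun i j => qf (Θ i j) (X : Fin 3 → R3) := by
    ext1 i j
    exact hΦ _ (hAh i j)
  have hid : ∀ v : Fin 4 → R3, pf (QR B) e v ^ 2 - 4 * C γ * g * qf (QR B) v =
      qf (Matrix.of fun i j => qf (Θ i j) (X : Fin 3 → R3)) (act N v) := by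
    rw [← hAΘ]
    exact hA
  -- the point
  have S : Setup B a b m g e γ Θ :=
    { ha := ha
      hb := hb
      hgp := hgp
      hg := hg
      he := he
      hk := ⟨k0, hk0⟩
      hγ := hγ0
      hqe := hγ
      hΘ := hΘs
      hid := hid
      nd := nd }
  obtain ⟨v', u', hv', hu'⟩ := S.exists_second hm hτ hW (fun w hw j => by
    rw [Fin.sum_univ_succ]
    exact hWN w hw j) hs hdeg (fun d hd _ => rank3 Q hQs hQ hC d hd)
    (fun d hd _ => S.rank2 Q hQs hQ hC d hd)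
  refine rational_of_fourGenerated' B hp nd fun E' _ _ _ _ η H htr => ?_
  obtain ⟨t', x', s', ht', hx', hgen, hs'⟩ :=
    exists_double B N Θ e g γ hγ0 hid he hγ k0 hk0 H
  exact fourGenerated_of_second htr t' x' s' ht' hx' hgen Θ hs' v' u' hv' hu'

end Vale.Agent.P287.H69
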