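import Vale.Agent.P287.H631.SpringerQ
import Vale.Agent.P287.FunctionField

/-!
The field generated over `ℂ(s₀, s₁)` by the coefficients of two generic linear forms in six
variables.
-/

open MvPolynomial

namespace Vale.Agent.P287.H69

open Vale.Agent.P287

/-- Indices of the coefficients of the two linear forms. -/
abbrev J : Type := Fin 2 × Fin 6

/-- Polynomials in the coefficients of the two linear forms. -/
abbrev PR : Type := MvPolynomial J RatK

/-- The field generated by the coefficients of the two linear forms. -/
abbrev PF : Type := FractionRing PR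

instance : CharZero RatK := charZero_of_injective_algebraMap (algebraMap ℂ RatK).injective
instance : CharZero PF := charZero_of_injective_algebraMap (algebraMap ℂ PF).injective

example : IsScalarTower ℂ RatK PF := inferInstance
example : IsScalarTower RatK PR PF := inferInstance
example : IsScalarTower ℂ RatK PR := inferInstance

/-- The coefficients. -/
noncomputable def gl (i : Fin 2) (a : Fin 6) : PF := algebraMap PR PF (X (i, a))

lemma isSquare_of_frac {R K : Type} [CommRing R] [IsDomain R] [IsIntegrallyClosed R] [Field K]
    [Algebra R K] [IsFractionRing R K] (a : R) (h : IsSquare (algebraMap R K a)) : IsSquare a := by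
  obtain ⟨b, hb⟩ := h
  have h1 : IsIntegral R b := by
    apply IsIntegral.of_pow (n := 2) (by norm_num)
    rw [sq, ← hb]
    exact isIntegral_algebraMap
  obtain ⟨c, rfl⟩ := IsIntegrallyClosed.isIntegral_iff.mp h1
  refine ⟨c, IsFractionRing.injective R K ?_⟩
  rw [hb, map_mul]

lemma isSquare_of_odd {F k : Type} [Field F] [Field k] [Algebra F k] [CharZero F]
    (hodd : Odd (Module.finrank F k)) (a : F) (h : IsSquare (algebraMap F k a)) : IsSquare a := by
  obtain ⟨b, hb⟩ := h
  obtain ⟨w, hw, hw0⟩ := H631.springer_diag hodd (![1, -a] : Fin 2 → F) (![b, 1] : Fin 2 → k)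
    (by
      intro h
      have := congrFun h 1
      simp at this) (by
      simp only [Fin.sum_univ_two, Matrix.cons_val_zero, Matrix.cons_val_one, map_one, map_neg, hb]
      ring)
  simp only [Fin.sum_univ_two, Matrix.cons_val_zero, Matrix.cons_val_one] at hw0
  have h1 : w 1 ≠ 0 := by
    intro h1
    apply hw
    rw [h1] at hw0
    have h2 : w 0 ^ 2 = 0 := by linear_combination hw0
    funext i
    fin_cases i
    · exact eq_zero_of_pow_eq_zero h2
    · exact h1
  refine ⟨w 0 / w 1, ?_⟩
  field_simp
  linear_combination -hw0

end Vale.Agent.P287.H69
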