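import Vale.Agent.P287.Odd.Lags
import Vale.Agent.P287.Odd.Deg
import Vale.Agent.P287.H908.Frob
import Vale.Agent.P287.H946.CodimC

/-!
The parity of the number of sections of `O(m - 1) ⊕ J(m + 2)` on the curve `g = 0`.
-/

namespace Vale.Agent.P287.H69

open Polynomial Matrix Module Vale.Agent.P287.Odd

section lag

variable {k : Type} [Field k]

/-- The product of two subspaces. -/
def prodEquivSub {V W : Type*} [AddCommGroup V] [Module k V] [AddCommGroup W] [Module k W]
    (p : Submodule k V) (q : Submodule k W) : (p.prod q) ≃ₗ[k] p × q where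
  toFun w := (⟨w.1.1, w.2.1⟩, ⟨w.1.2, w.2.2⟩)
  map_add' _ _ := rfl
  map_smul' _ _ := rfl
  invFun u := ⟨(u.1, u.2), u.1.2, u.2.2⟩
  left_inv _ := rfl
  right_inv _ := rfl

instance finite_prod_sub {V W : Type*} [AddCommGroup V] [Module k V] [AddCommGroup W]
    [Module k W] (p : Submodule k V) (q : Submodule k W) [Module.Finite k p]
    [Module.Finite k q] : Module.Finite k (p.prod q) :=
  Module.Finite.equiv (prodEquivSub p q).symm

lemma finrank_prod_sub {V W : Type*} [AddCommGroup V] [Module k V] [AddCommGroup W]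
    [Module k W] (p : Submodule k V) (q : Submodule k W) [Module.Finite k p]
    [Module.Finite k q] : finrank k (p.prod q) = finrank k p + finrank k q := by
  rw [(prodEquivSub p q).finrank_eq, Module.finrank_prod]

variable {Q : Type} [CommRing Q] [Algebra k Q] [Module.Finite k Q]

/-- The bilinear form `lam (b b' - f' c c')`. -/
noncomputable def bet2 (lam : Q →ₗ[k] k) (f' : Q) : (Q × Q) →ₗ[k] (Q × Q) →ₗ[k] k :=
  LinearMap.mk₂ k (fun x y => lam (x.1 * y.1 - f' * (x.2 * y.2)))
    (fun x x' y => by
      rw [← map_add]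
      congr 1
      simp only [Prod.fst_add, Prod.snd_add]
      ring)
    (fun c x y => by
      rw [← map_smul]
      congr 1
      simp only [Prod.smul_fst, Prod.smul_snd, smul_mul_assoc, mul_smul_comm, smul_sub])
    (fun x y y' => by
      rw [← map_add]
      congr 1
      simp only [Prod.fst_add, Prod.snd_add]
      ring)
    (fun c x y => by
      rw [← map_smul]
      congr 1
      simp only [Prod.smul_fst, Prod.smul_snd, smul_mul_assoc, mul_smul_comm, smul_sub])

omit [Module.Finite k Q] in
lemma bet2_apply (lam : Q →ₗ[k] k) (f' : Q) (x y : Q × Q) :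
    bet2 lam f' x y = lam (x.1 * y.1 - f' * (x.2 * y.2)) := rfl

/-- The graph of the multiplication by `ρ`. -/
noncomputable def gr (k : Type) [Field k] {Q : Type} [CommRing Q] [Algebra k Q] (ρ : Q) :
    Submodule k (Q × Q) :=
  LinearMap.range (LinearMap.prod LinearMap.id (LinearMap.mulLeft k ρ))

omit [Module.Finite k Q] in
lemma mem_gr {ρ : Q} {x : Q × Q} : x ∈ gr k ρ ↔ x.2 = ρ * x.1 := by
  rw [gr, LinearMap.mem_range]
  constructor
  · rintro ⟨b, rfl⟩
    rfl
  · intro h
    exact ⟨x.1, Prod.ext rfl h.symm⟩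

omit [Module.Finite k Q] in
lemma gr_inj (ρ : Q) :
    Function.Injective (LinearMap.prod LinearMap.id (LinearMap.mulLeft k ρ)) := by
  intro a b h
  exact congrArg Prod.fst h

lemma finrank_gr (ρ : Q) : finrank k (gr k ρ) = finrank k Q :=
  LinearMap.finrank_range_of_inj (gr_inj ρ)

/-- The pairs killed by `P`. -/
noncomputable def ann2 (k : Type) [Field k] {Q : Type} [CommRing Q] [Algebra k Q] (P : Q) :
    Submodule k (Q × Q) := ((annI P).restrictScalars k).prod ((annI P).restrictScalars k)

omit [Module.Finite k Q] in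
lemma mem_ann2 {P : Q} {x : Q × Q} : x ∈ ann2 k P ↔ P * x.1 = 0 ∧ P * x.2 = 0 := by
  rw [ann2, Submodule.mem_prod, Submodule.restrictScalars_mem, Submodule.restrictScalars_mem,
    mem_annI, mem_annI]

theorem parity2 (h2 : (2 : k) ≠ 0) (lam : Q →ₗ[k] k)
    (hlam : ∀ u, (∀ r, lam (r * u) = 0) → u = 0) {f f' : Q} (hf : f * f' = 1)
    {ρ : Q} (hρ : ρ ^ 2 = f) {P : Q} (hP : ∀ u, P * u = 0 → ∃ w, u = P * w)
    (hPP : P * P = 0) (L₃ : Submodule k (Q × Q))
    (h33 : ∀ v ∈ L₃, ∀ w ∈ L₃, lam (v.1 * w.1 - f' * (v.2 * w.2)) = 0)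
    (h3 : finrank k Q ≤ finrank k L₃) :
    Even (finrank k (gr k ρ ⊓ L₃ : Submodule k (Q × Q)) +
      finrank k (ann2 k P ⊓ L₃ : Submodule k (Q × Q)) +
        finrank k ((annI P).restrictScalars k)) := by
  have hU : finrank k (Q × Q) = 2 * finrank k Q := by
    rw [Module.finrank_prod]
    omega
  have hs : ∀ x y, bet2 lam f' x y = bet2 lam f' y x := by
    intro x y
    rw [bet2_apply, bet2_apply, mul_comm x.1, mul_comm x.2]
  have hnd : ∀ x, (∀ y, bet2 lam f' x y = 0) → x = 0 := by
    intro x hx
    refine Prod.ext (hlam _ fun r => ?_) ?_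
    · have := hx (r, 0)
      rw [bet2_apply] at this
      simp only [mul_zero, sub_zero] at this
      rwa [mul_comm]
    · have h4 : f' * x.2 = 0 := by
        refine hlam _ fun r => ?_
        have := hx (0, r)
        rw [bet2_apply] at this
        simp only [mul_zero, zero_sub, map_neg, neg_eq_zero] at this
        rw [← this]
        congr 1
        ring
      calc x.2 = (f * f') * x.2 := by rw [hf, one_mul]
        _ = f * (f' * x.2) := by ring
        _ = 0 := by rw [h4, mul_zero]
  -- isotropic subspaces have at most half the dimension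
  have hle : ∀ L : Submodule k (Q × Q), (∀ x ∈ L, ∀ y ∈ L, bet2 lam f' x y = 0) →
      2 * finrank k L ≤ finrank k (Q × Q) := by
    intro L hL
    set T : Submodule k (Q × Q) :=
      { carrier := {x | ∀ y ∈ L, bet2 lam f' x y = 0}
        add_mem' := fun {a b} ha hb y hy => by
          rw [map_add, LinearMap.add_apply, ha y hy, hb y hy, add_zero]
        zero_mem' := fun y _ => by rw [map_zero, LinearMap.zero_apply]
        smul_mem' := fun c a ha y hy => by
          rw [map_smul, LinearMap.smul_apply, ha y hy, smul_zero] } with hT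
    have h4 := finrank_orth (bet2 lam f') hnd L T (fun x => Iff.rfl)
    have h5 : L ≤ T := fun x hx y hy => hL x hx y hy
    have h6 := Submodule.finrank_mono h5
    omega
  have e3 : finrank k L₃ = finrank k Q := by
    have := hle L₃ h33
    omega
  have hann := finrank_annI (k := k) hP hPP
  have e1 : finrank k (ann2 k P) = 2 * finrank k ((annI P).restrictScalars k) := by
    rw [ann2, finrank_prod_sub]
    omega
  have e2 := finrank_gr (k := k) ρ
  have h11 : ∀ x ∈ ann2 k P, ∀ y ∈ ann2 k P, bet2 lam f' x y = 0 := by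
    intro x hx y hy
    rw [mem_ann2] at hx hy
    obtain ⟨a, ha⟩ := hP _ hx.1
    obtain ⟨b, hb⟩ := hP _ hx.2
    have h4 : x.1 * y.1 - f' * (x.2 * y.2) = 0 := by
      rw [ha, hb]
      linear_combination a * hy.1 - f' * b * hy.2
    rw [bet2_apply, h4, map_zero]
  have h22 : ∀ x ∈ gr k ρ, ∀ y ∈ gr k ρ, bet2 lam f' x y = 0 := by
    intro x hx y hy
    rw [mem_gr] at hx hy
    have h4 : x.1 * y.1 - f' * (x.2 * y.2) = 0 := by
      rw [hx, hy]
      linear_combination (-(f' * x.1 * y.1)) * hρ - x.1 * y.1 * hf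
    rw [bet2_apply, h4, map_zero]
  have h12 : (ann2 k P ⊓ gr k ρ : Submodule k (Q × Q)) =
      ((annI P).restrictScalars k).map (LinearMap.prod LinearMap.id (LinearMap.mulLeft k ρ)) := by
    ext x
    rw [Submodule.mem_inf, mem_ann2, mem_gr, Submodule.mem_map]
    constructor
    · rintro ⟨h4, h5⟩
      exact ⟨x.1, mem_annI.mpr h4.1, Prod.ext rfl h5.symm⟩
    · rintro ⟨b, hb, rfl⟩
      have hb' : P * b = 0 := mem_annI.mp hb
      refine ⟨⟨hb', ?_⟩, rfl⟩
      change P * (ρ * b) = 0
      linear_combination ρ * hb'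
  have e12 : finrank k (ann2 k P ⊓ gr k ρ : Submodule k (Q × Q)) =
      finrank k ((annI P).restrictScalars k) := by
    rw [h12]
    exact (((annI P).restrictScalars k).equivMapOfInjective _ (gr_inj ρ)).finrank_eq.symm
  have hmain := lagrangian_triple h2 (bet2 lam f') hs hnd (ann2 k P) (gr k ρ) L₃ h11 h22 h33
    (by omega) (by omega) (by omega)
  obtain ⟨r, hr⟩ := hmain
  refine ⟨r - finrank k ((annI P).restrictScalars k), ?_⟩
  omega

end lag

end Vale.Agent.P287.H69
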