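import Vale.Agent.P287.H69.SecondPoint
import Vale.Agent.P287.H69.Disc
import Vale.Agent.P287.H925.Final
import Vale.Agent.P287.Param

/-!
The matrix of the quadric surface fibration, and the consequences of the smoothness of the
discriminant.
-/

open MvPolynomial

namespace Vale.Agent.P287.H69

open Vale.Agent.P287 Vale.Agent.P287.H631

section

variable (M : Matrix (Fin 4) (Fin 4) R3)

/-- the value of the cubic form at a point -/
lemma aeval_wvec_cubicOf' (hdeg : ∀ i j, (M i j).IsHomogeneous (1 + H925.wt i + H925.wt j))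
    {A : Type} [CommRing A] [Algebra ℂ A] (t : Fin 3 → A) (v : Fin 4 → A) :
    aeval (wvec t v) (H925.cubicOf M) =
      v 0 * ∑ i, ∑ j, aeval t (M i j) * (v (H925.perm4 i) * v (H925.perm4 j)) := by
  have h1 : ∀ (p : MvPolynomial (Fin 3) ℂ) (n : ℕ), p.IsHomogeneous n →
      aeval (wvec t v) (rename H925.emb p) = v 0 ^ n * aeval t p := by
    intro p n hp
    rw [aeval_rename]
    have h2 : wvec t v ∘ H925.emb = fun k => v 0 * t k := by
      funext k
      fin_cases k <;> rfl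
    rw [h2, H925.aeval_scale hp]
  have h2 : ∀ i, v 0 ^ (H925.wt i) * aeval (wvec t v) (H925.vv i) = v (H925.perm4 i) := by
    intro i
    fin_cases i
    · change v 0 ^ 0 * aeval (wvec t v) (X 3) = v 1
      rw [aeval_X, pow_zero, one_mul]; rfl
    · change v 0 ^ 0 * aeval (wvec t v) (X 4) = v 2
      rw [aeval_X, pow_zero, one_mul]; rfl
    · change v 0 ^ 0 * aeval (wvec t v) (X 5) = v 3
      rw [aeval_X, pow_zero, one_mul]; rfl
    · change v 0 ^ 1 * aeval (wvec t v) 1 = v 0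
      rw [map_one, pow_one, mul_one]
  rw [H925.cubicOf_eq]
  simp only [map_sum, map_mul, Finset.mul_sum]
  refine Finset.sum_congr rfl fun i _ => Finset.sum_congr rfl fun j _ => ?_
  rw [h1 _ _ (hdeg i j), ← h2 i, ← h2 j, pow_add, pow_add]
  ring

/-- The matrix in the order `v₀, …, v₃` of the coordinates. -/
def Q4 : Matrix (Fin 4) (Fin 4) R3 := M.submatrix H925.perm4.symm H925.perm4.symm

lemma Q4_det : (Q4 M).det = M.det := Matrix.det_submatrix_equiv_self _ _

lemma Q4_symm (hM : M.IsSymm) : (Q4 M).IsSymm :=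
  Matrix.ext fun _ _ => hM.apply _ _

lemma qf_Q4 (v : Fin 4 → R3) :
    qf (Q4 M) v = ∑ i, ∑ j, M i j * (v (H925.perm4 i) * v (H925.perm4 j)) := by
  simp only [qf, Q4, Matrix.submatrix_apply, Algebra.algebraMap_self, RingHom.id_apply]
  rw [← Equiv.sum_comp H925.perm4]
  refine Finset.sum_congr rfl fun i _ => ?_
  rw [← Equiv.sum_comp H925.perm4]
  simp

/-- Two quadratic forms which agree outside of a hyperplane are equal. -/
lemma qf_eq_of_ne (Q Q' : Matrix (Fin 4) (Fin 4) R3)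
    (h : ∀ v : Fin 4 → R3, v 0 ≠ 0 → qf Q v = qf Q' v) (v : Fin 4 → R3) : qf Q v = qf Q' v := by
  by_cases hv : v 0 = 0
  · set u : Fin 4 → R3 := Pi.single 0 1 with hu
    have hu0 : u 0 = 1 := by rw [hu, Pi.single_eq_same]
    have h1 := h (v + u) (by rw [Pi.add_apply, hv, hu0, zero_add]; exact one_ne_zero)
    have h2 := h (v + (-1 : R3) • u) (by
      rw [Pi.add_apply, Pi.smul_apply, hv, hu0, zero_add, smul_eq_mul, mul_one]
      exact neg_ne_zero.mpr one_ne_zero)
    have h3 := h u (by rw [hu0]; exact one_ne_zero)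
    rw [qf_add, qf_add] at h1 h2
    rw [qf_smul, qf_smul, pf_smul_right, pf_smul_right] at h2
    have h4 : (2 : R3) * qf Q v = 2 * qf Q' v := by linear_combination h1 + h2 - 2 * h3
    exact mul_left_cancel₀ two_ne_zero h4
  · exact h v hv

/-- The two matrices of the family of quadratic forms define the same forms. -/
lemma qf_QR_eq (hdeg : ∀ i j, (M i j).IsHomogeneous (1 + H925.wt i + H925.wt j))
    {B : Fin 3 → Matrix (Fin 6) (Fin 6) ℂ} (hB : H925.cubicOf M = cubic B) (v : Fin 4 → R3) :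
    qf (QR B) v = qf (Q4 M) v := by
  refine qf_eq_of_ne _ _ (fun v hv => ?_) v
  have h1 := aeval_wvec_cubicOf' M hdeg (X : Fin 3 → R3) v
  rw [hB, aeval_cubic_wvec] at h1
  have h2 := mul_left_cancel₀ hv h1
  have h3 : qf (QR B) v = net B (X : Fin 3 → R3) (wvec (X : Fin 3 → R3) v) := by
    rw [← qf_QR]
    congr 1
    ext1 i j
    simp
  rw [h3, h2, qf_Q4]
  refine Finset.sum_congr rfl fun i _ => Finset.sum_congr rfl fun j _ => ?_
  congr 1
  simp

end

section

variable {B : Fin 3 → Matrix (Fin 6) (Fin 6) ℂ} {a : Fin 3 → Fin 3 → R3} {b : Fin 3 → R3}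
  {m : ℕ} {g : R3} {e : Fin 4 → R3} {γ : ℂ} {Θ : Fin 3 → Fin 3 → Matrix (Fin 3) (Fin 3) ℂ}

/-- The first quadric surface has rank at least three at the constant points. -/
lemma rank3 (Q : Matrix (Fin 4) (Fin 4) R3) (hQs : Q.IsSymm)
    (hQ : ∀ v : Fin 4 → R3, qf (QR B) v = qf Q v)
    (hC : ∀ z : Fin 3 → ℂ, (∀ i, aeval z (pderiv i Q.det) = 0) → z = 0) (d : Fin 3 → ℂ)
    (hd : d ≠ 0) : Rank3 B d := by
  obtain ⟨r, s, hrs⟩ : ∃ r s : Fin 4, aeval d (Q.submatrix r.succAbove s.succAbove).det ≠ 0 := by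
    by_contra h
    push Not at h
    exact hd (hC d fun i => two_minors_four Q d h i)
  have h1 : (((Q.map (aeval d : R3 →ₐ[ℂ] ℂ))).submatrix r.succAbove s.succAbove).det ≠ 0 := by
    have h2 := RingHom.map_det ((aeval d : R3 →ₐ[ℂ] ℂ) : R3 →+* ℂ)
      (Q.submatrix r.succAbove s.succAbove)
    intro h3
    apply hrs
    refine h2.trans ?_
    rw [← h3]
    rfl
  obtain ⟨P, P', δ, h2, h3, _, h4, _⟩ := sum_sq (Q.map (aeval d : R3 →ₐ[ℂ] ℂ)) (by
    ext i j
    simp only [Matrix.transpose_apply, Matrix.map_apply]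
    rw [hQs.apply]) r s h1
  refine ⟨P, P', δ, h2, h3, fun u => ?_⟩
  rw [← h4 u]
  have h5 := congrArg (aeval d : R3 →ₐ[ℂ] ℂ) (hQ fun i => C (act P u i))
  have h6 : ∀ T : Matrix (Fin 4) (Fin 4) R3, aeval d (qf T (fun i => (C (act P u i) : R3))) =
      qf (T.map (aeval d : R3 →ₐ[ℂ] ℂ)) (act P u) := by
    intro T
    simp only [qf, Algebra.algebraMap_self, RingHom.id_apply, map_sum, map_mul, Matrix.map_apply,
      aeval_C]
  rw [h6, h6] at h5
  exact h5

/-- The matrix of the second fibration has rank at least two at the constant points. -/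
lemma Setup.rank2 (S : Setup B a b m g e γ Θ) (Q : Matrix (Fin 4) (Fin 4) R3) (hQs : Q.IsSymm)
    (hQ : ∀ v : Fin 4 → R3, qf (QR B) v = qf Q v)
    (hC : ∀ z : Fin 3 → ℂ, (∀ i, aeval z (pderiv i Q.det) = 0) → z = 0) (d : Fin 3 → ℂ)
    (hd : d ≠ 0) : ∃ i j c c', qf (Θ i c) d * qf (Θ j c') d ≠ qf (Θ i c') d * qf (Θ j c) d := by
  by_contra hcon
  push Not at hcon
  apply hd
  apply hC
  intro i
  set A : Matrix (Fin 3) (Fin 3) R3 := Matrix.of fun i j => qf (Θ i j) (X : Fin 3 → R3) with hA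
  have hpf : ∀ u v : Fin 4 → R3, pf (QR B) u v = pf Q u v := by
    intro u v
    rw [pf_eq_sub, pf_eq_sub, hQ, hQ, hQ]
  have hAs : A.IsSymm := by
    ext i j
    simp only [A, Matrix.transpose_apply, Matrix.of_apply]
    rw [S.hΘ]
  have he0 : e ≠ 0 := by
    intro h
    obtain ⟨k, hk⟩ := S.hk
    rw [S.he, h] at hk
    simp at hk
  have hdet := det_A (R := R3) two_ne_zero Q hQs (Nm a b) A hAs e g (C γ) S.he (by
    rw [← hQ]
    exact S.hqe) he0 S.hgp.ne_zero (fun v => by
      rw [← hQ, ← hpf]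
      exact S.hid v)
  have h1 := two_minors_three A d (fun r s c c' => by
    rw [map_sub, map_mul, map_mul, sub_eq_zero]
    simp only [A, Matrix.of_apply, aeval_qfX]
    exact hcon r s c c') i
  rw [hdet] at h1
  have h2 : (-64 * C γ ^ 2 * Q.det : R3) = C (-64 * γ ^ 2) * Q.det := by
    rw [map_mul, map_pow, map_neg, map_ofNat]
  rw [h2, pderiv_C_mul, map_mul, aeval_C] at h1
  refine (mul_eq_zero.mp h1).resolve_left ?_
  simpa using S.hγ

end

end Vale.Agent.P287.H69
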