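import Mathlib

/-!
The resultant of two plane curves of degree `n` has degree `n ^ 2`.
-/

open Polynomial

namespace Vale.Agent.P287.H69

section

variable {F : Type} [Field F] (p2 : Fin 3 → F)

/-- The polynomial `p(s + Y p2)` in `Y`. -/
noncomputable def linePoly {S : Type} [CommRing S] [Algebra F S] (s : Fin 3 → S)
    (p : MvPolynomial (Fin 3) F) : S[X] :=
  MvPolynomial.aeval (fun i => C (s i) + C (algebraMap F S (p2 i)) * X) p

lemma linePoly_map {S S' : Type} [CommRing S] [Algebra F S] [CommRing S'] [Algebra F S']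
    (f : S →ₐ[F] S') (s : Fin 3 → S) (p : MvPolynomial (Fin 3) F) :
    (linePoly p2 s p).map (f : S →+* S') = linePoly p2 (fun i => f (s i)) p := by
  unfold linePoly
  have h := MvPolynomial.comp_aeval_apply (mapAlgHom f)
    (f := fun i => C (s i) + C (algebraMap F S (p2 i)) * X) p
  rw [coe_mapAlgHom] at h
  change Polynomial.map (f : S →+* S') _ = _ at h
  rw [h]
  congr 2
  funext i
  simp

lemma linePoly_eval {S : Type} [CommRing S] [Algebra F S] (s : Fin 3 → S)
    (p : MvPolynomial (Fin 3) F) (y : S) :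
    (linePoly p2 s p).eval y =
      MvPolynomial.aeval (fun i => s i + algebraMap F S (p2 i) * y) p := by
  unfold linePoly
  induction p using MvPolynomial.induction_on with
  | C a => simp [MvPolynomial.algHom_C]
  | add p q hp hq => simp only [map_add, eval_add, hp, hq]
  | mul_X p i hp => simp only [map_mul, eval_mul, hp, MvPolynomial.aeval_X, eval_add, eval_C,
      eval_X]

variable {n : ℕ} {p : MvPolynomial (Fin 3) F} (hp : p.IsHomogeneous n)

include hp in
lemma linePoly_coeff {S : Type} [CommRing S] [Algebra F S] (s : Fin 3 → S) :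
    (linePoly p2 s p).natDegree ≤ n ∧
      (linePoly p2 s p).coeff n = algebraMap F S (MvPolynomial.eval p2 p) := by
  have hlin : ∀ (i : Fin 3) (k : ℕ), ((C (s i) + C (algebraMap F S (p2 i)) * X) ^ k).natDegree ≤ k ∧
      ((C (s i) + C (algebraMap F S (p2 i)) * X) ^ k).coeff k = algebraMap F S (p2 i) ^ k := by
    intro i k
    have h1 : (C (s i) + C (algebraMap F S (p2 i)) * X).natDegree ≤ 1 := by
      rw [add_comm]
      exact natDegree_linear_le
    constructor
    · calc _ ≤ k * (C (s i) + C (algebraMap F S (p2 i)) * X).natDegree := natDegree_pow_le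
        _ ≤ k * 1 := Nat.mul_le_mul_left k h1
        _ = k := mul_one k
    · have h2 := coeff_pow_of_natDegree_le (m := k) h1
      rw [mul_one] at h2
      rw [h2]
      simp [coeff_X]
  have hsum : linePoly p2 s p = ∑ d ∈ p.support, C (algebraMap F S (p.coeff d)) *
      ((C (s 0) + C (algebraMap F S (p2 0)) * X) ^ (d 0) *
        (C (s 1) + C (algebraMap F S (p2 1)) * X) ^ (d 1) *
        (C (s 2) + C (algebraMap F S (p2 2)) * X) ^ (d 2)) := by
    unfold linePoly
    rw [MvPolynomial.aeval_def, MvPolynomial.eval₂_eq']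
    refine Finset.sum_congr rfl fun d _ => ?_
    rw [Fin.prod_univ_three]
    rfl
  have hdeg : ∀ d ∈ p.support, d 0 + d 1 + d 2 = n := by
    intro d hd
    have h1 := hp (MvPolynomial.mem_support_iff.mp hd)
    rw [Finsupp.weight_apply, Finsupp.sum_fintype _ _ (by simp), Fin.sum_univ_three] at h1
    simpa using h1
  have hmon : ∀ d ∈ p.support,
      ((C (s 0) + C (algebraMap F S (p2 0)) * X) ^ (d 0) *
        (C (s 1) + C (algebraMap F S (p2 1)) * X) ^ (d 1) *
        (C (s 2) + C (algebraMap F S (p2 2)) * X) ^ (d 2)).natDegree ≤ n ∧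
      ((C (s 0) + C (algebraMap F S (p2 0)) * X) ^ (d 0) *
        (C (s 1) + C (algebraMap F S (p2 1)) * X) ^ (d 1) *
        (C (s 2) + C (algebraMap F S (p2 2)) * X) ^ (d 2)).coeff n =
        algebraMap F S (p2 0) ^ (d 0) * algebraMap F S (p2 1) ^ (d 1) *
        algebraMap F S (p2 2) ^ (d 2) := by
    intro d hd
    have h0 := hlin 0 (d 0)
    have h1 := hlin 1 (d 1)
    have h2 := hlin 2 (d 2)
    have h01 : ((C (s 0) + C (algebraMap F S (p2 0)) * X) ^ (d 0) *
        (C (s 1) + C (algebraMap F S (p2 1)) * X) ^ (d 1)).natDegree ≤ d 0 + d 1 :=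
      natDegree_mul_le.trans (Nat.add_le_add h0.1 h1.1)
    rw [← hdeg d hd]
    constructor
    · exact natDegree_mul_le.trans (Nat.add_le_add h01 h2.1)
    · rw [coeff_mul_add_eq_of_natDegree_le h01 h2.1, coeff_mul_add_eq_of_natDegree_le h0.1 h1.1, h0.2, h1.2, h2.2]
  constructor
  · rw [hsum]
    refine natDegree_sum_le_of_forall_le _ _ fun d hd => ?_
    exact (natDegree_C_mul_le _ _).trans (hmon d hd).1
  · rw [hsum, finsetSum_coeff, MvPolynomial.eval_eq', map_sum]
    refine Finset.sum_congr rfl fun d hd => ?_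
    rw [coeff_C_mul, (hmon d hd).2, map_mul, Fin.prod_univ_three, map_mul, map_mul, map_pow,
      map_pow, map_pow]

include hp in
lemma linePoly_natDegree {S : Type} [CommRing S] [Nontrivial S] [Algebra F S] (s : Fin 3 → S)
    (h2 : MvPolynomial.eval p2 p ≠ 0) :
    (linePoly p2 s p).natDegree = n ∧
      (linePoly p2 s p).leadingCoeff = algebraMap F S (MvPolynomial.eval p2 p) := by
  obtain ⟨h3, h4⟩ := linePoly_coeff p2 hp s
  have h5 : (linePoly p2 s p).natDegree = n := by
    refine le_antisymm h3 (le_natDegree_of_ne_zero ?_)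
    rw [h4]
    intro h6
    exact h2 ((algebraMap F S).injective (by rw [h6, map_zero]))
  refine ⟨h5, ?_⟩
  rw [leadingCoeff, h5, h4]

include hp in
lemma aeval_smul_hom {S : Type} [CommRing S] [Algebra F S] (c : S) (s : Fin 3 → S) :
    MvPolynomial.aeval (fun i => c * s i) p = c ^ n * MvPolynomial.aeval s p := by
  rw [MvPolynomial.aeval_def, MvPolynomial.aeval_def, MvPolynomial.eval₂_eq',
    MvPolynomial.eval₂_eq', Finset.mul_sum]
  refine Finset.sum_congr rfl fun d hd => ?_
  have h1 := hp (MvPolynomial.mem_support_iff.mp hd)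
  rw [Finsupp.weight_apply, Finsupp.sum_fintype _ _ (by simp), Fin.sum_univ_three] at h1
  have h2 : d 0 + d 1 + d 2 = n := by simpa using h1
  rw [Fin.prod_univ_three, Fin.prod_univ_three, ← h2, mul_pow, mul_pow, mul_pow, pow_add, pow_add]
  ring

include hp in
lemma linePoly_smul (s : Fin 3 → F) (c : F) (hc : c ≠ 0) (h2 : MvPolynomial.eval p2 p ≠ 0) :
    linePoly p2 (fun i => c * s i) p = scaleRoots (linePoly p2 s p) c := by
  ext i
  rw [coeff_scaleRoots, (linePoly_natDegree p2 hp s h2).1]
  rcases lt_or_ge n i with h | h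
  · rw [coeff_eq_zero_of_natDegree_lt, coeff_eq_zero_of_natDegree_lt, zero_mul]
    · exact (linePoly_natDegree p2 hp s h2).1.trans_lt h
    · exact (linePoly_natDegree p2 hp _ h2).1.trans_lt h
  have h3 : (linePoly p2 (fun i => c * s i) p).comp (C c * X) = C c ^ n * linePoly p2 s p := by
    unfold linePoly
    rw [← aeval_smul_hom hp]
    have h4 := MvPolynomial.comp_aeval_apply (Polynomial.aeval (R := F) (C c * X))
      (f := fun i => C (c * s i) + C (algebraMap F F (p2 i)) * X) p
    rw [Polynomial.aeval_def] at h4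
    change Polynomial.comp _ _ = _ at h4
    rw [h4]
    congr 2
    funext i
    simp only [Algebra.algebraMap_self, RingHom.id_apply, map_add, map_mul, aeval_C, aeval_X,
      algebraMap_eq]
    ring
  have h5 := congrArg (fun q => q.coeff i) h3
  simp only [comp_C_mul_X_coeff, ← C_pow, coeff_C_mul] at h5
  have h6 : c ^ n = c ^ (n - i) * c ^ i := by rw [← pow_add, Nat.sub_add_cancel h]
  rw [h6] at h5
  have h7 : c ^ i ≠ 0 := pow_ne_zero _ hc
  apply mul_right_cancel₀ h7
  rw [h5]
  ring

variable {n' : ℕ} {q : MvPolynomial (Fin 3) F} (hq : q.IsHomogeneous n')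

include hp hq in
lemma resultant_eval (h2 : MvPolynomial.eval p2 p ≠ 0) (h2' : MvPolynomial.eval p2 q ≠ 0)
    (a b : Fin 3 → F) (c : F) :
    (resultant (linePoly p2 (fun i => C (a i) + C (b i) * X) p)
      (linePoly p2 (fun i => C (a i) + C (b i) * X) q)).eval c =
    resultant (linePoly p2 (fun i => a i + b i * c) p)
      (linePoly p2 (fun i => a i + b i * c) q) := by
  have e3 : (fun i => (Polynomial.aeval (R := F) c) (C (a i) + C (b i) * X)) =
      fun i => a i + b i * c := by
    funext i
    simp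
  have e1 := linePoly_map p2 (Polynomial.aeval (R := F) c) (fun i => C (a i) + C (b i) * X) p
  have e2 := linePoly_map p2 (Polynomial.aeval (R := F) c) (fun i => C (a i) + C (b i) * X) q
  rw [e3] at e1 e2
  have e4 : ∀ r : F[X], r.eval c = ((Polynomial.aeval (R := F) c : F[X] →ₐ[F] F) : F[X] →+* F) r := by
    intro r
    simp
  rw [e4, ← resultant_map_map, e1, e2, (linePoly_natDegree p2 hp _ h2).1,
    (linePoly_natDegree p2 hp _ h2).1, (linePoly_natDegree p2 hq _ h2').1,
    (linePoly_natDegree p2 hq _ h2').1]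

lemma natDegree_of_reverse [Infinite F] (h h' : F[X]) (N : ℕ) (h0 : h'.coeff 0 ≠ 0)
    (hc : ∀ c : F, c ≠ 0 → h.eval c = c ^ N * h'.eval c⁻¹) : h.natDegree = N := by
  have hpoly : X ^ h'.natDegree * h = X ^ N * h'.reverse := by
    apply eq_of_infinite_eval_eq
    apply Set.Infinite.mono (s := {c : F | c ≠ 0})
    · intro c hc'
      have hc0 : c ≠ 0 := hc'
      simp only [Set.mem_setOf_eq, eval_mul, eval_pow, eval_X]
      rw [hc c hc0]
      have : Invertible c⁻¹ := invertibleOfNonzero (inv_ne_zero hc0)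
      have e1 := eval₂_reverse_mul_pow (RingHom.id F) c⁻¹ h'
      rw [invOf_eq_inv, inv_inv] at e1
      change h'.reverse.eval c * c⁻¹ ^ h'.natDegree = h'.eval c⁻¹ at e1
      rw [← e1]
      have e2 : c ^ h'.natDegree * c⁻¹ ^ h'.natDegree = 1 := by
        rw [← mul_pow, mul_inv_cancel₀ hc0, one_pow]
      calc c ^ h'.natDegree * (c ^ N * (eval c h'.reverse * c⁻¹ ^ h'.natDegree)) =
          (c ^ h'.natDegree * c⁻¹ ^ h'.natDegree) * (c ^ N * eval c h'.reverse) := by ring
        _ = _ := by rw [e2, one_mul]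
    · exact Set.infinite_of_finite_compl (by
        have : ({c : F | c ≠ 0})ᶜ = {0} := by
          ext c
          simp
        rw [this]
        exact Set.finite_singleton 0)
  have hh0 : h' ≠ 0 := by
    rintro h5
    rw [h5] at h0
    simp at h0
  have hr0 : h'.reverse ≠ 0 := by
    rwa [Ne, reverse_eq_zero]
  have hhne : h ≠ 0 := by
    intro h5
    rw [h5, mul_zero] at hpoly
    exact (mul_ne_zero (pow_ne_zero _ X_ne_zero) hr0) hpoly.symm
  have h6 := congrArg natDegree hpoly
  rw [natDegree_mul (pow_ne_zero _ X_ne_zero) hhne, natDegree_mul (pow_ne_zero _ X_ne_zero) hr0,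
    natDegree_X_pow, natDegree_X_pow, reverse_natDegree,
    natTrailingDegree_eq_zero_of_constantCoeff_ne_zero (by simpa using h0), tsub_zero] at h6
  omega

include hp hq in
/-- The degree of the resultant. -/
theorem natDegree_resultant [Infinite F] (p0 p1 : Fin 3 → F)
    (h2 : MvPolynomial.eval p2 p ≠ 0) (h2' : MvPolynomial.eval p2 q ≠ 0)
    (h1 : resultant (linePoly p2 p1 p) (linePoly p2 p1 q) ≠ 0) :
    (resultant (linePoly p2 (fun i => C (p0 i) + C (p1 i) * X) p)
      (linePoly p2 (fun i => C (p0 i) + C (p1 i) * X) q)).natDegree = n * n' := by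
  have hev := resultant_eval p2 hp hq h2 h2'
  refine natDegree_of_reverse _ (resultant (linePoly p2 (fun i => C (p1 i) + C (p0 i) * X) p)
      (linePoly p2 (fun i => C (p1 i) + C (p0 i) * X) q)) _ ?_ ?_
  · rw [coeff_zero_eq_eval_zero, hev]
    have e1 : (fun i => p1 i + p0 i * 0) = p1 := by
      funext i
      rw [mul_zero, add_zero]
    rw [e1]
    exact h1
  · intro c hc
    rw [hev, hev]
    have e1 : (fun i => p0 i + p1 i * c) = fun i => c * (p1 i + p0 i * c⁻¹) := by
      funext i
      rw [mul_add, mul_left_comm, mul_inv_cancel₀ hc, mul_one, mul_comm c, add_comm]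
    rw [e1, linePoly_smul p2 hp _ c hc h2, linePoly_smul p2 hq _ c hc h2', resultant_scaleRoots,
      (linePoly_natDegree p2 hp _ h2).1, (linePoly_natDegree p2 hq _ h2').1]

end

end Vale.Agent.P287.H69
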