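import Vale.Agent.P287.H69.Local

/-!
The second quadric surface has a smooth point over `ℂ(s₀, s₁)`, if the degree of the scroll is even.
-/

open MvPolynomial

namespace Vale.Agent.P287.H69

open Vale.Agent.P287 Vale.Agent.P287.H631

variable {B : Fin 3 → Matrix (Fin 6) (Fin 6) ℂ} {a : Fin 3 → Fin 3 → R3} {b : Fin 3 → R3}
  {m : ℕ} {g : R3} {e : Fin 4 → R3} {γ : ℂ} {Θ : Fin 3 → Fin 3 → Matrix (Fin 3) (Fin 3) ℂ}

lemma exists_minor {N : Matrix (Fin 3) (Fin 4) R3} (hgp : Prime g) (hg : ∀ c, g ∣ mnr N c)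
    (hne : ∃ c, ¬ g ^ 2 ∣ mnr N c) : ∃ i j c d, ¬ g ∣ mnr2 N i j c d := by
  classical
  by_contra hm
  push Not at hm
  obtain ⟨c, hc⟩ := hne
  apply hc
  have key : g ^ 3 ∣ mnr N c ^ 2 := by
    have h5 : ∀ i j, ∃ x, lft3 N c i j = g * x := fun i j => lft3_dvd N g hm c i j
    choose A hA using h5
    have h6 : lft3 N c = g • Matrix.of A := by
      ext1 i j
      exact hA i j
    have h7 : (lft3 N c).det = g ^ 3 * (Matrix.det (Matrix.of A)) := by
      rw [h6, Matrix.det_smul, Fintype.card_fin]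
    have h8 : g ^ 3 ∣ (lft3 N c).det := ⟨_, h7⟩
    rcases det_lft3 N c with h | h
    · rw [← h]; exact h8
    · rw [← dvd_neg, ← h]; exact h8
  obtain ⟨x, hx⟩ := hg c
  rw [hx] at key ⊢
  have h7 : g ∣ x ^ 2 := by
    have : g ^ 2 * g ∣ g ^ 2 * x ^ 2 := by
      have h8 : (g * x) ^ 2 = g ^ 2 * x ^ 2 := by ring
      rw [← h8]
      have h9 : g ^ 2 * g = g ^ 3 := by ring
      rw [h9]
      exact key
    exact (mul_dvd_mul_iff_left (pow_ne_zero 2 hgp.ne_zero)).mp this
  have h8 : g ∣ x := hgp.dvd_of_dvd_pow h7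
  rw [sq]
  exact mul_dvd_mul_left g h8

lemma mnr2_homog (ha : ∀ j i, (a j i).IsHomogeneous m) (hb : ∀ j, (b j).IsHomogeneous (m + 1))
    (i j : Fin 3) (c d : Fin 4) : ∃ n', (mnr2 (Nm a b) i j c d).IsHomogeneous n' := by
  have hN : ∀ j k, (Nm a b j k).IsHomogeneous (m + (![1, 0, 0, 0] : Fin 4 → ℕ) k) := by
    intro j k
    refine Fin.cases ?_ (fun k => ?_) k
    · exact hb j
    · have h2 : (![1, 0, 0, 0] : Fin 4 → ℕ) k.succ = 0 := by fin_cases k <;> rfl
      rw [h2, add_zero]
      exact ha j k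
  refine ⟨(m + (![1, 0, 0, 0] : Fin 4 → ℕ) c) + (m + (![1, 0, 0, 0] : Fin 4 → ℕ) d), ?_⟩
  refine ((hN i c).mul (hN j d)).sub ?_
  rw [add_comm]
  exact (hN i d).mul (hN j c)

/-- The diagonal form of the first quadric surface at a constant point. -/
def Rank3 (B : Fin 3 → Matrix (Fin 6) (Fin 6) ℂ) (d : Fin 3 → ℂ) : Prop :=
  ∃ (P P' : Matrix (Fin 4) (Fin 4) ℂ) (δ : ℂ), P * P' = 1 ∧ P' * P = 1 ∧
    ∀ u : Fin 4 → ℂ, qf ((QR B).map (aeval d : R3 →ₐ[ℂ] ℂ)) (act P u) =
      u 0 ^ 2 + u 1 ^ 2 + u 2 ^ 2 + δ * u 3 ^ 2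

/-- The diagonal form over extensions. -/
lemma diag_ext (Q P : Matrix (Fin 4) (Fin 4) ℂ) (δ : ℂ)
    (h : ∀ u : Fin 4 → ℂ, qf Q (act P u) = u 0 ^ 2 + u 1 ^ 2 + u 2 ^ 2 + δ * u 3 ^ 2)
    {A : Type} [CommRing A] [Algebra ℂ A] (u : Fin 4 → A) :
    qf Q (act P u) = u 0 ^ 2 + u 1 ^ 2 + u 2 ^ 2 + algebraMap ℂ A δ * u 3 ^ 2 := by
  set D : MvPolynomial (Fin 4) ℂ := qf Q (act P X) - (X 0 ^ 2 + X 1 ^ 2 + X 2 ^ 2 + C δ * X 3 ^ 2)
    with hD
  have key : ∀ {A' : Type} [CommRing A'] [Algebra ℂ A'] (w : Fin 4 → A'),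
      aeval w D = qf Q (act P w) - (w 0 ^ 2 + w 1 ^ 2 + w 2 ^ 2 + algebraMap ℂ A' δ * w 3 ^ 2) := by
    intro A' _ _ w
    rw [hD, map_sub, map_qf, map_act]
    simp [aeval_X]
  have hD0 : D = 0 := by
    apply MvPolynomial.funext
    intro w
    have h1 := key w
    rw [h w, Algebra.algebraMap_self, RingHom.id_apply, sub_self] at h1
    rw [map_zero]
    exact h1
  have h1 := key u
  rw [hD0, map_zero] at h1
  exact (sub_eq_zero.mp h1.symm)

/-- The second quadric surface has a smooth point over `ℂ(s₀, s₁)`. -/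
theorem Setup.exists_second (S : Setup B a b m g e γ Θ) (hm : 2 ≤ m)
    {κ : Type} [Field κ] [Algebra ℂ κ] {τ : Fin 3 → κ} {W : Submodule κ (Fin 4 → κ)}
    (hτ : ∀ p : R3, aeval τ p = 0 ↔ g ∣ p) (hW : Module.finrank κ W = 2)
    (hWN : ∀ w ∈ W, ∀ j, ∑ k, aeval τ (Nm a b j k) * w k = 0)
    {s : ℕ} (hs : Even s) (hdeg : HasDegree (scrollIdeal τ W) s)
    (hR1 : ∀ d : Fin 3 → ℂ, d ≠ 0 → aeval d g = 0 → Rank3 B d)
    (hR2 : ∀ d : Fin 3 → ℂ, d ≠ 0 → aeval d g = 0 →
      ∃ i j c c', qf (Θ i c) d * qf (Θ j c') d ≠ qf (Θ i c') d * qf (Θ j c) d) :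
    ∃ v u : Fin 4 → RatK, qf (Q2 Θ tvec) v = 0 ∧ pf (Q2 Θ tvec) v u ≠ 0 := by
  classical
  have hne : ∃ c, ¬ g ^ 2 ∣ mnr (Nm a b) c := by
    obtain ⟨k, hk⟩ := S.hk
    refine ⟨k, sq_not_dvd S.ha S.hb S.hg S.hgp.ne_zero k ?_⟩
    intro h
    rw [h, map_zero] at hk
    exact hk rfl
  obtain ⟨i0, j0, c0, d0, hnd⟩ := exists_minor S.hgp (fun c => ⟨e c, S.he c⟩) hne
  obtain ⟨n', hn'⟩ := mnr2_homog S.ha S.hb i0 j0 c0 d0
  obtain ⟨O, i1, i2, i3, i4, η, t, hodd, hηt, hD, p, u, j, hp, hu, hj, hgO⟩ :=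
    exists_place S.ha S.hb S.hgp S.hg i0 j0 c0 d0 hn' hnd
  let i5 : Algebra ℂ O := ((algebraMap PF O).comp (algebraMap ℂ PF)).toAlgebra
  let i6 : Algebra RatK O := ((algebraMap PF O).comp (algebraMap RatK PF)).toAlgebra
  have i7 : IsScalarTower ℂ PF O := IsScalarTower.of_algebraMap_eq fun _ => rfl
  have i8 : IsScalarTower RatK PF O := IsScalarTower.of_algebraMap_eq fun _ => rfl
  have i9 : IsScalarTower ℂ RatK O := IsScalarTower.of_algebraMap_eq fun z => by
    change algebraMap PF O (algebraMap ℂ PF z) =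
      algebraMap PF O (algebraMap RatK PF (algebraMap ℂ RatK z))
    rw [← IsScalarTower.algebraMap_apply ℂ RatK PF]
  set k := IsLocalRing.ResidueField O with hk
  set res : O →+* k := IsLocalRing.residue O with hres
  have hresC : ∀ z : ℂ, res (algebraMap ℂ O z) = algebraMap ℂ k z := fun z => rfl
  have hresR : ∀ z : RatK, res (algebraMap RatK O z) = algebraMap RatK k z := fun z => rfl
  have hresP : ∀ z : PF, res (algebraMap PF O z) = algebraMap PF k z := fun z => rfl
  let resC : O →ₐ[ℂ] k := { res with commutes' := hresC }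
  have hresC' : ∀ z, resC z = res z := fun z => rfl
  -- the kernel of the matrix
  rw [aeval_DD] at hD
  obtain ⟨w, hw, r0, hr0⟩ := exists_kernel _ hD
  set NO := (Nm a b).map (aeval t : R3 →ₐ[ℂ] O) with hNO
  set lam : O := ∑ l, NO 0 l * w l with hlam
  have e0 := congrFun hw 0
  have e1 := congrFun hw 1
  have e2 := congrFun hw 2
  have e3 := congrFun hw 3
  change ∑ l, (NO 1 l - algebraMap PF O (algebraMap RatK PF (sgen 0)) * NO 0 l) * w l = 0 at e0
  change ∑ l, (NO 2 l - algebraMap PF O (algebraMap RatK PF (sgen 1)) * NO 0 l) * w l = 0 at e1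
  change ∑ l, lrow (fun a => algebraMap PF O (gl 0 a)) t l * w l = 0 at e2
  change ∑ l, lrow (fun a => algebraMap PF O (gl 1 a)) t l * w l = 0 at e3
  rw [lrow_dot] at e2 e3
  simp only [sub_mul, Finset.sum_sub_distrib, mul_assoc, ← Finset.mul_sum] at e0 e1
  have hact : act NO w = lam • fun i => algebraMap RatK O (tvec i) := by
    funext l
    change ∑ l', NO l l' * w l' = lam * algebraMap RatK O (tvec l)
    fin_cases l
    · change lam = lam * algebraMap RatK O 1
      rw [map_one, mul_one]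
    · change ∑ l', NO 1 l' * w l' = lam * algebraMap PF O (algebraMap RatK PF (sgen 0))
      rw [← hlam] at e0
      linear_combination e0
    · change ∑ l', NO 2 l' * w l' = lam * algebraMap PF O (algebraMap RatK PF (sgen 1))
      rw [← hlam] at e1
      linear_combination e1
  -- the reduction
  set tb : Fin 3 → k := fun i => res (t i) with htb
  set wb : Fin 4 → k := fun i => res (w i) with hwb
  have hresp : ∀ q : R3, res (aeval t q) = aeval tb q := by
    intro q
    exact MvPolynomial.comp_aeval_apply (R := ℂ) t resC q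
  have hwb0 : wb ≠ 0 := by
    intro h
    exact hr0 (congrFun h r0)
  have hp0 : res p = 0 := by
    rw [hres, IsLocalRing.residue_eq_zero_iff, hp.maximalIdeal_eq]
    exact Ideal.mem_span_singleton_self p
  have hgO' : aeval t g = u * p ^ j := by
    rw [← hgO]
    exact (aeval_map_algebraMap PF t g).symm
  have hgt : aeval tb g = 0 := by
    rw [← hresp, hgO', map_mul, map_pow, hp0, zero_pow hj.pos.ne', mul_zero]
  have hηb : ∑ i, algebraMap ℂ k (η i) * tb i = 1 := by
    have h1 := congrArg res hηt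
    rw [map_sum, map_one] at h1
    rw [← h1]
    refine Finset.sum_congr rfl fun i _ => ?_
    rw [map_mul]
    rfl
  have htb0 : tb ≠ 0 := by
    intro h
    rw [h] at hηb
    simp at hηb
  have hactb : act ((Nm a b).map (aeval tb : R3 →ₐ[ℂ] k)) wb =
      res lam • fun i => algebraMap RatK k (tvec i) := by
    funext l
    have h1 := congrArg res (congrFun hact l)
    change res (∑ l', aeval t (Nm a b l l') * w l') = res (lam * algebraMap RatK O (tvec l)) at h1
    rw [map_sum, map_mul] at h1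
    change ∑ l', aeval tb (Nm a b l l') * wb l' = res lam * algebraMap RatK k (tvec l)
    rw [← hresR, ← h1]
    refine Finset.sum_congr rfl fun l' _ => ?_
    rw [map_mul, hresp]
  by_cases hlb : res lam = 0
  swap
  · exact S.point_of_zero hm hodd tb wb (res lam) hlb hgt hactb
  exfalso
  have hNb : ∀ j, ∑ l, aeval tb (Nm a b j l) * wb l = 0 := by
    intro j
    have h1 := congrFun hactb j
    rw [hlb, zero_smul] at h1
    exact h1
  have hlin : ∀ i, ∑ a, algebraMap PF k (gl i a) * wvec tb wb a = 0 := by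
    have hw1 : ∀ a, res (wvec t w a) = wvec tb wb a := by
      intro a
      fin_cases a
      · exact map_mul res _ _
      · exact map_mul res _ _
      · exact map_mul res _ _
      · rfl
      · rfl
      · rfl
    have h1 : ∀ i, ∑ a, algebraMap PF O (gl i a) * wvec t w a = 0 → 
        ∑ a, algebraMap PF k (gl i a) * wvec tb wb a = 0 := by
      intro i h
      have h2 := congrArg res h
      rw [map_sum, map_zero] at h2
      rw [← h2]
      refine Finset.sum_congr rfl fun a _ => ?_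
      rw [map_mul, hw1, hresP]
    intro i
    fin_cases i
    · exact h1 0 e2
    · exact h1 1 e3
  by_cases hconst : ∃ (d : Fin 3 → ℂ) (r : k), tb = r • fun i => algebraMap ℂ k (d i)
  swap
  · -- a non-constant point
    refine no_generic hτ (Nm a b) hW hWN i0 j0 c0 d0 hnd hs hdeg hodd tb hgt ?_ htb0 wb hwb0 hNb
      hlin
    intro h0
    exact hconst (exists_const S.hgp S.hg hn' hnd tb hgt h0)
  -- a constant point
  obtain ⟨d, r, hdr⟩ := hconst
  have hsum : r * algebraMap ℂ k (∑ i, η i * d i) = 1 := by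
    rw [← hηb, hdr, map_sum, Finset.mul_sum]
    refine Finset.sum_congr rfl fun i _ => ?_
    simp only [Pi.smul_apply, smul_eq_mul, map_mul]
    ring
  have hr : r ≠ 0 := left_ne_zero_of_mul_eq_one hsum
  set z0 := ∑ i, η i * d i with hz0
  have hz00 : z0 ≠ 0 := by
    intro h
    rw [h, map_zero, mul_zero] at hsum
    exact zero_ne_one hsum
  have hd0 : d ≠ 0 := by
    intro h
    apply hz00
    rw [hz0, h]
    simp
  have hgd := S.const_zero d r hr tb hdr hgt
  obtain ⟨P, P', δ, hPP', hP'P, hdiag⟩ := hR1 d hd0 hgd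
  -- the value of the form at the point
  set qO : O := net B t (wvec t w) with hqO
  set PO : O := pf ((QR B).map (aeval t : R3 →ₐ[ℂ] O)) (fun i => aeval t (e i)) w with hPO
  set θ : O := ∑ i, ∑ j, qf (Θ i j) t * (algebraMap RatK O (tvec i) * algebraMap RatK O (tvec j))
    with hθ
  have key : PO ^ 2 - 4 * algebraMap ℂ O γ * aeval t g * qO = lam ^ 2 * θ := by
    rw [hPO, hqO, S.identity_at t w, ← hNO, hact, hθ, Finset.mul_sum]
    refine Finset.sum_congr rfl fun i _ => ?_
    rw [Finset.mul_sum]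
    refine Finset.sum_congr rfl fun j _ => ?_
    simp only [Pi.smul_apply, smul_eq_mul]
    ring
  have hnetb : res qO = net B tb (wvec tb wb) := by
    have h1 := map_qf' ((aeval t : R3 →ₐ[ℂ] O) : R3 →+* O) (QR B)
    have h2 : qO = qf ((QR B).map (aeval t : R3 →ₐ[ℂ] O)) w := (qf_QR B t w).symm
    have h3 : net B tb (wvec tb wb) = qf ((QR B).map (aeval tb : R3 →ₐ[ℂ] k)) wb :=
      (qf_QR B tb wb).symm
    rw [h2, h3]
    simp only [qf, Matrix.map_apply, Algebra.algebraMap_self, RingHom.id_apply, map_sum, map_mul,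
      hresp]
    rfl
  have hq0 : res qO = 0 := by
    by_contra hq
    have hqu : IsUnit qO := by
      rw [← IsLocalRing.residue_ne_zero_iff_isUnit]
      exact hq
    have h4u : IsUnit (4 * algebraMap ℂ O γ : O) := by
      have h1 : (4 * algebraMap ℂ O γ : O) = algebraMap ℂ O (4 * γ) := by
        rw [map_mul, map_ofNat]
      rw [h1]
      exact (IsUnit.mk0 (4 * γ) (mul_ne_zero (by norm_num) S.hγ)).map (algebraMap ℂ O)
    refine not_odd_order hp θ ?_ j hj lam PO (-(4 * algebraMap ℂ O γ) * u * qO)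
      ((h4u.neg.mul hu).mul hqu) ?_
    · -- the value is not a square
      intro hsq
      have hθb : IsLocalRing.residue O θ = r ^ 2 * algebraMap PF k (algebraMap RatK PF
          (∑ i, ∑ j, algebraMap ℂ RatK (qf (Θ i j) d) * (tvec i * tvec j))) := by
        have h1 : ∀ i j, res (qf (Θ i j) t) = r ^ 2 * algebraMap ℂ k (qf (Θ i j) d) := by
          intro i j
          have h2 : res (qf (Θ i j) t) = qf (Θ i j) tb := map_qf resC (Θ i j) t
          rw [h2, hdr, qf_smul]
          congr 1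
          exact (map_qf (Algebra.ofId ℂ k) (Θ i j) d).symm
        change res θ = _
        rw [hθ]
        simp only [map_sum, map_mul, h1, hresR, Finset.mul_sum]
        refine Finset.sum_congr rfl fun i _ => Finset.sum_congr rfl fun j _ => ?_
        rw [← IsScalarTower.algebraMap_apply RatK PF k, ← IsScalarTower.algebraMap_apply RatK PF k,
          ← IsScalarTower.algebraMap_apply RatK PF k, ← IsScalarTower.algebraMap_apply ℂ RatK k]
        ring
      rw [hθb] at hsq
      have hsq2 : IsSquare (algebraMap PF k (algebraMap RatK PF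
          (∑ i, ∑ j, algebraMap ℂ RatK (qf (Θ i j) d) * (tvec i * tvec j)))) := by
        obtain ⟨y, hy⟩ := hsq
        refine ⟨y / r, ?_⟩
        rw [div_mul_div_comm, eq_div_iff (mul_ne_zero hr hr), ← hy]
        ring
      obtain ⟨i', j', c', d', hne'⟩ := hR2 d hd0 hgd
      refine not_square hodd (Matrix.of fun i j => qf (Θ i j) d) ?_ ⟨i', j', c', d', hne'⟩ hsq2
      intro i j
      simp only [Matrix.of_apply]
      rw [S.hΘ]
    · rw [hgO'] at key
      linear_combination -key
  -- the form has no point of odd degree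
  set v : Fin 4 → k := ![r * wb 0, wb 1, wb 2, wb 3] with hv
  have hwv : wvec (fun i => algebraMap ℂ k (d i)) v = wvec tb wb := by
    funext a
    rw [hdr]
    fin_cases a
    · change r * wb 0 * algebraMap ℂ k (d 0) = wb 0 * (r * algebraMap ℂ k (d 0))
      ring
    · change r * wb 0 * algebraMap ℂ k (d 1) = wb 0 * (r * algebraMap ℂ k (d 1))
      ring
    · change r * wb 0 * algebraMap ℂ k (d 2) = wb 0 * (r * algebraMap ℂ k (d 2))
      ring
    · rfl
    · rfl
    · rfl
  have hv0 : v ≠ 0 := by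
    intro h
    apply hwb0
    have h0 : r * wb 0 = 0 := congrFun h 0
    have h1 : wb 1 = 0 := congrFun h 1
    have h2 : wb 2 = 0 := congrFun h 2
    have h3 : wb 3 = 0 := congrFun h 3
    funext i
    fin_cases i
    · exact (mul_eq_zero.mp h0).resolve_left hr
    · exact h1
    · exact h2
    · exact h3
  have hqd : qf ((QR B).map (aeval d : R3 →ₐ[ℂ] ℂ)) v = 0 := by
    have h1 : net B (fun i => algebraMap ℂ k (d i)) (wvec (fun i => algebraMap ℂ k (d i)) v) = 0 := by
      have h2 : net B tb (wvec tb wb) = r * net B (fun i => algebraMap ℂ k (d i)) (wvec tb wb) := by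
        rw [hdr]
        simp only [net, Pi.smul_apply, smul_eq_mul, Finset.mul_sum]
        refine Finset.sum_congr rfl fun i _ => ?_
        ring
      rw [hnetb, h2] at hq0
      rw [hwv]
      exact (mul_eq_zero.mp hq0).resolve_left hr
    rw [← qf_QR] at h1
    rw [← h1]
    simp only [qf, Matrix.map_apply, Algebra.algebraMap_self, RingHom.id_apply]
    refine Finset.sum_congr rfl fun i _ => Finset.sum_congr rfl fun j _ => ?_
    congr 1
    have := MvPolynomial.comp_aeval_apply (R := ℂ) d (Algebra.ofId ℂ k) (QR B i j)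
    exact this
  exact const_false hodd d (fun i => η i / z0) (by
    simp only [div_mul_eq_mul_div, ← Finset.sum_div]
    exact div_self hz00) P P' δ hPP' hP'P (fun u => diag_ext _ P δ hdiag u) v hv0 hqd (by
      intro i
      rw [hwv]
      exact hlin i)

end Vale.Agent.P287.H69
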