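import Vale.Agent.P287.H69.Relate

/-!
The second quadric surface fibration of a Verra fourfold with smooth first discriminant curve is
generically nondegenerate.
-/

open MvPolynomial

namespace Vale.Agent.P287.H69

open Vale.Agent.P287 Vale.Agent.P287.H631

/-- The first derivatives of a smooth form in three variables have no common zero over extension
fields. -/
theorem smooth_ext3 {F : R3} (hs : ∀ z : Fin 3 → ℂ, (∀ i, aeval z (pderiv i F) = 0) → z = 0)
    {E : Type*} [Field E] [Algebra ℂ E] (z : Fin 3 → E)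
    (hz : ∀ i, aeval z (pderiv i F) = 0) : z = 0 := by
  classical
  set I : Ideal R3 := Ideal.span (Set.range fun i => pderiv i F) with hI
  have hrad : I.radical = vanishingIdeal ℂ (zeroLocus ℂ I) :=
    (vanishingIdeal_zeroLocus_eq_radical I).symm
  funext i
  have h1 : (X i : R3) ∈ I.radical := by
    rw [hrad, mem_vanishingIdeal_iff]
    intro x hx
    have hx0 : x = 0 := by
      apply hs
      intro j
      exact (mem_zeroLocus_iff.mp hx) _ (Ideal.subset_span ⟨j, rfl⟩)
    rw [hx0]
    simp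
  obtain ⟨n, hn⟩ := h1
  have h2 : ∀ p ∈ I, aeval z p = 0 := by
    intro p hp
    have h3 : I ≤ RingHom.ker (aeval z : R3 →ₐ[ℂ] E) := by
      rw [hI, Ideal.span_le]
      rintro _ ⟨j, rfl⟩
      exact hz j
    exact h3 hp
  have h3 := h2 _ hn
  rw [map_pow, aeval_X] at h3
  exact eq_zero_of_pow_eq_zero h3

/-- If the `2 × 2` minors of a `3 × 3` matrix of polynomials vanish at a point then its determinant
is singular there: points over extension fields. -/
theorem two_minors_ext (S : Matrix (Fin 3) (Fin 3) R3) {E : Type*} [Field E] [Algebra ℂ E]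
    (p : Fin 3 → E)
    (h : ∀ a b c d : Fin 3, aeval p (S a c) * aeval p (S b d) -
      aeval p (S a d) * aeval p (S b c) = 0) (i : Fin 3) :
    aeval p (pderiv i S.det) = 0 := by
  rw [Matrix.det_fin_three]
  simp only [map_add, map_sub, Derivation.leibniz, smul_eq_mul, map_mul]
  linear_combination aeval p (pderiv i (S 0 0)) * h 1 2 1 2
    - aeval p (pderiv i (S 0 1)) * h 1 2 0 2
    + aeval p (pderiv i (S 0 2)) * h 1 2 0 1
    - aeval p (pderiv i (S 1 0)) * h 0 2 1 2
    + aeval p (pderiv i (S 1 1)) * h 0 2 0 2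
    - aeval p (pderiv i (S 1 2)) * h 0 2 0 1
    + aeval p (pderiv i (S 2 0)) * h 0 1 1 2
    - aeval p (pderiv i (S 2 1)) * h 0 1 0 2
    + aeval p (pderiv i (S 2 2)) * h 0 1 0 1

/-- The kernel of a `3 × 3` matrix with a nonvanishing `2 × 2` minor is at most one dimensional. -/
lemma ker_unique {K : Type*} [Field K] (S : Matrix (Fin 3) (Fin 3) K) {a b c d : Fin 3}
    (h : S a c * S b d - S a d * S b c ≠ 0) (x y : Fin 3 → K) (hx : ∀ i, ∑ j, S i j * x j = 0)
    (hy : ∀ i, ∑ j, S i j * y j = 0) (hx0 : x 0 = 1) (i : Fin 3) : y i = y 0 * x i := by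
  -- the cross product of two rows
  set n : Fin 3 → K := ![S a 1 * S b 2 - S a 2 * S b 1, S a 2 * S b 0 - S a 0 * S b 2,
    S a 0 * S b 1 - S a 1 * S b 0] with hn
  have hcr : ∀ w : Fin 3 → K, (∀ i, ∑ j, S i j * w j = 0) →
      w 0 * n 1 = w 1 * n 0 ∧ w 0 * n 2 = w 2 * n 0 ∧ w 1 * n 2 = w 2 * n 1 := by
    intro w hw
    have h1 := hw a
    have h2 := hw b
    rw [Fin.sum_univ_three] at h1 h2
    have e0 : n 0 = S a 1 * S b 2 - S a 2 * S b 1 := rfl
    have e1 : n 1 = S a 2 * S b 0 - S a 0 * S b 2 := rfl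
    have e2 : n 2 = S a 0 * S b 1 - S a 1 * S b 0 := rfl
    rw [e0, e1, e2]
    refine ⟨?_, ?_, ?_⟩
    · linear_combination S a 2 * h2 - S b 2 * h1
    · linear_combination S b 1 * h1 - S a 1 * h2
    · linear_combination S a 0 * h2 - S b 0 * h1
  obtain ⟨x1, x2, x3⟩ := hcr x hx
  obtain ⟨y1, y2, y3⟩ := hcr y hy
  have hn0 : n 0 ≠ 0 := by
    intro h0
    rw [hx0, h0, mul_zero, one_mul] at x1 x2
    apply h
    have e0 : S a 1 * S b 2 - S a 2 * S b 1 = 0 := h0
    have e1 : S a 2 * S b 0 - S a 0 * S b 2 = 0 := x1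
    have e2 : S a 0 * S b 1 - S a 1 * S b 0 = 0 := x2
    fin_cases c <;> fin_cases d <;> simp only [Fin.isValue, Fin.zero_eta, Fin.mk_one,
      Fin.reduceFinMk] <;>
      first
        | ring1
        | linear_combination e0
        | linear_combination e1
        | linear_combination e2
        | linear_combination -e0
        | linear_combination -e1
        | linear_combination -e2
  rw [hx0, one_mul] at x1 x2
  fin_cases i
  · change y 0 = y 0 * x 0
    rw [hx0, mul_one]
  · change y 1 = y 0 * x 1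
    apply mul_right_cancel₀ hn0
    linear_combination y 0 * x1 - y1
  · change y 2 = y 0 * x 2
    apply mul_right_cancel₀ hn0
    linear_combination y 0 * x2 - y2

/-- **Nondegeneracy of the second fibration.** -/
theorem second_nondeg (Θ : Fin 3 → Fin 3 → Matrix (Fin 3) (Fin 3) ℂ) (hΘ : ∀ i j, Θ i j = Θ j i)
    (hsm : ∀ z : Fin 3 → ℂ, (∀ i, aeval z (pderiv i
      (Matrix.of fun i j => qf (Θ i j) (X : Fin 3 → R3)).det) = 0) → z = 0)
    (v : Fin 4 → RatK) (hv : v ≠ 0) : ∃ u : Fin 4 → RatK, pf (Q2 Θ tvec) v u ≠ 0 := by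
  classical
  by_contra hcon
  push Not at hcon
  have hchar : CharZero RatK := charZero_of_injective_algebraMap (algebraMap ℂ RatK).injective
  set t : Fin 3 → RatK := ![v 0, v 1, v 2] with ht
  have hvt : v = tv t (v 3) := by
    funext i
    fin_cases i <;> rfl
  have hs0 : v 3 = 0 := by
    have h1 := hcon (tv 0 1)
    rw [hvt, pf_Q2] at h1
    simp only [pf_zero_right, zero_mul, Finset.sum_const_zero, sub_zero, mul_one] at h1
    exact (mul_eq_zero.mp h1).resolve_left two_ne_zero
  have h3 : ∀ τ : Fin 3 → RatK, ∑ i, ∑ j, pf (Θ i j) t τ *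
      (algebraMap RatK RatK (tvec i) * algebraMap RatK RatK (tvec j)) = 0 := by
    intro τ
    have h1 := hcon (tv τ 0)
    rw [hvt, pf_Q2, mul_zero, zero_sub, neg_eq_zero] at h1
    exact h1
  have ht0 : t ≠ 0 := by
    intro h0
    apply hv
    rw [hvt, h0, hs0]
    funext i
    fin_cases i <;> rfl
  have h1 : ∀ i, ∑ j, qf (Θ i j) t * tvec j = 0 := crit_der (E := RatK) hΘ t h3
  set A : Matrix (Fin 3) (Fin 3) R3 := Matrix.of fun i j => qf (Θ i j) (X : Fin 3 → R3) with hA
  have hAt : ∀ i j, aeval t (A i j) = qf (Θ i j) t := fun i j => aeval_qfX (Θ i j) t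
  set S : Matrix (Fin 3) (Fin 3) RatK := Matrix.of fun i j => qf (Θ i j) t with hS
  have hSx : ∀ i, ∑ j, S i j * tvec j = 0 := h1
  have hx0 : tvec 0 = 1 := rfl
  -- a nonvanishing minor
  obtain ⟨a, b, c, d, hmin⟩ : ∃ a b c d : Fin 3, S a c * S b d - S a d * S b c ≠ 0 := by
    by_contra hc
    push Not at hc
    apply ht0
    refine smooth_ext3 hsm t fun i => two_minors_ext A t (fun a b c d => ?_) i
    rw [hAt, hAt, hAt, hAt]
    exact hc a b c d
  -- the determinant vanishes at `t`
  have hdet0 : aeval t A.det = 0 := by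
    have e1 : aeval t A.det = S.det := by
      have h2 := RingHom.map_det ((aeval t : R3 →ₐ[ℂ] RatK) : R3 →+* RatK) A
      refine h2.trans ?_
      congr 1
      ext i j
      exact hAt i j
    rw [e1]
    apply Matrix.exists_mulVec_eq_zero_iff.mp
    refine ⟨tvec, fun h => ?_, ?_⟩
    · have := congrFun h 0
      rw [hx0] at this
      exact one_ne_zero this
    · funext i
      exact hSx i
  have hdethom : A.det.IsHomogeneous 6 := by
    rw [Matrix.det_fin_three]
    have hA2 : ∀ i j, (A i j).IsHomogeneous 2 := fun i j => qf_homog (Θ i j)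
    have h6 : ∀ a b c d e f : Fin 3, (A a b * A c d * A e f).IsHomogeneous 6 := fun a b c d e f =>
      ((hA2 a b).mul (hA2 c d)).mul (hA2 e f)
    exact (((((h6 _ _ _ _ _ _).sub (h6 _ _ _ _ _ _)).sub (h6 _ _ _ _ _ _)).add
      (h6 _ _ _ _ _ _)).add (h6 _ _ _ _ _ _)).sub (h6 _ _ _ _ _ _)
  set ν : Fin 3 → RatK := fun i => aeval t (pderiv i A.det) with hν
  have hν0 : ν ≠ 0 := fun h => ht0 (smooth_ext3 hsm t fun i => congrFun h i)
  -- Euler
  have heul : ∑ i, t i * ν i = 0 := by
    have h2 := congrArg (aeval t : R3 →ₐ[ℂ] RatK) hdethom.sum_X_mul_pderiv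
    rw [map_sum, map_nsmul, hdet0, nsmul_zero] at h2
    rw [← h2]
    refine Finset.sum_congr rfl fun i _ => ?_
    rw [map_mul, aeval_X]
  obtain ⟨D1, hD1⟩ := exists_der (E := RatK) 0
  obtain ⟨D2, hD2⟩ := exists_der (E := RatK) 1
  have hder : ∀ D : Derivation ℂ RatK RatK, ∑ i, D (t i) * ν i = 0 := by
    intro D
    have h2 := der_aeval D t A.det
    rw [hdet0, map_zero] at h2
    rw [h2]
    refine Finset.sum_congr rfl fun i _ => ?_
    rw [mul_comm]
  -- three vectors in a plane
  set L : Matrix (Fin 3) (Fin 3) RatK := ![t, fun i => D1 (t i), fun i => D2 (t i)] with hL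
  have hLdet : L.det = 0 := by
    apply Matrix.exists_mulVec_eq_zero_iff.mp
    refine ⟨ν, hν0, ?_⟩
    funext i
    fin_cases i
    · exact heul
    · exact hder D1
    · exact hder D2
  obtain ⟨w, hw0, hw⟩ := Matrix.exists_vecMul_eq_zero_iff.mpr hLdet
  have hw' : ∀ i, w 0 * t i + w 1 * D1 (t i) + w 2 * D2 (t i) = 0 := by
    intro i
    have h2 := congrFun hw i
    simp only [Matrix.vecMul, dotProduct, Fin.sum_univ_three] at h2
    exact h2
  set D : Derivation ℂ RatK RatK := w 1 • D1 + w 2 • D2 with hD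
  have hDt : ∀ i, D (t i) = -w 0 * t i := by
    intro i
    have : D (t i) = w 1 * D1 (t i) + w 2 * D2 (t i) := rfl
    rw [this]
    linear_combination hw' i
  have hDA : ∀ i j, D (S i j) = -2 * w 0 * S i j := by
    intro i j
    change D (qf (Θ i j) t) = -2 * w 0 * qf (Θ i j) t
    rw [derivation_qf]
    have h2 : (fun a => D (t a)) = (-w 0) • t := by
      funext a
      rw [hDt]
      rfl
    rw [h2, pf_smul_right, pf_self]
    ring
  have hSDx : ∀ i, ∑ j, S i j * D (tvec j) = 0 := by
    intro i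
    have h2 := congrArg D (hSx i)
    rw [map_sum, map_zero] at h2
    have h4 : ∀ j, D (S i j * tvec j) = S i j * D (tvec j) + -2 * w 0 * (S i j * tvec j) := by
      intro j
      rw [Derivation.leibniz, hDA]
      simp only [smul_eq_mul]
      ring
    simp only [h4, Finset.sum_add_distrib, ← Finset.mul_sum] at h2
    rw [hSx, mul_zero, add_zero] at h2
    exact h2
  have hD0 : D (tvec 0) = 0 := by
    rw [hx0, Derivation.map_one_eq_zero]
  have hDx : ∀ i, D (tvec i) = 0 := by
    intro i
    have h2 := ker_unique S hmin tvec (fun i => D (tvec i)) hSx hSDx hx0 i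
    simp only [hD0, zero_mul] at h2
    exact h2
  have e1 : w 1 = 0 := by
    have h2 := hDx 1
    have h4 : D (tvec 1) = w 1 * D1 (tvec 1) + w 2 * D2 (tvec 1) := rfl
    have h5 : D1 (tvec 1) = 1 := hD1 0
    have h6 : D2 (tvec 1) = 0 := hD2 0
    rw [h4, h5, h6, mul_one, mul_zero, add_zero] at h2
    exact h2
  have e2 : w 2 = 0 := by
    have h2 := hDx 2
    have h4 : D (tvec 2) = w 1 * D1 (tvec 2) + w 2 * D2 (tvec 2) := rfl
    have h5 : D1 (tvec 2) = 0 := hD1 1
    have h6 : D2 (tvec 2) = 1 := hD2 1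
    rw [h4, h5, h6, mul_one, mul_zero, zero_add] at h2
    exact h2
  apply hw0
  funext i
  fin_cases i
  · change w 0 = 0
    obtain ⟨k, hk⟩ : ∃ k, t k ≠ 0 := by
      by_contra hc
      push Not at hc
      exact ht0 (funext hc)
    have h2 := hw' k
    rw [e1, e2, zero_mul, zero_mul, add_zero, add_zero] at h2
    exact (mul_eq_zero.mp h2).resolve_right hk
  · exact e1
  · exact e2

end Vale.Agent.P287.H69
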